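import Vale.Agent.P371.Pencil.Cone

/-!
P371, calculus in cone coordinates, for every `0 < ν < 1` up to the boundary: the potential is `C¹`
along segments of the cone with differential `dPhiQ`, it is homogeneous, and the dual inequality holds.
-/

namespace Vale.Agent.P371.Pencil

open Matrix Complex MeasureTheory Filter Set
open scoped ComplexOrder Matrix.Norms.L2Operator Topology

variable {n : Type} [Fintype n] [DecidableEq n] {q d : Matrix n n ℂ × Matrix n n ℂ} {ν : ℝ}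

/-- Half the difference, as a linear map. -/
noncomputable def cBL : Matrix n n ℂ × Matrix n n ℂ →L[ℝ] Matrix n n ℂ :=
  (1 / 2 : ℝ) • (ContinuousLinearMap.fst ℝ _ _ - ContinuousLinearMap.snd ℝ _ _)

/-- Half the sum, as a linear map. -/
noncomputable def cCL : Matrix n n ℂ × Matrix n n ℂ →L[ℝ] Matrix n n ℂ :=
  (1 / 2 : ℝ) • (ContinuousLinearMap.fst ℝ _ _ + ContinuousLinearMap.snd ℝ _ _)

lemma cBL_apply (q : Matrix n n ℂ × Matrix n n ℂ) : cBL q = cB q := rfl

lemma cCL_apply (q : Matrix n n ℂ × Matrix n n ℂ) : cCL q = cC q := rfl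

/-- The differential of the potential as a linear map. -/
noncomputable def dPhiQL (ν : ℝ) (q : Matrix n n ℂ × Matrix n n ℂ) : Matrix n n ℂ × Matrix n n ℂ →L[ℝ] ℝ :=
  (pairing (XiZ ν (codeQ q))).comp cBL + (2 : ℝ) • (pairing (HQ ν q)).comp cCL

lemma dPhiQL_apply (q d : Matrix n n ℂ × Matrix n n ℂ) : dPhiQL ν q d = dPhiQ ν q d := by
  show (cB d * XiZ ν (codeQ q)).trace.re + 2 * (cC d * HQ ν q).trace.re = _
  rw [Matrix.trace_mul_comm (cB d), Matrix.trace_mul_comm (cC d), dPhiQ]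

theorem continuousOn_dPhiQL (hν : 0 < ν) (hν1 : ν < 1) : ContinuousOn (dPhiQL (n := n) ν) coneQ := by
  refine continuousOn_clm_apply.2 fun d => ?_
  simp only [dPhiQL_apply]
  exact ContinuousOn.comp (g := fun p : (Matrix n n ℂ × Matrix n n ℂ) × (Matrix n n ℂ × Matrix n n ℂ) => dPhiQ ν p.1 p.2)
    (f := fun x => (x, d)) (t := coneQ ×ˢ univ) (continuousOn_dPhiQ hν hν1)
    (continuousOn_id.prodMk continuousOn_const) fun x hx => Set.mk_mem_prod hx (Set.mem_univ _)

/-- Euler's identity. -/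
lemma dPhiQ_self (hν : 0 < ν) (q : Matrix n n ℂ × Matrix n n ℂ) :
    dPhiQ ν q q = (2 * ν + 1) * PhiQ ν q := by
  rw [dPhiQ, PhiQ]
  field_simp

/-- The fractional multiplier is Hermitian. -/
lemma isHermitian_GeZ (hν : 0 < ν) (hν1 : ν < 1) {z : Matrix n n ℂ} (hz : z ∈ domZ) :
    (GeZ ν z).IsHermitian := by
  set S := (starL' ℝ : Matrix n n ℂ ≃L[ℝ] Matrix n n ℂ).toContinuousLinearMap
  show S (GeZ ν z) = GeZ ν z
  rw [GeZ, multI, map_smul, ← S.integral_comp_comm (integrableOn_multInt hν hν1 hz)]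
  congr 1
  refine setIntegral_congr_fun measurableSet_Ioi fun u hu => ?_
  obtain ⟨hs, -⟩ := rootZ_spec (shiftZ_mem hz (le_of_lt (show (0 : ℝ) < u from hu)))
  have hG := isHermitian_gOf hs.isUnit hs.lyapSol_posDef.isHermitian (lyapSol_spec hs.isUnit_lyapL)
  show (u ^ (ν - 1 / 2) • (0 + gZ (shiftZ z u)))ᴴ = _
  rw [zero_add, ← Complex.coe_smul, conjTranspose_smul, Complex.star_def, Complex.conj_ofReal, gZ, wZ, hG.eq]

/-- The symmetrised multiplier, where the multiplier converges. -/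
lemma HQ_eq (hi : IntegrableOn (fun u => u ^ (ν - 1 / 2) • (0 + gZ (shiftZ (codeQ q) u))) (Ioi 0)) :
    HQ ν q = cC q * GeZ ν (codeQ q) := by
  rw [HQ, GeZ, mul_smul_comm]
  congr 1
  set L := ContinuousLinearMap.mul ℝ (Matrix n n ℂ) (cC q)
  rw [hI, multI, show cC q * (∫ u in Ioi (0 : ℝ), u ^ (ν - 1 / 2) • (0 + gZ (shiftZ (codeQ q) u))) =
    L (∫ u in Ioi (0 : ℝ), u ^ (ν - 1 / 2) • (0 + gZ (shiftZ (codeQ q) u))) from rfl, ← L.integral_comp_comm hi]
  refine setIntegral_congr_fun measurableSet_Ioi fun u hu => ?_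
  simp [L]

lemma PhiQ_eq_of_integrable (hq : q ∈ coneQ)
    (hi : IntegrableOn (fun u => u ^ (ν - 1 / 2) • (0 + gZ (shiftZ (codeQ q) u))) (Ioi 0)) :
    PhiQ ν q = Phi ν (codeQ q) := by
  rw [PhiQ, Phi, (parts_codeQ hq).1, (parts_codeQ hq).2, HQ_eq hi, Matrix.trace_mul_cycle (cC q),
    Matrix.trace_mul_comm (GeZ ν (codeQ q))]

/-- Inside the cone it is the potential of the code. -/
theorem PhiQ_eq (hν : 0 < ν) (hν1 : ν < 1) (h1 : q.1.PosDef) (h2 : q.2.PosDef) :
    PhiQ ν q = Phi ν (codeQ q) :=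
  PhiQ_eq_of_integrable ⟨h1.posSemidef, h2.posSemidef⟩ (integrableOn_multInt hν hν1 (codeQ_mem_domZ h1 h2))

/-- It is the potential of the code also on the boundary where the sum is positive. -/
theorem PhiQ_eq' (hν : 1 / 2 < ν) (hν1 : ν < 1) (hq : q ∈ coneQ) (hC : (cC q).PosDef) :
    PhiQ ν q = Phi ν (codeQ q) := by
  refine PhiQ_eq_of_integrable hq (multI_closed hν hν1 (show codeQ q ∈ domZP from ⟨codeQ_mem hq, ?_⟩)).1
  rw [(parts_codeQ hq).2]
  have h := Matrix.PosDef.conjTranspose_mul_self (cC q) (Matrix.mulVec_injective_iff_isUnit.2 hC.isUnit)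
  rwa [hC.isHermitian.eq] at h

lemma hasDerivAt_codeQ_line (q₀ d : Matrix n n ℂ × Matrix n n ℂ) (t : ℝ) :
    HasDerivAt (fun t : ℝ => codeQ (q₀ + t • d))
      ((2 : ℂ) • cB d + I • (cC d * cC (q₀ + t • d) + cC (q₀ + t • d) * cC d)) t := by
  have h0 : HasDerivAt (fun t : ℝ => q₀ + t • d) d t := by
    simpa using ((hasDerivAt_id t).smul_const d).const_add q₀
  have h1 : HasDerivAt (fun t : ℝ => cB (q₀ + t • d)) (cB d) t :=
    (cBL (n := n)).hasFDerivAt.comp_hasDerivAt t h0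
  have h2 : HasDerivAt (fun t : ℝ => cC (q₀ + t • d)) (cC d) t :=
    (cCL (n := n)).hasFDerivAt.comp_hasDerivAt t h0
  exact (h1.const_smul (2 : ℂ)).add ((h2.mul h2).const_smul I)

/-- The derivative along lines inside the cone. -/
theorem hasDerivAt_PhiQ_line (hν : 0 < ν) (hν1 : ν < 1) {q₀ : Matrix n n ℂ × Matrix n n ℂ} {t : ℝ}
    (hd : d.1.IsHermitian ∧ d.2.IsHermitian) (hnear : ∀ᶠ s in 𝓝 t, (q₀ + s • d).1.PosDef ∧ (q₀ + s • d).2.PosDef) :
    HasDerivAt (fun t : ℝ => PhiQ ν (q₀ + t • d)) (dPhiQ ν (q₀ + t • d) d) t := by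
  obtain ⟨h1, h2⟩ := hnear.self_of_nhds
  set q := q₀ + t • d
  have hq : q ∈ coneQ := ⟨h1.posSemidef, h2.posSemidef⟩
  have hz := codeQ_mem_domZ h1 h2
  set C := cC q
  set D := cC d
  have hD : D.IsHermitian := (IsSelfAdjoint.all (1 / 2 : ℝ)).smul (hd.1.add hd.2)
  have hB : (cB d).IsHermitian := (IsSelfAdjoint.all (1 / 2 : ℝ)).smul (hd.1.sub hd.2)
  have hC : C.IsHermitian := isHermitian_cC hq
  have hDC : (D * C + C * D).IsHermitian := by
    show _ = _
    rw [conjTranspose_add, conjTranspose_mul, conjTranspose_mul, hD.eq, hC.eq, add_comm]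
  obtain ⟨e1, e2⟩ := parts_eq hB hDC
  have h := HasFDerivAt.comp_hasDerivAt t (hasFDerivAt_Phi hν hν1 hz) (hasDerivAt_codeQ_line q₀ d t)
  refine (h.congr_of_eventuallyEq (hnear.mono fun s hs => PhiQ_eq hν hν1 hs.1 hs.2)).congr_deriv ?_
  rw [dPhi_apply, e1, e2, dPhiQ, HQ_eq (integrableOn_multInt hν hν1 hz)]
  have hG := isHermitian_GeZ hν hν1 hz
  set G := GeZ ν (codeQ q)
  have a1 : (G * (D * C)).trace = (C * G * D).trace := by
    rw [← Matrix.mul_assoc, Matrix.trace_mul_comm (G * D), Matrix.mul_assoc]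
  have a2 : (G * (C * D)).trace.re = (G * (D * C)).trace.re := by
    rw [show G * (C * D) = ((D * C) * G)ᴴ by rw [conjTranspose_mul, conjTranspose_mul, hD.eq, hC.eq, hG.eq],
      Matrix.trace_conjTranspose, Complex.star_def, Complex.conj_re, Matrix.trace_mul_comm]
  rw [Matrix.mul_add, Matrix.trace_add, Complex.add_re, a2, a1]
  ring

/-- The interior shift. -/
def one2 : Matrix n n ℂ × Matrix n n ℂ := (1, 1)

lemma shift_interior (hq : q ∈ coneQ) {ε : ℝ} (hε : 0 < ε) :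
    (q + ε • one2).1.PosDef ∧ (q + ε • one2).2.PosDef :=
  ⟨Matrix.PosDef.posSemidef_add hq.1 (Matrix.PosDef.one.smul hε),
    Matrix.PosDef.posSemidef_add hq.2 (Matrix.PosDef.one.smul hε)⟩

lemma shift_mem (hq : q ∈ coneQ) {ε : ℝ} (hε : 0 ≤ ε) : q + ε • one2 ∈ coneQ :=
  ⟨hq.1.add (Matrix.PosSemidef.one.smul hε), hq.2.add (Matrix.PosSemidef.one.smul hε)⟩

omit [Fintype n] [DecidableEq n] in
lemma convex_coneQ : Convex ℝ (coneQ (n := n)) := fun x hx y hy a b ha hb _ =>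
  ⟨(hx.1.smul ha).add (hy.1.smul hb), (hx.2.smul ha).add (hy.2.smul hb)⟩

lemma continuousOn_dPhiQ_comp (hν : 0 < ν) (hν1 : ν < 1) {X : Type} [TopologicalSpace X] {s : Set X}
    {f : X → Matrix n n ℂ × Matrix n n ℂ} (hf : ContinuousOn f s) (h : MapsTo f s coneQ)
    (d : Matrix n n ℂ × Matrix n n ℂ) : ContinuousOn (fun x => dPhiQ ν (f x) d) s :=
  ContinuousOn.comp (g := fun p : (Matrix n n ℂ × Matrix n n ℂ) × (Matrix n n ℂ × Matrix n n ℂ) => dPhiQ ν p.1 p.2)
    (f := fun x => (f x, d)) (t := coneQ ×ˢ univ) (continuousOn_dPhiQ hν hν1) (hf.prodMk continuousOn_const)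
    fun _ hx => Set.mk_mem_prod (h hx) (Set.mem_univ _)

omit [Fintype n] [DecidableEq n] in
lemma line_mem {q₁ : Matrix n n ℂ × Matrix n n ℂ} (h0 : q ∈ coneQ) (h1 : q₁ ∈ coneQ) {t : ℝ}
    (ht : t ∈ Icc (0 : ℝ) 1) : q + t • (q₁ - q) ∈ coneQ :=
  convex_coneQ.add_smul_sub_mem h0 h1 ht

/-- The potential along a segment of the closed cone. -/
theorem PhiQ_sub_eq_integral (hν : 0 < ν) (hν1 : ν < 1) {q₀ q₁ : Matrix n n ℂ × Matrix n n ℂ}
    (h0 : q₀ ∈ coneQ) (h1 : q₁ ∈ coneQ) :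
    PhiQ ν q₁ - PhiQ ν q₀ = ∫ t in (0 : ℝ)..1, dPhiQ ν (q₀ + t • (q₁ - q₀)) (q₁ - q₀) := by
  set d := q₁ - q₀
  set P : ℝ → ℝ → Matrix n n ℂ × Matrix n n ℂ := fun ε t => q₀ + ε • one2 + t • d
  have hP : ∀ ε t, P ε t = q₀ + t • d + ε • one2 := fun ε t => add_right_comm _ _ _
  have hmem : ∀ ε, 0 ≤ ε → ∀ t ∈ Icc (0 : ℝ) 1, P ε t ∈ coneQ := fun ε hε t ht => by
    rw [hP]
    exact shift_mem (line_mem h0 h1 ht) hε
  have hPc : Continuous fun p : ℝ × ℝ => P p.1 p.2 :=
    (continuous_const.add (continuous_fst.smul continuous_const)).add (continuous_snd.smul continuous_const)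
  have hF : ContinuousOn (fun p : ℝ × ℝ => dPhiQ ν (P p.1 p.2) d) (Icc 0 1 ×ˢ Icc 0 1) :=
    continuousOn_dPhiQ_comp hν hν1 hPc.continuousOn (fun p hp => hmem p.1 hp.1.1 p.2 hp.2) d
  have hg : ContinuousWithinAt (fun ε => PhiQ ν (P ε 1) - PhiQ ν (P ε 0)) (Icc 0 1) 0 := by
    have hc : ∀ t ∈ Icc (0 : ℝ) 1, ContinuousWithinAt (fun ε => PhiQ ν (P ε t)) (Icc 0 1) 0 := fun t ht =>
      ContinuousOn.comp (g := PhiQ ν) (f := fun ε => P ε t) (t := coneQ) (continuousOn_PhiQ hν hν1)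
        (hPc.comp (continuous_id.prodMk continuous_const)).continuousOn
        (fun ε hε => hmem ε hε.1 t ht) 0 (left_mem_Icc.2 zero_le_one)
    exact (hc 1 (right_mem_Icc.2 zero_le_one)).sub (hc 0 (left_mem_Icc.2 zero_le_one))
  have he : ∀ ε, 0 < ε → ε ≤ 1 →
      PhiQ ν (P ε 1) - PhiQ ν (P ε 0) = ∫ t in (0 : ℝ)..1, dPhiQ ν (P ε t) d := fun ε hε hε1 => by
    refine (intervalIntegral.integral_eq_sub_of_hasDerivAt_of_le (f := fun t => PhiQ ν (P ε t)) zero_le_one
      (ContinuousOn.comp (g := PhiQ ν) (f := fun t => P ε t) (t := coneQ) (continuousOn_PhiQ hν hν1)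
        (hPc.comp (continuous_const.prodMk continuous_id)).continuousOn fun t ht => hmem ε hε.le t ht)
      (fun t ht => hasDerivAt_PhiQ_line hν hν1 ⟨h1.1.isHermitian.sub h0.1.isHermitian,
        h1.2.isHermitian.sub h0.2.isHermitian⟩ ?_) ?_).symm
    · filter_upwards [Icc_mem_nhds ht.1 ht.2] with s hs
      rw [add_right_comm]
      exact shift_interior (line_mem h0 h1 hs) hε
    · refine ContinuousOn.intervalIntegrable ?_
      rw [uIcc_of_le zero_le_one]
      exact continuousOn_dPhiQ_comp hν hν1 (hPc.comp (continuous_const.prodMk continuous_id)).continuousOn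
        (fun t ht => hmem ε hε.le t ht) d
  have h := limit_integral (F := fun ε t => dPhiQ ν (P ε t) d) zero_le_one hF hg he
  simpa [P, d] using h

/-- The potential is differentiable on the closed cone. -/
theorem hasFDerivWithinAt_PhiQ (hν : 0 < ν) (hν1 : ν < 1) (hq : q ∈ coneQ) :
    HasFDerivWithinAt (PhiQ ν) (dPhiQL ν q) coneQ q := by
  refine HasFDerivWithinAt.of_isLittleO (Asymptotics.isLittleO_iff.2 fun c hc => ?_)
  obtain ⟨δ, hδ, hb⟩ := Metric.continuousWithinAt_iff.1 (continuousOn_dPhiQL hν hν1 q hq) c hc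
  filter_upwards [self_mem_nhdsWithin, mem_nhdsWithin_of_mem_nhds (Metric.ball_mem_nhds q hδ)] with w hw hwb
  have hint : IntervalIntegrable (fun t : ℝ => dPhiQ ν (q + t • (w - q)) (w - q)) volume 0 1 := by
    refine ContinuousOn.intervalIntegrable ?_
    rw [uIcc_of_le zero_le_one]
    exact continuousOn_dPhiQ_comp hν hν1 (f := fun t : ℝ => q + t • (w - q))
      (continuous_const.add (continuous_id.smul continuous_const)).continuousOn
      (fun t ht => line_mem hq hw ht) (w - q)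
  rw [PhiQ_sub_eq_integral hν hν1 hq hw,
    show dPhiQL ν q (w - q) = ∫ _t in (0 : ℝ)..1, dPhiQL ν q (w - q) by simp,
    ← intervalIntegral.integral_sub hint intervalIntegrable_const]
  refine (intervalIntegral.norm_integral_le_of_norm_le_const (C := c * ‖w - q‖) fun t ht => ?_).trans_eq (by simp)
  rw [uIoc_of_le zero_le_one] at ht
  rw [← dPhiQL_apply, ← _root_.sub_apply]
  refine ((dPhiQL ν (q + t • (w - q)) - dPhiQL ν q).le_opNorm _).trans
    (mul_le_mul_of_nonneg_right ?_ (norm_nonneg _))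
  rw [← dist_eq_norm]
  refine (hb (line_mem hq hw ⟨ht.1.le, ht.2⟩) ?_).le
  rw [dist_eq_norm, add_sub_cancel_left, norm_smul, Real.norm_of_nonneg ht.1.le, ← dist_eq_norm]
  exact lt_of_le_of_lt (mul_le_of_le_one_left dist_nonneg ht.2) hwb

omit [Fintype n] [DecidableEq n] in
lemma smul_mem_coneQ (hq : q ∈ coneQ) {s : ℝ} (hs : 0 ≤ s) : s • q ∈ coneQ :=
  ⟨hq.1.smul hs, hq.2.smul hs⟩

lemma codeQ_smul (hq : q ∈ coneQ) (s : ℝ) : codeQ (s • q) = scaleL s (codeQ q) := by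
  rw [scaleL_apply, (parts_codeQ hq).1, (parts_codeQ hq).2]
  show (2 : ℂ) • cBL (s • q) + I • (cCL (s • q) * cCL (s • q)) = _
  rw [map_smul, map_smul, ← Complex.coe_smul, ← Complex.coe_smul, cBL_apply, cCL_apply, Matrix.smul_mul,
    Matrix.mul_smul, smul_smul (s : ℂ) (s : ℂ)]

/-- Homogeneity of the weight, the symmetrised multiplier and the potential. -/
theorem smul_cone (hν : 0 < ν) (hq : q ∈ coneQ) {s : ℝ} (hs : 0 < s) :
    XiZ ν (codeQ (s • q)) = s ^ (2 * ν) • XiZ ν (codeQ q) ∧ HQ ν (s • q) = s ^ (2 * ν) • HQ ν q ∧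
      PhiQ ν (s • q) = s ^ (2 * ν + 1) * PhiQ ν q := by
  have hX : XiZ ν (codeQ (s • q)) = s ^ (2 * ν) • XiZ ν (codeQ q) := by
    rw [codeQ_smul hq]
    exact (XiZ_scaleL (codeQ_mem hq) hs).2
  have hH : HQ ν (s • q) = s ^ (2 * ν) • HQ ν q := by
    set g : ℝ → Matrix n n ℂ := fun u => u ^ (ν - 1 / 2) • (cC (s • q) * gZ (shiftZ (codeQ (s • q)) u))
    have e : EqOn (fun v => g (s * s * v)) (fun v => (s ^ (2 * ν) * (s * s)⁻¹) •
        (v ^ (ν - 1 / 2) • (cC q * gZ (shiftZ (codeQ q) v)))) (Ioi 0) := fun v hv => by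
      have hv0 : (0 : ℝ) < v := hv
      have e1 : shiftZ (codeQ (s • q)) (s * s * v) = scaleL s (shiftZ (codeQ q) v) := by
        rw [codeQ_smul hq, shiftZ, shiftZ, map_add, map_smul, scaleL_base, smul_smul, mul_comm v]
      have e2 := (scale_spec (shiftZ_mem' (codeQ_mem hq) hv0) hs).2.2.2
      rw [← e1] at e2
      simp only [g]
      rw [e2, show cC (s • q) = s • cC q from map_smul cCL s q, Complex.coe_smul, smul_mul_assoc, mul_smul_comm,
        smul_smul, smul_smul, smul_smul]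
      congr 1
      rw [Real.mul_rpow (mul_self_nonneg s) hv0.le, Real.mul_rpow hs.le hs.le, ← Real.rpow_add hs,
        show 2 * ν = ν - 1 / 2 + (ν - 1 / 2) + 1 by ring, Real.rpow_add_one hs.ne']
      field_simp
    have h2 := integral_comp_mul_left_Ioi g 0 (mul_pos hs hs)
    rw [mul_zero, setIntegral_congr_fun measurableSet_Ioi e, integral_smul,
      eq_inv_smul_iff₀ (mul_pos hs hs).ne', smul_smul, mul_left_comm, mul_inv_cancel₀ (mul_pos hs hs).ne',
      mul_one] at h2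
    show (scal ν)⁻¹ • (∫ u in Ioi (0 : ℝ), g u) = _
    rw [← h2]
    exact smul_comm _ _ _
  refine ⟨hX, hH, ?_⟩
  rw [PhiQ, PhiQ, hX, hH, show cB (s • q) = s • cB q from map_smul cBL s q,
    show cC (s • q) = s • cC q from map_smul cCL s q]
  simp only [pairing_smul, mul_smul_comm, Matrix.trace_smul, Complex.smul_re, smul_eq_mul]
  rw [Real.rpow_add_one hs.ne']
  ring

/-- The dual inequality on the closed cone. -/
theorem key_cone (hν : 0 < ν) (hν1 : ν < 1) (hq : q ∈ coneQ) {Y : Matrix n n ℂ} (hY : Y.PosSemidef) :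
    (1 + 1 / ν) * (XiZ ν (codeQ q) * Y).trace.re - 1 / ν * ∑ k, hY.1.eigenvalues k ^ (1 + ν) ≤
      (XiZ ν (codeQ q) * (cC q * cC q - cB q * cB q)).trace.re := by
  set f : Matrix n n ℂ × Matrix n n ℂ → ℝ := fun w =>
    (XiZ ν (codeQ w) * (cC w * cC w - cB w * cB w)).trace.re - (1 + 1 / ν) * (XiZ ν (codeQ w) * Y).trace.re
  have hf : ContinuousOn f coneQ := by
    have ht : Continuous fun X : Matrix n n ℂ => X.trace.re := Complex.continuous_re.comp continuous_id.matrix_trace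
    have h1 : ContinuousOn (fun w => XiZ ν (codeQ w)) (coneQ (n := n)) := fun w hw => (weightI_cone hν hν1 hw).2
    exact (ht.comp_continuousOn (h1.mul
      ((continuous_cC.mul continuous_cC).sub (continuous_cB.mul continuous_cB)).continuousOn)).sub
      (continuousOn_const.mul (ht.comp_continuousOn (h1.mul continuousOn_const)))
  have hl : Tendsto (fun ε : ℝ => f (q + ε • one2)) (𝓝[>] 0) (𝓝 (f q)) := by
    have hc : Continuous fun ε : ℝ => q + ε • (one2 : Matrix n n ℂ × Matrix n n ℂ) :=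
      continuous_const.add (continuous_id.smul continuous_const)
    have ht : Tendsto (fun ε : ℝ => q + ε • (one2 : Matrix n n ℂ × Matrix n n ℂ)) (𝓝[>] 0) (𝓝[coneQ] q) :=
      tendsto_nhdsWithin_iff.2 ⟨by simpa using (hc.tendsto 0).mono_left nhdsWithin_le_nhds,
        eventually_nhdsWithin_of_forall fun ε hε => shift_mem hq (le_of_lt hε)⟩
    exact (hf q hq).tendsto.comp ht
  suffices h : -(1 / ν * ∑ k, hY.1.eigenvalues k ^ (1 + ν)) ≤ f q by
    simp only [f] at h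
    linarith
  refine ge_of_tendsto hl (eventually_nhdsWithin_of_forall fun ε hε => ?_)
  obtain ⟨h1, h2⟩ := shift_interior hq (show (0 : ℝ) < ε from hε)
  have hd : Dom (cB (q + ε • one2)) (cC (q + ε • one2) * cC (q + ε • one2)) := by
    have h := codeQ_mem_domZ h1 h2
    obtain ⟨a1, a2⟩ := parts_codeQ (n := n) ⟨h1.posSemidef, h2.posSemidef⟩
    rw [← a2, ← a1]
    exact h
  have hk := key_ineq hd hν hν1 hY
  obtain ⟨a1, a2⟩ := parts_codeQ (n := n) ⟨h1.posSemidef, h2.posSemidef⟩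
  simp only [f, XiZ_eq, a1, a2]
  linarith

/-- The excess in cone coordinates is the symmetrised product. -/
lemma excess_cone (q : Matrix n n ℂ × Matrix n n ℂ) :
    cC q * cC q - cB q * cB q = (1 / 2 : ℝ) • (q.1 * q.2 + q.2 * q.1) := by
  simp only [cC, cB, smul_mul_assoc, mul_smul_comm, smul_smul, Matrix.add_mul, Matrix.mul_add, Matrix.sub_mul,
    Matrix.mul_sub]
  module

end Vale.Agent.P371.Pencil
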