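import Vale.Agent.P371.Pencil.Cone

/-!
P371, pencils: the strict form of the dual inequality. On the closed domain, and in cone
coordinates for every exponent, `tr Ξ (E - B²) ≤ 0` forces `E = B²`.
-/

namespace Vale.Agent.P371.Pencil

open Matrix Complex MeasureTheory Filter Set
open scoped ComplexOrder MatrixOrder Matrix.Norms.L2Operator Topology

variable {n : Type} [Fintype n] [DecidableEq n] {A W B E z : Matrix n n ℂ} {ν : ℝ}

/-- The slack of the pointwise gain with a zero test matrix. -/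
noncomputable def slackAt (z : Matrix n n ℂ) (v u : ℝ) : ℝ :=
  (imA (rootZ (shiftZ z u))).trace.re - 2 * (Fintype.card n : ℝ) * Real.sqrt v +
    v * (wZ (shiftZ z u)).trace.re

lemma slack_eq_sandwich (hW : W.PosDef) (e : lyap A W = (2 * I) • 1) {u : ℝ} (hu : 0 ≤ u) :
    (imA A).trace.re - 2 * (Fintype.card n : ℝ) * Real.sqrt u + u * W.trace.re =
      (((1 : Matrix n n ℂ) - (Real.sqrt u : ℂ) • W)ᴴ * W⁻¹ *
        ((1 : Matrix n n ℂ) - (Real.sqrt u : ℂ) • W)).trace.re := by
  have hd := (Matrix.isUnit_iff_isUnit_det W).1 hW.isUnit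
  set s := Real.sqrt u
  have hH : ((1 : Matrix n n ℂ) - (s : ℂ) • W)ᴴ = 1 - (s : ℂ) • W := by
    rw [conjTranspose_sub, conjTranspose_one, conjTranspose_smul, hW.isHermitian.eq, Complex.star_def,
      Complex.conj_ofReal]
  have e2 : ((1 : Matrix n n ℂ) - (s : ℂ) • W) * W⁻¹ * (1 - (s : ℂ) • W) =
      W⁻¹ - (2 * (s : ℂ)) • 1 + ((s * s : ℝ) : ℂ) • W := by
    rw [Matrix.sub_mul, Matrix.one_mul, Matrix.smul_mul, Matrix.mul_nonsing_inv W hd, Matrix.sub_mul,
      Matrix.mul_sub, Matrix.mul_one, Matrix.mul_smul, Matrix.nonsing_inv_mul W hd, Matrix.smul_mul,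
      Matrix.one_mul, smul_sub, smul_smul, Complex.ofReal_mul]
    module
  rw [hH, e2, Matrix.trace_add, Matrix.trace_sub, ← trace_imA hW e, Matrix.trace_smul, Matrix.trace_smul,
    Matrix.trace_one, smul_eq_mul, smul_eq_mul, Complex.add_re, Complex.sub_re, Complex.re_ofReal_mul,
    show (2 : ℂ) * (s : ℂ) = ((2 * s : ℝ) : ℂ) by push_cast; ring, Complex.re_ofReal_mul, Complex.natCast_re,
    Real.mul_self_sqrt hu]
  ring

lemma rootZ_shiftZ (z : Matrix n n ℂ) (u : ℝ) : rootZ (shiftZ z u) = rootAt (partB z) (partE z) u := by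
  rw [rootZ, (parts_shiftZ z u).1, (parts_shiftZ z u).2]
  rfl

lemma slackAt_eq (z : Matrix n n ℂ) (u : ℝ) :
    slackAt z u u = imTr (partB z) (partE z) u - 2 * (Fintype.card n : ℝ) * Real.sqrt u +
      u * (wgt (partB z) (partE z) u).trace.re := by
  rw [slackAt, rootZ_shiftZ, wZ_shiftZ, ← imTr_eq]

lemma slackAt_spec (hz : z ∈ domZC) {u : ℝ} (hu : 0 < u) :
    0 ≤ slackAt z u u ∧ (slackAt z u u = 0 → partE z = partB z * partB z) := by
  have hd := shiftZ_mem' hz hu
  obtain ⟨hst, h1, h2⟩ := root_spec hd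
  set A := rootZ (shiftZ z u)
  have hW : (wZ (shiftZ z u)).PosDef := hst.lyapSol_posDef
  have e : lyap A (wZ (shiftZ z u)) = (2 * I) • 1 := lyapSol_spec hst.isUnit_lyapL
  have hs := slack_eq_sandwich hW e hu.le
  have hn : 0 ≤ ((((1 : Matrix n n ℂ) - (Real.sqrt u : ℂ) • wZ (shiftZ z u))ᴴ * (wZ (shiftZ z u))⁻¹ *
      ((1 : Matrix n n ℂ) - (Real.sqrt u : ℂ) • wZ (shiftZ z u)))).trace :=
    trace_sandwich_nonneg hW.inv.posSemidef _
  obtain ⟨hn1, hn2⟩ := Complex.nonneg_iff.1 hn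
  have hdef : slackAt z u u = (imA A).trace.re - 2 * (Fintype.card n : ℝ) * Real.sqrt u +
      u * (wZ (shiftZ z u)).trace.re := rfl
  refine ⟨by rw [hdef, hs]; exact hn1, fun h0 => ?_⟩
  rw [hdef, hs] at h0
  have hWs := sub_eq_zero.1 (eq_zero_of_sandwich hW.inv (Complex.ext h0 hn2.symm))
  have hq : (0 : ℝ) < Real.sqrt u := Real.sqrt_pos.2 hu
  have hq0 : (Real.sqrt u : ℂ) ≠ 0 := by exact_mod_cast hq.ne'
  set c : ℂ := ((Real.sqrt u : ℂ))⁻¹
  have hWc : wZ (shiftZ z u) = c • 1 := by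
    rw [hWs, smul_smul, inv_mul_cancel₀ hq0, one_smul]
  have hl := lyap_parts e
  rw [hWc] at hl
  simp only [Matrix.mul_smul, mul_one, Matrix.smul_mul, one_mul, sub_self, smul_zero, sub_zero,
    ← two_smul ℂ (c • imA A), smul_smul] at hl
  have hK : imA A = (Real.sqrt u : ℂ) • 1 := by
    have h3 := congrArg (fun X => ((2 * c)⁻¹) • X) hl
    simp only [smul_smul] at h3
    rw [inv_mul_cancel₀ (mul_ne_zero two_ne_zero (inv_ne_zero hq0)), one_smul] at h3
    rw [h3]
    congr 1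
    simp only [c]
    field_simp
  have hre : reA A = partB z := by
    rw [reA, show A + Aᴴ = _ from h1, (parts_shiftZ z u).1, smul_smul]
    norm_num
  have hAA : Aᴴ * A = partE z + (u : ℂ) • (1 : Matrix n n ℂ) := by
    rw [show Aᴴ * A = _ from h2, (parts_shiftZ z u).2]
  have hx := excess_eq (A := A)
  rw [hre, hK, hAA] at hx
  simp only [Matrix.mul_smul, mul_one, Matrix.smul_mul, one_mul, sub_self, smul_zero, add_zero, smul_smul] at hx
  rw [← Complex.ofReal_mul, Real.mul_self_sqrt hu.le, add_sub_right_comm, add_eq_right, sub_eq_zero] at hx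
  exact hx

/-- The dual inequality keeps the slack on a window of the parameter. -/
theorem slack_le_trace (h : Dom B E) (hν : 0 < ν) (hν1 : ν < 1) {c : ℝ}
    (hc : ∀ u ∈ Icc (1 : ℝ) 2, c ≤ u ^ (ν - 1 / 2) *
      (imTr B E u - 2 * (Fintype.card n : ℝ) * Real.sqrt u + u * (wgt B E u).trace.re)) :
    (1 + 1 / ν) * c ≤ scal ν * (Xi ν B E * (E - B * B)).trace.re := by
  set M := E - B * B
  set f := pairInt ν B E M
  set g : ℝ → ℝ := (Icc (1 : ℝ) 2).indicator fun _ => (1 + 1 / ν) * c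
  have hr : 0 ≤ 1 + 1 / ν := by positivity
  have hg : IntegrableOn g (Ioi 0) :=
    ((integrableOn_const (by simp [Real.volume_Icc]) :
      IntegrableOn (fun _ => (1 + 1 / ν) * c) (Icc (1 : ℝ) 2) volume).integrable_indicator
        measurableSet_Icc).integrableOn
  have hfi := integrableOn_pairInt h hν hν1 M
  have hφ : IntegrableOn (fun u => g u - f u) (Ioi 0) := hg.sub hfi
  set G : ℝ → ℝ := fun u => 2 / ν * (u ^ (ν + 1 / 2) * (imTr B E u - (Fintype.card n : ℝ) * Real.sqrt u))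
    - 1 / ν * (u ^ ν * M.trace.re)
  have hfin : ∀ U, 0 < U → ∫ u in (0 : ℝ)..U, (g u - f u) ≤ 0 := fun U hU => by
    have hcG : ContinuousOn G (Icc 0 U) := by
      intro u hu
      refine ContinuousAt.continuousWithinAt ?_
      exact (continuousAt_const.mul ((Real.continuousAt_rpow_const _ _ (Or.inr (by linarith))).mul
        ((hasDerivAt_imTr h hu.1).continuousAt.sub (continuousAt_const.mul Real.continuous_sqrt.continuousAt)))).sub
        (continuousAt_const.mul ((Real.continuousAt_rpow_const _ _ (Or.inr hν.le)).mul continuousAt_const))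
    have hd : ∀ u ∈ Ioo 0 U, HasDerivWithinAt G
        (u ^ (ν - 1 / 2) * ((2 + 1 / ν) * (imTr B E u - (Fintype.card n : ℝ) * Real.sqrt u)
          + u / ν * ((wgt B E u).trace.re - (Fintype.card n : ℝ) / Real.sqrt u) - M.trace.re / Real.sqrt u))
        (Ioi u) u := fun u hu => by
      have hu0 : 0 < u := hu.1
      have hq : 0 < Real.sqrt u := Real.sqrt_pos.2 hu0
      have d1 := Real.hasDerivAt_rpow_const (p := ν + 1 / 2) (Or.inl hu0.ne')
      have d2 := (hasDerivAt_imTr h hu0.le).sub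
        (((hasDerivAt_id u).sqrt hu0.ne').const_mul (Fintype.card n : ℝ))
      have d3 := (Real.hasDerivAt_rpow_const (p := ν) (Or.inl hu0.ne')).mul_const M.trace.re
      refine HasDerivAt.hasDerivWithinAt ?_
      refine (((d1.mul d2).const_mul (2 / ν)).sub (d3.const_mul (1 / ν))).congr_deriv ?_
      have e1 : u ^ (ν + 1 / 2) = u ^ (ν - 1 / 2) * u := by
        rw [← Real.rpow_add_one hu0.ne']; ring_nf
      have e2 : u ^ (ν - 1) = u ^ (ν - 1 / 2) * (Real.sqrt u)⁻¹ := by
        rw [← rpow_neg_half hu0, ← Real.rpow_add hu0]; ring_nf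
      simp only [Pi.sub_apply, id_eq]
      rw [show ν + 1 / 2 - 1 = ν - 1 / 2 by ring, e1, e2]
      field_simp
    have hle : ∀ u ∈ Ioo 0 U, g u - f u ≤
        u ^ (ν - 1 / 2) * ((2 + 1 / ν) * (imTr B E u - (Fintype.card n : ℝ) * Real.sqrt u)
          + u / ν * ((wgt B E u).trace.re - (Fintype.card n : ℝ) / Real.sqrt u) - M.trace.re / Real.sqrt u) :=
      fun u hu => by
      have hu0 : 0 < u := hu.1
      obtain ⟨hW, e⟩ := wgt_spec h hu0.le
      have hp := Real.rpow_nonneg hu0.le (ν - 1 / 2)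
      have p2 := trace_mul_excess_le hW e
      rw [(excess_rootAt h hu0.le).1, (rootAt_spec h hu0.le).2.2, shiftE,
        show E + (u : ℂ) • (1 : Matrix n n ℂ) - B * B = M + (u : ℂ) • 1 by simp only [M]; abel,
        Matrix.mul_add, Matrix.trace_add, Matrix.mul_smul, mul_one, Matrix.trace_smul, smul_eq_mul,
        Complex.add_re, Complex.re_ofReal_mul, ← imTr_eq] at p2
      set P := imTr B E u - 2 * (Fintype.card n : ℝ) * Real.sqrt u + u * (wgt B E u).trace.re
      have hP : 0 ≤ P := by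
        have h0 := slack_eq_sandwich hW e hu0.le
        rw [← imTr_eq] at h0
        rw [show P = _ from h0]
        exact (Complex.nonneg_iff.1 (trace_sandwich_nonneg hW.inv.posSemidef _)).1
      have hgu : g u ≤ (1 + 1 / ν) * (u ^ (ν - 1 / 2) * P) := by
        simp only [g]
        by_cases hm : u ∈ Icc (1 : ℝ) 2
        · rw [indicator_of_mem hm]
          exact mul_le_mul_of_nonneg_left (hc u hm) hr
        · rw [indicator_of_notMem hm]
          exact mul_nonneg hr (mul_nonneg hp hP)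
      have h2 := mul_le_mul_of_nonneg_left p2 hp
      simp only [f, pairInt]
      have e3 : (Fintype.card n : ℝ) / Real.sqrt u * u = (Fintype.card n : ℝ) * Real.sqrt u := by
        rw [div_mul_eq_mul_div, mul_div_assoc, Real.div_sqrt]
      have e4 : u / ν * ((Fintype.card n : ℝ) / Real.sqrt u) = 1 / ν * ((Fintype.card n : ℝ) * Real.sqrt u) := by
        rw [← e3]; ring
      rw [mul_sub (u / ν), e4, Matrix.trace_mul_comm (wgt B E u) M] at *
      simp only [P] at hgu
      ring_nf at hgu h2 ⊢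
      linarith
    have hI : IntegrableOn (fun u => g u - f u) (Icc 0 U) :=
      (integrableOn_Icc_iff_integrableOn_Ioc (by simp)).2 (hφ.mono_set Ioc_subset_Ioi_self)
    refine (intervalIntegral.integral_le_sub_of_hasDeriv_right_of_le hU.le hcG hd hI hle).trans ?_
    have hG0 : G 0 = 0 := by
      simp only [G]
      rw [Real.zero_rpow (by linarith), Real.zero_rpow hν.ne']
      ring
    rw [hG0, sub_zero]
    have hq : 0 < Real.sqrt U := Real.sqrt_pos.2 hU
    have hb := imTr_le h hU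
    have e1 : U ^ (ν + 1 / 2) = U ^ ν * Real.sqrt U := by
      rw [Real.sqrt_eq_rpow, ← Real.rpow_add hU]
    simp only [G, e1]
    have h3 : Real.sqrt U * (imTr B E U - (Fintype.card n : ℝ) * Real.sqrt U) ≤ M.trace.re / 2 := by
      refine (mul_le_mul_of_nonneg_left (sub_le_iff_le_add'.2 hb) hq.le).trans (le_of_eq ?_)
      field_simp
      rfl
    have h4 := mul_le_mul_of_nonneg_left h3 (mul_nonneg (show 0 ≤ 2 / ν by positivity) (Real.rpow_nonneg hU.le ν))
    ring_nf at h4 ⊢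
    linarith
  have hlim := intervalIntegral_tendsto_integral_Ioi 0 hφ tendsto_id
  have hmain : ∫ u in Ioi (0 : ℝ), (g u - f u) ≤ 0 :=
    le_of_tendsto hlim ((eventually_gt_atTop 0).mono hfin)
  have hgint : ∫ u in Ioi (0 : ℝ), g u = (1 + 1 / ν) * c := by
    rw [setIntegral_indicator measurableSet_Icc, setIntegral_const,
      inter_eq_right.2 (Icc_subset_Ioi_iff (show (1 : ℝ) ≤ 2 by norm_num) |>.2 one_pos)]
    norm_num
  rw [integral_sub hg hfi, hgint] at hmain
  rw [trace_Xi_mul h hν hν1, ← mul_assoc, mul_inv_cancel₀ (scal_pos hν hν1).ne', one_mul]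
  exact sub_nonpos.1 hmain

lemma continuousAt_slack {w : Matrix n n ℂ} (hw : w ∈ domZC) {u : ℝ} (hu : 0 < u) :
    ContinuousAt (fun p : Matrix n n ℂ × ℝ => p.2 ^ (ν - 1 / 2) * slackAt p.1 p.2 p.2) (w, u) := by
  have hd := shiftZ_mem' hw hu
  have hs : Continuous fun p : Matrix n n ℂ × ℝ => shiftZ p.1 p.2 :=
    continuous_fst.add (continuous_snd.smul continuous_const)
  have ht : Continuous fun X : Matrix n n ℂ => X.trace.re :=
    Complex.continuous_re.comp continuous_id.matrix_trace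
  have hi : Continuous fun X : Matrix n n ℂ => (imA X).trace.re :=
    ht.comp ((continuous_id.sub continuous_id.matrix_conjTranspose).const_smul (-I / 2))
  have c1 : ContinuousAt (fun p : Matrix n n ℂ × ℝ => (imA (rootZ (shiftZ p.1 p.2))).trace.re) (w, u) :=
    (hi.continuousAt.comp (contDiffAt_rootZ (k := 1) one_ne_zero hd).continuousAt).comp (x := (w, u))
      (f := fun p : Matrix n n ℂ × ℝ => shiftZ p.1 p.2) hs.continuousAt
  have c2 : ContinuousAt (fun p : Matrix n n ℂ × ℝ => (wZ (shiftZ p.1 p.2)).trace.re) (w, u) :=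
    (ht.continuousAt.comp (contDiffAt_wZ (k := 1) one_ne_zero hd).continuousAt).comp (x := (w, u))
      (f := fun p : Matrix n n ℂ × ℝ => shiftZ p.1 p.2) hs.continuousAt
  have c3 : ContinuousAt (fun p : Matrix n n ℂ × ℝ => 2 * (Fintype.card n : ℝ) * Real.sqrt p.2) (w, u) :=
    (continuous_const.mul (Real.continuous_sqrt.comp continuous_snd)).continuousAt
  have c4 : ContinuousAt (fun p : Matrix n n ℂ × ℝ => p.2 ^ (ν - 1 / 2)) (w, u) :=
    (Real.continuousAt_rpow_const u (ν - 1 / 2) (Or.inl hu.ne')).comp (x := (w, u))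
      (f := fun p : Matrix n n ℂ × ℝ => p.2) continuousAt_snd
  exact c4.mul ((c1.sub c3).add (continuousAt_snd.mul c2))

/-- Strictness along an approximating sequence. -/
theorem partE_eq_of_tendsto (hν : 0 < ν) (hν1 : ν < 1) {zs : ℕ → Matrix n n ℂ}
    (hzs : ∀ k, zs k ∈ domZ) (hz : z ∈ domZC) (hlim : Tendsto zs atTop (𝓝 z))
    (hXi : Tendsto (fun k => XiZ ν (zs k)) atTop (𝓝 (XiZ ν z)))
    (hle : (XiZ ν z * (partE z - partB z * partB z)).trace.re ≤ 0) :
    partE z = partB z * partB z := by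
  have hcont : ∀ w ∈ (domZC : Set (Matrix n n ℂ)), ∀ u : ℝ, 0 < u →
      ContinuousAt (fun p : Matrix n n ℂ × ℝ => p.2 ^ (ν - 1 / 2) * slackAt p.1 p.2 p.2) (w, u) :=
    fun w hw u hu => continuousAt_slack hw hu
  have hmin : ∀ k, ∃ v ∈ Icc (1 : ℝ) 2, (1 + 1 / ν) * (v ^ (ν - 1 / 2) * slackAt (zs k) v v) ≤
      scal ν * (XiZ ν (zs k) * (partE (zs k) - partB (zs k) * partB (zs k))).trace.re := fun k => by
    have hC : zs k ∈ domZC := Dom.domC (hzs k)
    have hcs : ContinuousOn (fun v => v ^ (ν - 1 / 2) * slackAt (zs k) v v) (Icc (1 : ℝ) 2) := fun v hv =>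
      ((hcont _ hC v (by linarith [hv.1])).comp (x := v) (f := fun v : ℝ => (zs k, v))
        (continuous_const.prodMk continuous_id).continuousAt).continuousWithinAt
    obtain ⟨v, hv, hvm⟩ := isCompact_Icc.exists_isMinOn (nonempty_Icc.2 (by norm_num : (1 : ℝ) ≤ 2)) hcs
    refine ⟨v, hv, ?_⟩
    rw [XiZ_eq]
    refine slack_le_trace (hzs k) hν hν1 fun u hu => ?_
    rw [← slackAt_eq (zs k) u]
    exact hvm hu
  choose v hv hb using hmin
  obtain ⟨v₀, hv₀, φ, hφ, hvl⟩ := isCompact_Icc.tendsto_subseq hv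
  have hl := hlim.comp hφ.tendsto_atTop
  have hpos : 0 < v₀ := by linarith [hv₀.1]
  have h1 : Tendsto (fun k => v (φ k) ^ (ν - 1 / 2) * slackAt (zs (φ k)) (v (φ k)) (v (φ k))) atTop
      (𝓝 (v₀ ^ (ν - 1 / 2) * slackAt z v₀ v₀)) :=
    (hcont z hz v₀ hpos).tendsto.comp (hl.prodMk_nhds hvl)
  have hB : Tendsto (fun k => partB (zs (φ k))) atTop (𝓝 (partB z)) :=
    ((partBL (n := n)).continuous.tendsto z).comp hl
  have hE : Tendsto (fun k => partE (zs (φ k))) atTop (𝓝 (partE z)) :=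
    ((partEL (n := n)).continuous.tendsto z).comp hl
  have hX : Tendsto (fun k => XiZ ν (zs (φ k))) atTop (𝓝 (XiZ ν z)) := hXi.comp hφ.tendsto_atTop
  have hT := hX.mul (hE.sub (hB.mul hB))
  have h2 := ((Complex.continuous_re.comp continuous_id.matrix_trace).tendsto _).comp hT
  have h3 : (1 + 1 / ν) * (v₀ ^ (ν - 1 / 2) * slackAt z v₀ v₀) ≤
      scal ν * (XiZ ν z * (partE z - partB z * partB z)).trace.re :=
    le_of_tendsto_of_tendsto' (h1.const_mul (1 + 1 / ν)) (h2.const_mul (scal ν)) fun k => hb (φ k)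
  obtain ⟨hs0, hs1⟩ := slackAt_spec hz hpos
  refine hs1 (le_antisymm ?_ hs0)
  have h4 : scal ν * (XiZ ν z * (partE z - partB z * partB z)).trace.re ≤ 0 :=
    mul_nonpos_of_nonneg_of_nonpos (scal_pos hν hν1).le hle
  have h5 : 0 < (1 + 1 / ν) * v₀ ^ (ν - 1 / 2) := mul_pos (by positivity) (Real.rpow_pos_of_pos hpos _)
  nlinarith

/-- Strictness on the closed domain. -/
theorem partE_eq_of_trace_nonpos (hν : 1 / 2 < ν) (hν1 : ν < 1) (hz : z ∈ domZC)
    (hle : (XiZ ν z * (partE z - partB z * partB z)).trace.re ≤ 0) :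
    partE z = partB z * partB z := by
  have hp : ∀ k : ℕ, (0 : ℝ) < 1 / ((k : ℝ) + 1) := fun k => by positivity
  have hmem : ∀ k : ℕ, shiftZ z (1 / ((k : ℝ) + 1)) ∈ domZ := fun k => shiftZ_mem' hz (hp k)
  have hlim : Tendsto (fun k : ℕ => shiftZ z (1 / ((k : ℝ) + 1))) atTop (𝓝 z) := by
    have := (tendsto_one_div_add_atTop_nhds_zero_nat (𝕜 := ℝ)).smul_const (base (n := n)) |>.const_add z
    rw [zero_smul, add_zero] at this
    exact this
  exact partE_eq_of_tendsto (by linarith) hν1 hmem hz hlim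
    ((continuousOn_XiZ hν hν1 z hz).tendsto.comp
      (tendsto_nhdsWithin_iff.2 ⟨hlim, Eventually.of_forall fun k => Dom.domC (hmem k)⟩)) hle

variable {q : Matrix n n ℂ × Matrix n n ℂ}

/-- Strictness in cone coordinates, for every exponent: the anticommutator vanishes. -/
theorem anticomm_eq_zero_of_trace_nonpos (hν : 0 < ν) (hν1 : ν < 1) (hq : q ∈ coneQ)
    (hle : (XiZ ν (codeQ q) * (cC q * cC q - cB q * cB q)).trace.re ≤ 0) :
    cC q * cC q = cB q * cB q := by
  set qs : ℕ → Matrix n n ℂ × Matrix n n ℂ := fun k =>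
    (q.1 + (1 / ((k : ℝ) + 1)) • 1, q.2 + (1 / ((k : ℝ) + 1)) • 1)
  have hp : ∀ k, (qs k).1.PosDef ∧ (qs k).2.PosDef := fun k => by
    have h : ((1 / ((k : ℝ) + 1)) • (1 : Matrix n n ℂ)).PosDef := Matrix.PosDef.one.smul (by positivity)
    exact ⟨Matrix.PosDef.posSemidef_add hq.1 h, Matrix.PosDef.posSemidef_add hq.2 h⟩
  have hlim : Tendsto qs atTop (𝓝 q) := by
    have h0 := (tendsto_one_div_add_atTop_nhds_zero_nat (𝕜 := ℝ)).smul_const (1 : Matrix n n ℂ)
    rw [zero_smul] at h0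
    have := (h0.const_add q.1).prodMk_nhds (h0.const_add q.2)
    rw [add_zero, add_zero] at this
    exact this
  obtain ⟨e1, e2⟩ := parts_codeQ hq
  have h := partE_eq_of_tendsto hν hν1 (z := codeQ q) (zs := fun k => codeQ (qs k))
    (fun k => codeQ_mem_domZ (hp k).1 (hp k).2) (codeQ_mem hq) ((continuous_codeQ.tendsto q).comp hlim)
    (((weightI_cone hν hν1 hq).2).tendsto.comp (tendsto_nhdsWithin_iff.2
      ⟨hlim, Eventually.of_forall fun k => ⟨(hp k).1.posSemidef, (hp k).2.posSemidef⟩⟩))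
    (by rw [e1, e2]; exact hle)
  rwa [e1, e2] at h

/-- The product of the coordinates vanishes. -/
theorem mul_eq_zero_of_trace_nonpos (hν : 0 < ν) (hν1 : ν < 1) (hq : q ∈ coneQ)
    (hle : (XiZ ν (codeQ q) * (cC q * cC q - cB q * cB q)).trace.re ≤ 0) : q.1 * q.2 = 0 := by
  have h := anticomm_eq_zero_of_trace_nonpos hν hν1 hq hle
  obtain ⟨d1, d2⟩ := cC_sub_cB q
  have ht : (q.1 * q.2).trace = 0 := by
    rw [← d1, ← d2, Matrix.add_mul, Matrix.mul_sub, Matrix.mul_sub, Matrix.trace_add, Matrix.trace_sub,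
      Matrix.trace_sub, h, Matrix.trace_mul_comm (cB q) (cC q)]
    ring
  set S := CFC.sqrt q.1
  set T := CFC.sqrt q.2
  have hS : Sᴴ = S := (CFC.sqrt_nonneg q.1).posSemidef.1.eq
  have hT : Tᴴ = T := (CFC.sqrt_nonneg q.2).posSemidef.1.eq
  have eS : S * S = q.1 := CFC.sqrt_mul_sqrt_self q.1 hq.1.nonneg
  have eT : T * T = q.2 := CFC.sqrt_mul_sqrt_self q.2 hq.2.nonneg
  have h0 : ((S * T)ᴴ * (S * T)).trace = 0 := by
    rw [conjTranspose_mul, hS, hT, ← Matrix.mul_assoc, Matrix.mul_assoc T S S, eS, Matrix.trace_mul_cycle, eT,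
      Matrix.trace_mul_comm]
    exact ht
  have hST : S * T = 0 := Matrix.conjTranspose_mul_self_eq_zero.1
    ((Matrix.posSemidef_conjTranspose_mul_self (S * T)).trace_eq_zero_iff.1 h0)
  calc q.1 * q.2 = S * (S * T) * T := by rw [← eS, ← eT]; simp only [Matrix.mul_assoc]
    _ = 0 := by rw [hST, Matrix.mul_zero, Matrix.zero_mul]

end Vale.Agent.P371.Pencil
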