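import Vale.Agent.P371.Pencil.Scale

/-!
P371, pencils: the decay of the weight and of the multiplier along the shift, and differentiation
of the integrals in the spectral parameter.
-/

namespace Vale.Agent.P371.Pencil

open Matrix Complex MeasureTheory Filter Set
open scoped ComplexOrder Matrix.Norms.L2Operator Topology

variable {n : Type} [Fintype n] [DecidableEq n] {z : Matrix n n ℂ} {ν : ℝ}
  {f : Matrix n n ℂ → Matrix n n ℂ}

/-- A `C²` function has a derivative that is Lipschitz at the point. -/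
lemma exists_lipschitz_fderiv {x : Matrix n n ℂ} (hf : ContDiffAt ℝ 2 f x) :
    ∃ δ > (0 : ℝ), ∃ C : ℝ, 0 ≤ C ∧ ∀ y, ‖y - x‖ < δ → DifferentiableAt ℝ f y ∧
      ‖fderiv ℝ f y - fderiv ℝ f x‖ ≤ C * ‖y - x‖ := by
  obtain ⟨K, t, ht, hK⟩ := (hf.fderiv_right (m := 1) (by norm_num)).exists_lipschitzOnWith
  have h2 : ∀ᶠ y in 𝓝 x, DifferentiableAt ℝ f y :=
    (hf.eventually (by norm_num)).mono fun y hy => hy.differentiableAt (by norm_num)
  obtain ⟨δ, hδ, hb⟩ := Metric.mem_nhds_iff.1 (inter_mem ht h2)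
  refine ⟨δ, hδ, K, K.2, fun y hy => ?_⟩
  have hy' := hb (by rwa [Metric.mem_ball, dist_eq_norm])
  exact ⟨hy'.2, by simpa [dist_eq_norm] using hK.dist_le_mul y hy'.1 x (mem_of_mem_nhds ht)⟩

lemma norm_scaleL_le {s : ℝ} (hs : 0 ≤ s) (hs1 : s ≤ 1) :
    ‖scaleL (n := n) s‖ ≤ s * (‖codeB (n := n)‖ + ‖codeE (n := n)‖) := by
  rw [scaleL]
  refine (norm_add_le _ _).trans ?_
  rw [norm_smul, norm_smul, Real.norm_of_nonneg hs, Real.norm_of_nonneg (mul_nonneg hs hs), mul_add]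
  exact add_le_add le_rfl (mul_le_mul_of_nonneg_right (mul_le_of_le_one_left hs hs1) (norm_nonneg _))

lemma hasFDerivAt_shiftZ (u : ℝ) : HasFDerivAt (fun w => shiftZ w u) (ContinuousLinearMap.id ℝ _) z :=
  (hasFDerivAt_id z).add_const _

/-- The derivative read through the scaling. -/
lemma fderiv_shiftZ_eq (hz : z ∈ domZ) (hf : ∀ w ∈ domZ, ContDiffAt ℝ 2 f w) {u c : ℝ} (hu : 0 < u)
    (he : ∀ w ∈ domZ, f (shiftZ w u) = c • f (base + scaleL (Real.sqrt u)⁻¹ w)) :
    fderiv ℝ f (shiftZ z u) =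
      c • (fderiv ℝ f (base + scaleL (Real.sqrt u)⁻¹ z)).comp (scaleL (Real.sqrt u)⁻¹) := by
  set s := (Real.sqrt u)⁻¹
  have h1 := ((hf _ (shiftZ_mem hz hu.le)).differentiableAt (by norm_num)).hasFDerivAt.comp z (hasFDerivAt_shiftZ u)
  have h2 : HasFDerivAt (fun w => c • f (base + scaleL s w))
      (c • (fderiv ℝ f (base + scaleL s z)).comp (scaleL s)) z :=
    (((hf _ (scale_shiftZ hz hu).1).differentiableAt (by norm_num)).hasFDerivAt.comp z
      ((scaleL s).hasFDerivAt.const_add base)).const_smul c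
  have h3 : HasFDerivAt (fun w => f (shiftZ w u)) (c • (fderiv ℝ f (base + scaleL s z)).comp (scaleL s)) z :=
    h2.congr_of_eventuallyEq (by filter_upwards [isOpen_domZ.mem_nhds hz] with w hw using he w hw)
  have h4 := h1.unique h3
  rwa [ContinuousLinearMap.comp_id] at h4

lemma tendsto_inv_sqrt_atTop : Tendsto (fun u : ℝ => (Real.sqrt u)⁻¹) atTop (𝓝 0) :=
  tendsto_inv_atTop_zero.comp Real.tendsto_sqrt_atTop

lemma inv_sqrt_cube {u : ℝ} (hu : 0 < u) :
    (Real.sqrt u)⁻¹ * ((Real.sqrt u)⁻¹ * (Real.sqrt u)⁻¹) = (u * Real.sqrt u)⁻¹ := by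
  rw [← mul_inv, Real.mul_self_sqrt hu.le, ← mul_inv, mul_comm]

/-- Uniform decay of the derivative of the weight. -/
theorem exists_fderiv_wZ_le (R : ℝ) : ∃ C : ℝ, ∀ᶠ u : ℝ in atTop, ∀ w ∈ (domZ : Set (Matrix n n ℂ)),
    ‖w‖ ≤ R → ‖fderiv ℝ wZ (shiftZ w u)‖ ≤ C * (u * Real.sqrt u)⁻¹ := by
  obtain ⟨δ, hδ, C, hC, hb⟩ := exists_lipschitz_fderiv (contDiffAt_wZ (n := n) (k := 2) (by norm_num) base_mem)
  set L := ‖codeB (n := n)‖ + ‖codeE (n := n)‖
  have hL : 0 ≤ L := add_nonneg (norm_nonneg _) (norm_nonneg _)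
  refine ⟨C * (L * |R|) * L + ‖(fderiv ℝ wZ (base (n := n))).comp codeE‖, ?_⟩
  have hsmall : ∀ᶠ u : ℝ in atTop, (Real.sqrt u)⁻¹ * (L * |R|) < δ := by
    have := tendsto_inv_sqrt_atTop.mul_const (L * |R|)
    rw [zero_mul] at this
    exact this.eventually (gt_mem_nhds hδ)
  filter_upwards [hsmall, eventually_gt_atTop 0, tendsto_inv_sqrt_atTop.eventually (ge_mem_nhds one_pos)]
    with u hu hu0 hs1 w hw hR
  rw [fderiv_shiftZ_eq hw (fun v hv => contDiffAt_wZ (by norm_num) hv) hu0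
    fun v hv => (scale_shiftZ hv hu0).2.1, ← inv_sqrt_cube hu0]
  set s := (Real.sqrt u)⁻¹
  have hs : 0 ≤ s := inv_nonneg.2 (Real.sqrt_nonneg u)
  have hT : ‖scaleL s w‖ ≤ s * (L * |R|) := by
    refine ((scaleL s).le_opNorm w).trans ?_
    rw [← mul_assoc]
    exact mul_le_mul (norm_scaleL_le (n := n) hs hs1) (hR.trans (le_abs_self R)) (norm_nonneg _) (mul_nonneg hs hL)
  obtain ⟨-, hd⟩ := hb (base + scaleL s w) (by rw [add_sub_cancel_left]; exact hT.trans_lt hu)
  rw [add_sub_cancel_left] at hd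
  set D := fderiv ℝ wZ (base + scaleL s w)
  set D0 := fderiv ℝ wZ (base (n := n))
  have h0 : D0.comp (scaleL s) = (s * s) • D0.comp codeE := by
    rw [scaleL, ContinuousLinearMap.comp_add, ContinuousLinearMap.comp_smul, ContinuousLinearMap.comp_smul,
      fderiv_wZ_base_codeB]
    simp
    refine ContinuousLinearMap.ext fun k => ?_
    show s • (0 : Matrix n n ℂ) = 0
    exact smul_zero s
  have h1 : ‖D.comp (scaleL s)‖ ≤ (s * s) * (C * (L * |R|) * L + ‖D0.comp codeE‖) := by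
    rw [show D.comp (scaleL s) = (D - D0).comp (scaleL s) + D0.comp (scaleL s) by
      rw [ContinuousLinearMap.sub_comp, sub_add_cancel], h0]
    refine (norm_add_le _ _).trans ?_
    rw [norm_smul, Real.norm_of_nonneg (mul_nonneg hs hs), mul_add (s * s)]
    refine add_le_add ?_ le_rfl
    refine (ContinuousLinearMap.opNorm_comp_le _ _).trans ?_
    calc ‖D - D0‖ * ‖scaleL (n := n) s‖ ≤ C * (s * (L * |R|)) * (s * L) :=
          mul_le_mul (hd.trans (mul_le_mul_of_nonneg_left hT hC)) (norm_scaleL_le (n := n) hs hs1) (norm_nonneg _)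
            (mul_nonneg hC (mul_nonneg hs (mul_nonneg hL (abs_nonneg R))))
      _ = _ := by ring
  rw [norm_smul, Real.norm_of_nonneg hs]
  calc s * ‖D.comp (scaleL s)‖ ≤ s * ((s * s) * (C * (L * |R|) * L + ‖D0.comp codeE‖)) :=
        mul_le_mul_of_nonneg_left h1 hs
    _ = _ := by ring

/-- Uniform decay of the multiplier and of its derivative. -/
theorem exists_gZ_le (R : ℝ) : ∃ C : ℝ, ∀ᶠ u : ℝ in atTop, ∀ w ∈ (domZ : Set (Matrix n n ℂ)),
    ‖w‖ ≤ R → ‖gZ (shiftZ w u)‖ ≤ C * (u * Real.sqrt u)⁻¹ ∧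
      ‖fderiv ℝ gZ (shiftZ w u)‖ ≤ C * (u * Real.sqrt u)⁻¹ := by
  obtain ⟨δ, hδ, C, hC, hb⟩ := exists_lipschitz_fderiv (contDiffAt_gZ (n := n) (k := 2) (by norm_num) base_mem)
  set L := ‖codeB (n := n)‖ + ‖codeE (n := n)‖
  have hL : 0 ≤ L := add_nonneg (norm_nonneg _) (norm_nonneg _)
  set D0 := fderiv ℝ gZ (base (n := n))
  set K := C * δ + ‖D0‖
  have hK : 0 ≤ K := add_nonneg (mul_nonneg hC hδ.le) (norm_nonneg _)
  refine ⟨K * L * |R| + K * L, ?_⟩
  have hsmall : ∀ᶠ u : ℝ in atTop, (Real.sqrt u)⁻¹ * (L * |R|) < δ := by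
    have := tendsto_inv_sqrt_atTop.mul_const (L * |R|)
    rw [zero_mul] at this
    exact this.eventually (gt_mem_nhds hδ)
  filter_upwards [hsmall, eventually_gt_atTop 0, tendsto_inv_sqrt_atTop.eventually (ge_mem_nhds one_pos)]
    with u hu hu0 hs1 w hw hR
  rw [fderiv_shiftZ_eq hw (fun v hv => contDiffAt_gZ (by norm_num) hv) hu0
    fun v hv => (scale_shiftZ hv hu0).2.2, (scale_shiftZ hw hu0).2.2, ← inv_sqrt_cube hu0]
  set s := (Real.sqrt u)⁻¹
  have hs : 0 ≤ s := inv_nonneg.2 (Real.sqrt_nonneg u)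
  have hT : ‖scaleL s w‖ ≤ s * (L * |R|) := by
    refine ((scaleL s).le_opNorm w).trans ?_
    rw [← mul_assoc]
    exact mul_le_mul (norm_scaleL_le (n := n) hs hs1) (hR.trans (le_abs_self R)) (norm_nonneg _) (mul_nonneg hs hL)
  have hD : ∀ y ∈ Metric.ball (base : Matrix n n ℂ) δ, DifferentiableAt ℝ gZ y ∧ ‖fderiv ℝ gZ y‖ ≤ K := by
    intro y hy
    rw [Metric.mem_ball, dist_eq_norm] at hy
    obtain ⟨h1, h2⟩ := hb y hy
    refine ⟨h1, ?_⟩
    calc ‖fderiv ℝ gZ y‖ ≤ ‖fderiv ℝ gZ y - D0‖ + ‖D0‖ := norm_le_norm_sub_add _ _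
      _ ≤ K := add_le_add (h2.trans (mul_le_mul_of_nonneg_left hy.le hC)) le_rfl
  have hy : base + scaleL s w ∈ Metric.ball (base : Matrix n n ℂ) δ := by
    rw [Metric.mem_ball, dist_eq_norm, add_sub_cancel_left]
    exact hT.trans_lt hu
  have hv : ‖gZ (base + scaleL s w)‖ ≤ K * (s * (L * |R|)) := by
    have h := (convex_ball (base : Matrix n n ℂ) δ).norm_image_sub_le_of_norm_fderiv_le (𝕜 := ℝ)
      (fun y hy => (hD y hy).1) (fun y hy => (hD y hy).2) (Metric.mem_ball_self hδ) hy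
    rw [gZ_base, sub_zero, add_sub_cancel_left] at h
    exact h.trans (mul_le_mul_of_nonneg_left hT hK)
  constructor
  · rw [norm_smul, Real.norm_of_nonneg (mul_nonneg hs hs)]
    calc s * s * ‖gZ (base + scaleL s w)‖ ≤ s * s * (K * (s * (L * |R|))) :=
          mul_le_mul_of_nonneg_left hv (mul_nonneg hs hs)
      _ = K * L * |R| * (s * (s * s)) := by ring
      _ ≤ _ := mul_le_mul_of_nonneg_right (le_add_of_nonneg_right (mul_nonneg hK hL)) (by positivity)
  · rw [norm_smul, Real.norm_of_nonneg (mul_nonneg hs hs)]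
    calc s * s * ‖(fderiv ℝ gZ (base + scaleL s w)).comp (scaleL (n := n) s)‖ ≤ s * s * (K * (s * L)) :=
          mul_le_mul_of_nonneg_left ((ContinuousLinearMap.opNorm_comp_le _ _).trans
            (mul_le_mul (hD _ hy).2 (norm_scaleL_le (n := n) hs hs1) (norm_nonneg _) hK)) (mul_nonneg hs hs)
      _ = K * L * (s * (s * s)) := by ring
      _ ≤ _ := mul_le_mul_of_nonneg_right
          (le_add_of_nonneg_left (mul_nonneg (mul_nonneg hK hL) (abs_nonneg R))) (by positivity)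

lemma continuousAt_shiftZ (u : ℝ) :
    ContinuousAt (fun p : Matrix n n ℂ × ℝ => shiftZ p.1 p.2) (z, u) :=
  (continuous_fst.add (continuous_snd.smul continuous_const)).continuousAt

lemma continuousOn_along (hz : z ∈ domZ) {F : Type} [NormedAddCommGroup F] [NormedSpace ℝ F]
    {g : Matrix n n ℂ → F} (hg : ∀ w ∈ domZ, ContinuousAt g w) :
    ContinuousOn (fun u => g (shiftZ z u)) (Ici 0) := fun u hu =>
  ((hg _ (shiftZ_mem hz hu)).comp (x := u) (f := fun v => shiftZ z v)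
    (continuous_const.add (continuous_id.smul continuous_const)).continuousAt).continuousWithinAt

/-- The integral along the shift is differentiable under the integral, with continuous derivative. -/
theorem hasFDerivAt_shift_integral (hν : 0 < ν) (hν1 : ν < 1) (hf : ∀ w ∈ domZ, ContDiffAt ℝ 2 f w)
    (hbd : ∀ R : ℝ, ∃ C : ℝ, ∀ᶠ u : ℝ in atTop, ∀ w ∈ (domZ : Set (Matrix n n ℂ)),
      ‖w‖ ≤ R → ‖fderiv ℝ f (shiftZ w u)‖ ≤ C * (u * Real.sqrt u)⁻¹)
    {c : ℝ → Matrix n n ℂ} (hc : ContinuousOn c (Ioi 0)) (hz : z ∈ domZ)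
    (hi : IntegrableOn (fun u => u ^ (ν - 1 / 2) • (c u + f (shiftZ z u))) (Ioi 0)) :
    HasFDerivAt (fun w => ∫ u in Ioi (0 : ℝ), u ^ (ν - 1 / 2) • (c u + f (shiftZ w u)))
        (∫ u in Ioi (0 : ℝ), u ^ (ν - 1 / 2) • fderiv ℝ f (shiftZ z u)) z ∧
      ContinuousAt (fun w => ∫ u in Ioi (0 : ℝ), u ^ (ν - 1 / 2) • fderiv ℝ f (shiftZ w u)) z := by
  have : ProperSpace (Matrix n n ℂ) := FiniteDimensional.proper ℂ _
  obtain ⟨r, hr, hball⟩ := Metric.nhds_basis_closedBall.mem_iff.1 (isOpen_domZ.mem_nhds hz)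
  set R := ‖z‖ + r
  have hR : ∀ w ∈ Metric.closedBall z r, ‖w‖ ≤ R := fun w hw => by
    rw [Metric.mem_closedBall, dist_eq_norm] at hw
    linarith [norm_le_norm_sub_add w z]
  obtain ⟨C, hC⟩ := hbd R
  obtain ⟨a, ha⟩ := eventually_atTop.1 (hC.and (eventually_ge_atTop 1))
  have ha1 : 1 ≤ a := (ha a le_rfl).2
  have hcf : ∀ w ∈ domZ, ContinuousAt (fderiv ℝ f) w := fun w hw =>
    ((hf w hw).fderiv_right (m := 1) (by norm_num)).continuousAt
  obtain ⟨K, hK⟩ := ((isCompact_closedBall z r).prod (isCompact_Icc (a := (0 : ℝ)) (b := a))).exists_bound_of_continuousOn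
    (f := fun p : Matrix n n ℂ × ℝ => fderiv ℝ f (shiftZ p.1 p.2)) (fun p hp =>
      ((hcf _ (shiftZ_mem (hball hp.1) hp.2.1)).comp (x := p) (continuousAt_shiftZ p.2)).continuousWithinAt)
  have hK0 : 0 ≤ K := (norm_nonneg _).trans (hK (z, 0) ⟨Metric.mem_closedBall_self hr.le,
    ⟨le_rfl, zero_le_one.trans ha1⟩⟩)
  set bound : ℝ → ℝ := fun u => if u ≤ a then K * u ^ (ν - 1 / 2) else C * u ^ (ν - 2)
  have hbound : ∀ u ∈ Ioi (0 : ℝ), ∀ w ∈ Metric.closedBall z r,
      ‖u ^ (ν - 1 / 2) • fderiv ℝ f (shiftZ w u)‖ ≤ bound u := fun u hu w hw => by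
    have hu0 : (0 : ℝ) < u := hu
    rw [norm_smul, Real.norm_of_nonneg (Real.rpow_nonneg hu0.le _)]
    simp only [bound]
    split
    · rw [mul_comm]
      exact mul_le_mul_of_nonneg_right (hK (w, u) ⟨hw, hu0.le, ‹_›⟩) (Real.rpow_nonneg hu0.le _)
    · refine (mul_le_mul_of_nonneg_left ((ha u (le_of_not_ge ‹_›)).1 w (hball hw) (hR w hw))
        (Real.rpow_nonneg hu0.le _)).trans (le_of_eq ?_)
      rw [← rpow_neg_three_halves hu0, mul_left_comm, ← Real.rpow_add hu0]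
      ring_nf
  have hbi : IntegrableOn bound (Ioi 0) := by
    rw [← Ioc_union_Ioi_eq_Ioi (zero_le_one.trans ha1)]
    refine IntegrableOn.union ?_ ?_
    · have h := ((intervalIntegrable_iff_integrableOn_Ioc_of_le (μ := volume) (zero_le_one.trans ha1)).1
        (intervalIntegral.intervalIntegrable_rpow' (r := ν - 1 / 2) (by linarith))).const_mul K
      exact IntegrableOn.congr_fun h (fun u hu => by simp only [bound, if_pos hu.2]) measurableSet_Ioc
    · have h := (integrableOn_Ioi_rpow_of_lt (a := ν - 2) (by linarith) (lt_of_lt_of_le one_pos ha1)).const_mul C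
      exact IntegrableOn.congr_fun h (fun u hu => by simp only [bound, if_neg (not_le.2 (show a < u from hu))])
        measurableSet_Ioi
  have hp : ContinuousOn (fun u : ℝ => u ^ (ν - 1 / 2)) (Ioi 0) :=
    continuousOn_id.rpow_const fun u hu => Or.inl (ne_of_gt hu)
  have hmd : ∀ w ∈ domZ, AEStronglyMeasurable (fun u => u ^ (ν - 1 / 2) • fderiv ℝ f (shiftZ w u))
      (volume.restrict (Ioi 0)) := fun w hw =>
    (hp.smul ((continuousOn_along (g := fderiv ℝ f) hw hcf).mono Ioi_subset_Ici_self) :).aestronglyMeasurable measurableSet_Ioi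
  have hnhds : Metric.closedBall z r ∈ 𝓝 z := Metric.closedBall_mem_nhds z hr
  constructor
  · refine hasFDerivAt_integral_of_dominated_of_fderiv_le (μ := volume.restrict (Ioi (0 : ℝ))) (bound := bound)
      (F' := fun w u => u ^ (ν - 1 / 2) • fderiv ℝ f (shiftZ w u)) hnhds ?_ hi (hmd z hz)
      ((ae_restrict_mem measurableSet_Ioi).mono hbound) hbi
      ((ae_restrict_mem measurableSet_Ioi).mono fun u hu w hw => ?_)
    · filter_upwards [isOpen_domZ.mem_nhds hz] with w hw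
      exact (hp.smul (hc.add ((continuousOn_along hw fun v hv => (hf v hv).continuousAt).mono
        Ioi_subset_Ici_self))).aestronglyMeasurable measurableSet_Ioi
    · have h := (((hf _ (shiftZ_mem (hball hw) (le_of_lt hu))).differentiableAt (by norm_num)).hasFDerivAt.comp w
        (hasFDerivAt_shiftZ u)).const_add (c u)
      rw [ContinuousLinearMap.comp_id] at h
      exact h.const_smul (u ^ (ν - 1 / 2))
  · refine continuousAt_of_dominated (μ := volume.restrict (Ioi (0 : ℝ))) (bound := bound) ?_ ?_ hbi ?_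
    · filter_upwards [isOpen_domZ.mem_nhds hz] with w hw using hmd w hw
    · filter_upwards [hnhds] with w hw
      exact (ae_restrict_mem measurableSet_Ioi).mono fun u hu => hbound u hu w hw
    · refine (ae_restrict_mem measurableSet_Ioi).mono fun u hu => ?_
      exact ContinuousAt.const_smul (M := ℝ) (g := fun w => fderiv ℝ f (shiftZ w u)) ((hcf _ (shiftZ_mem hz (le_of_lt hu))).comp (x := z) (f := fun w => shiftZ w u)
        (hasFDerivAt_shiftZ u).continuousAt) _

end Vale.Agent.P371.Pencil
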