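import Vale.Agent.P371.Pencil.Pointwise

/-!
P371, pencils: the root along a shift of the constant coefficient: derivative and size at infinity.
-/

namespace Vale.Agent.P371.Pencil

open Matrix Complex Filter Set
open scoped ComplexOrder Matrix.Norms.L2Operator Topology

variable {n : Type} [Fintype n] [DecidableEq n] {B E A : Matrix n n ℂ}

open Classical in
/-- The stable root of a pencil. -/
noncomputable def root (B E : Matrix n n ℂ) : Matrix n n ℂ :=
  if h : Dom B E then (exists_root h).choose else I • 1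

lemma root_spec (h : Dom B E) :
    Stable (root B E) ∧ root B E + (root B E)ᴴ = (2 : ℂ) • B ∧ (root B E)ᴴ * root B E = E := by
  rw [root, dif_pos h]
  exact (exists_root h).choose_spec

lemma root_eq (hB : B.IsHermitian) (hE : E.IsHermitian) (hA : Stable A)
    (h1 : A + Aᴴ = (2 : ℂ) • B) (h2 : Aᴴ * A = E) : root B E = A := by
  obtain ⟨s, r1, r2⟩ := root_spec (hA.dom hB hE h1 h2)
  exact s.root_unique hA (r1.trans h1.symm) (r2.trans h2.symm)

lemma stable_I : Stable ((I : ℂ) • (1 : Matrix n n ℂ)) := ⟨1, Matrix.PosDef.one, by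
  rw [lyap, conjTranspose_smul, conjTranspose_one, mul_one, one_mul, Complex.star_def, conj_I,
    ← sub_smul, sub_neg_eq_add, two_mul]⟩

/-- The root as a function of both coefficients in one matrix. -/
noncomputable def rootZ (z : Matrix n n ℂ) : Matrix n n ℂ := root (partB z) (partE z)

lemma rootZ_coeff (h : Stable A) : rootZ (coeff A) = A := by
  obtain ⟨h1, h2⟩ := (coeff_eq_iff (A := A) (isHermitian_parts (coeff A)).1 (isHermitian_parts (coeff A)).2).1
    (by rw [parts_spec])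
  exact root_eq (isHermitian_parts _).1 (isHermitian_parts _).2 h h1 h2

lemma rootZ_eq (hB : B.IsHermitian) (hE : E.IsHermitian) : rootZ ((2 : ℂ) • B + I • E) = root B E := by
  rw [rootZ, (parts_eq hB hE).1, (parts_eq hB hE).2]

/-- The derivative of the root, as the inverse of that of the coefficient map. -/
noncomputable def coeffEquiv (h : Stable A) : Matrix n n ℂ ≃L[ℝ] Matrix n n ℂ :=
  ContinuousLinearEquiv.ofBijective (coeffD A)
    (LinearMap.ker_eq_bot.2 (LinearMap.injective_iff_surjective.2 (LinearMap.range_eq_top.1 h.range_coeffD)))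
    h.range_coeffD

lemma hasStrictFDerivAt_rootZ (h : Stable A) :
    HasStrictFDerivAt rootZ ((coeffEquiv h).symm : Matrix n n ℂ →L[ℝ] Matrix n n ℂ) (coeff A) := by
  have hd : HasStrictFDerivAt coeff (coeffEquiv h : Matrix n n ℂ →L[ℝ] Matrix n n ℂ) A :=
    hasStrictFDerivAt_coeff A
  refine hd.to_local_left_inverse ?_
  filter_upwards [isOpen_stable.mem_nhds h] with A' hA' using rootZ_coeff hA'

/-- The shifted constant coefficient. -/
def shiftE (E : Matrix n n ℂ) (u : ℝ) : Matrix n n ℂ := E + (u : ℂ) • 1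

lemma Dom.shift (h : Dom B E) {u : ℝ} (hu : 0 ≤ u) : Dom B (shiftE E u) := by
  refine ⟨h.hermB, h.hermE.add ?_, fun t => ?_⟩
  · show _ = _
    rw [conjTranspose_smul, conjTranspose_one, Complex.star_def, Complex.conj_ofReal]
  · have e : pencil B (shiftE E u) t = pencil B E t + (u : ℂ) • 1 := by
      rw [pencil, pencil, shiftE, add_assoc]
    rw [e]
    exact (h.pos t).add_posSemidef (Matrix.PosSemidef.one.smul (Complex.zero_le_real.2 hu))

/-- The root at parameter `u`. -/
noncomputable def rootAt (B E : Matrix n n ℂ) (u : ℝ) : Matrix n n ℂ := root B (shiftE E u)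

/-- The Lyapunov solution at parameter `u`. -/
noncomputable def wgt (B E : Matrix n n ℂ) (u : ℝ) : Matrix n n ℂ := lyapSol (rootAt B E u)

/-- The trace of the imaginary part at parameter `u`. -/
noncomputable def imTr (B E : Matrix n n ℂ) (u : ℝ) : ℝ := (rootAt B E u).trace.im

lemma rootAt_spec (h : Dom B E) {u : ℝ} (hu : 0 ≤ u) :
    Stable (rootAt B E u) ∧ rootAt B E u + (rootAt B E u)ᴴ = (2 : ℂ) • B ∧
      (rootAt B E u)ᴴ * rootAt B E u = shiftE E u := root_spec (h.shift hu)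

lemma wgt_spec (h : Dom B E) {u : ℝ} (hu : 0 ≤ u) :
    (wgt B E u).PosDef ∧ lyap (rootAt B E u) (wgt B E u) = (2 * I) • 1 :=
  ⟨(rootAt_spec h hu).1.lyapSol_posDef, lyapSol_spec (rootAt_spec h hu).1.isUnit_lyapL⟩

lemma imA_trace (A : Matrix n n ℂ) : (imA A).trace.re = A.trace.im := by
  rw [imA, Matrix.trace_smul, Matrix.trace_sub, Matrix.trace_conjTranspose, smul_eq_mul]
  simp [Complex.mul_re]
  ring

lemma hasDerivAt_rootAt (h : Dom B E) {u : ℝ} (hu : 0 ≤ u) :
    HasDerivAt (rootAt B E) ((coeffEquiv (rootAt_spec h hu).1).symm (I • 1)) u := by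
  obtain ⟨hs, h1, h2⟩ := rootAt_spec h hu
  have hH : ∀ v : ℝ, (shiftE E v).IsHermitian := fun v => by
    refine h.hermE.add ?_
    show _ = _
    rw [conjTranspose_smul, conjTranspose_one, Complex.star_def, Complex.conj_ofReal]
  have e : rootAt B E = rootZ ∘ fun v : ℝ => ((2 : ℂ) • B + I • E) + v • ((I : ℂ) • (1 : Matrix n n ℂ)) := by
    funext v
    show root B (shiftE E v) = rootZ _
    rw [← rootZ_eq h.hermB (hH v), shiftE]
    congr 1
    module
  have hz : ((2 : ℂ) • B + I • E) + u • ((I : ℂ) • (1 : Matrix n n ℂ)) = coeff (rootAt B E u) := by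
    rw [coeff, h1, h2, shiftE]
    module
  have hd : HasDerivAt (fun v : ℝ => ((2 : ℂ) • B + I • E) + v • ((I : ℂ) • (1 : Matrix n n ℂ)))
      ((I : ℂ) • 1) u := by
    simpa using ((hasDerivAt_id u).smul_const ((I : ℂ) • (1 : Matrix n n ℂ))).const_add ((2 : ℂ) • B + I • E)
  have hg := hasStrictFDerivAt_rootZ hs
  rw [← hz] at hg
  exact (hg.hasFDerivAt.comp_hasDerivAt u hd).congr_of_eventuallyEq (Eventually.of_forall (congrFun e))

lemma continuousAt_rootAt (h : Dom B E) {u : ℝ} (hu : 0 ≤ u) : ContinuousAt (rootAt B E) u :=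
  (hasDerivAt_rootAt h hu).continuousAt

lemma continuousAt_wgt (h : Dom B E) {u : ℝ} (hu : 0 ≤ u) : ContinuousAt (wgt B E) u :=
  (continuousAt_lyapSol (rootAt_spec h hu).1.isUnit_lyapL).comp (continuousAt_rootAt h hu)

lemma trace_deriv_eq {W H : Matrix n n ℂ} (hW : W.PosDef) (e : lyap A W = (2 * I) • 1)
    (h1 : H + Hᴴ = 0) (h2 : Aᴴ * H + Hᴴ * A = 1) : H.trace.im = W.trace.re / 2 := by
  have hH : Hᴴ = -H := eq_neg_of_add_eq_zero_right h1
  rw [hH, Matrix.neg_mul, ← sub_eq_add_neg] at h2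
  have h3 : W.trace = -(2 * I) * H.trace := by
    calc W.trace = (W * (Aᴴ * H - H * A)).trace := by rw [h2, mul_one]
      _ = -(lyap A W * H).trace := by
          rw [Matrix.mul_sub, Matrix.trace_sub, ← Matrix.mul_assoc W Aᴴ H, ← Matrix.mul_assoc W H A,
            Matrix.trace_mul_cycle W H A, lyap, Matrix.sub_mul, Matrix.trace_sub, neg_sub]
      _ = _ := by rw [e]; simp
  rw [h3]
  simp [Complex.mul_re]

lemma hasDerivAt_imTr (h : Dom B E) {u : ℝ} (hu : 0 ≤ u) :
    HasDerivAt (imTr B E) ((wgt B E u).trace.re / 2) u := by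
  obtain ⟨hs, -, -⟩ := rootAt_spec h hu
  set H := (coeffEquiv hs).symm ((I : ℂ) • 1)
  have hH : (H + Hᴴ) + I • ((rootAt B E u)ᴴ * H + Hᴴ * rootAt B E u) = (I : ℂ) • 1 :=
    (coeffEquiv hs).apply_symm_apply ((I : ℂ) • 1)
  obtain ⟨h1, h2⟩ := herm_add_I_smul_eq (X := H + Hᴴ)
    (Y := (rootAt B E u)ᴴ * H + Hᴴ * rootAt B E u - 1)
    (by show _ = _; rw [conjTranspose_add, conjTranspose_conjTranspose, add_comm])
    (by
      refine IsHermitian.sub ?_ (by show _ = _; rw [conjTranspose_one])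
      show _ = _
      rw [conjTranspose_add, conjTranspose_mul, conjTranspose_mul, conjTranspose_conjTranspose,
        conjTranspose_conjTranspose, add_comm])
    (by rw [smul_sub, ← add_sub_assoc, hH, sub_self])
  rw [← trace_deriv_eq (wgt_spec h hu).1 (wgt_spec h hu).2 h1 (sub_eq_zero.1 h2)]
  set L : Matrix n n ℂ →L[ℝ] ℝ := Complex.imCLM.comp
    (LinearMap.toContinuousLinearMap ((Matrix.traceLinearMap n ℂ ℂ).restrictScalars ℝ))
  exact (L.hasFDerivAt.comp_hasDerivAt u (hasDerivAt_rootAt h hu) :)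

lemma excess_rootAt (h : Dom B E) {u : ℝ} (hu : 0 ≤ u) :
    reA (rootAt B E u) = B ∧ imA (rootAt B E u) * imA (rootAt B E u) +
      I • (B * imA (rootAt B E u) - imA (rootAt B E u) * B) = E - B * B + (u : ℂ) • 1 := by
  obtain ⟨-, h1, h2⟩ := rootAt_spec h hu
  have hre : reA (rootAt B E u) = B := by rw [reA, h1, smul_smul]; norm_num
  refine ⟨hre, ?_⟩
  have := excess_eq (A := rootAt B E u)
  rw [hre, h2, shiftE] at this
  rw [← this]
  abel

/-- Near infinity the imaginary part is the square root of the parameter. -/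
lemma tendsto_scaled (h : Dom B E) :
    Tendsto (fun u => ((Real.sqrt u)⁻¹ : ℂ) • rootAt B E u) atTop (𝓝 ((I : ℂ) • 1)) := by
  set z : ℝ → Matrix n n ℂ := fun u =>
    (2 : ℂ) • (((Real.sqrt u)⁻¹ : ℂ) • B) + I • (((u : ℂ))⁻¹ • E + 1)
  have hr : Tendsto (fun u => ((Real.sqrt u)⁻¹ : ℂ)) atTop (𝓝 0) := by
    have := (Complex.continuous_ofReal.tendsto 0).comp (tendsto_inv_atTop_zero.comp Real.tendsto_sqrt_atTop)
    simpa [Function.comp_def] using this
  have hu' : Tendsto (fun u : ℝ => (u : ℂ)⁻¹) atTop (𝓝 0) := by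
    have := (Complex.continuous_ofReal.tendsto 0).comp (tendsto_inv_atTop_zero (𝕜 := ℝ))
    simpa [Function.comp_def] using this
  have hz : Tendsto z atTop (𝓝 (coeff ((I : ℂ) • (1 : Matrix n n ℂ)))) := by
    have e : coeff ((I : ℂ) • (1 : Matrix n n ℂ)) =
        (2 : ℂ) • ((0 : ℂ) • B) + I • ((0 : ℂ) • E + 1) := by
      simp [coeff, Complex.conj_I, smul_smul]
    rw [e]
    exact ((hr.smul_const B).const_smul (2 : ℂ)).add (((hu'.smul_const E).add_const 1).const_smul I)
  have hlim := ((hasStrictFDerivAt_rootZ (stable_I (n := n))).continuousAt.tendsto).comp hz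
  rw [rootZ_coeff stable_I] at hlim
  refine hlim.congr' ?_
  filter_upwards [eventually_gt_atTop 0] with u hu
  obtain ⟨hs, h1, h2⟩ := rootAt_spec h hu.le
  have hq : (0 : ℝ) < Real.sqrt u := Real.sqrt_pos.2 hu
  set c : ℂ := ((Real.sqrt u)⁻¹ : ℂ)
  have hc : star c = c := by simp [c]
  have hs' : Stable (c • rootAt B E u) := by
    refine ⟨(Real.sqrt u : ℂ) • wgt B E u, (wgt_spec h hu.le).1.smul (Complex.zero_lt_real.2 hq), ?_⟩
    rw [← (wgt_spec h hu.le).2]
    simp only [lyap, conjTranspose_smul, hc, Matrix.smul_mul, Matrix.mul_smul, smul_smul]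
    rw [show (Real.sqrt u : ℂ) * c = 1 by simp only [c]; field_simp,
      show c * (Real.sqrt u : ℂ) = 1 by simp only [c]; field_simp, one_smul, one_smul]
  have hcc : c * c = (u : ℂ)⁻¹ := by
    simp only [c]
    rw [← mul_inv, ← Complex.ofReal_mul, Real.mul_self_sqrt hu.le]
  have hB : (c • B).IsHermitian := by
    show _ = _; rw [conjTranspose_smul, hc, h.hermB.eq]
  have hE : ((u : ℂ)⁻¹ • E + 1).IsHermitian := by
    show _ = _
    rw [conjTranspose_add, conjTranspose_smul, h.hermE.eq, conjTranspose_one, star_inv₀, Complex.star_def,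
      Complex.conj_ofReal]
  show rootZ (z u) = _
  rw [rootZ_eq hB hE]
  refine root_eq hB hE hs' ?_ ?_
  · rw [conjTranspose_smul, hc, ← smul_add, h1, smul_comm]
  · rw [conjTranspose_smul, hc, Matrix.smul_mul, Matrix.mul_smul, smul_smul, h2, hcc, shiftE, smul_add,
      smul_smul, inv_mul_cancel₀ (by exact_mod_cast hu.ne'), one_smul]

/-- The Lyapunov solution approaches the inverse square root at rate three halves. -/
lemma eventually_wgt_near (h : Dom B E) : ∀ᶠ u : ℝ in atTop,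
    ‖wgt B E u - ((Real.sqrt u)⁻¹ : ℂ) • 1‖ ≤ 2 * ‖E - B * B‖ / (u * Real.sqrt u) := by
  have hc : Continuous fun X : Matrix n n ℂ => ‖imA X - 1‖ := by
    have h1 : Continuous fun X : Matrix n n ℂ => X - Xᴴ :=
      continuous_id.sub continuous_id.matrix_conjTranspose
    exact ((h1.const_smul (-I / 2)).sub continuous_const).norm
  have hnear : ∀ᶠ u : ℝ in atTop, ‖imA (((Real.sqrt u)⁻¹ : ℂ) • rootAt B E u) - 1‖ < 1 / 4 := by
    refine ((hc.tendsto _).comp (tendsto_scaled h)).eventually (gt_mem_nhds ?_)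
    rw [imA, conjTranspose_smul, conjTranspose_one, Complex.star_def, conj_I, ← sub_smul, sub_neg_eq_add,
      smul_smul, show -I / 2 * (I + I) = 1 by linear_combination (-1 : ℂ) * I_mul_I, one_smul, sub_self,
      norm_zero]
    norm_num
  filter_upwards [hnear, eventually_gt_atTop 0, Real.tendsto_sqrt_atTop.eventually_ge_atTop (4 * ‖B‖)]
    with u hn hu hB
  obtain ⟨hre, hex⟩ := excess_rootAt h hu.le
  set K := imA (rootAt B E u)
  set q : ℝ := Real.sqrt u with hqdef
  have hq : 0 < q := Real.sqrt_pos.2 hu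
  set D := K - (q : ℂ) • 1 with hD
  have hD4 : ‖D‖ ≤ q / 4 := by
    have e : imA (((q)⁻¹ : ℂ) • rootAt B E u) - 1 = ((q)⁻¹ : ℂ) • D := by
      have hs : star ((q : ℂ))⁻¹ = ((q : ℂ))⁻¹ := by simp
      simp only [hD, K, imA, conjTranspose_smul, hs, smul_sub, smul_smul]
      rw [inv_mul_cancel₀ (by exact_mod_cast hq.ne'), one_smul, mul_comm ((q : ℂ))⁻¹]
    rw [e, norm_smul, norm_inv, Complex.norm_real, Real.norm_eq_abs, abs_of_pos hq, inv_mul_lt_iff₀ hq] at hn
    linarith
  set M := E - B * B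
  have hK : K = D + (q : ℂ) • 1 := by rw [hD, sub_add_cancel]
  have e1 : (2 * q : ℂ) • D = M - D * D - I • (B * D - D * B) := by
    have hq2 : (q : ℂ) * q = u := by rw [← Complex.ofReal_mul, hqdef, Real.mul_self_sqrt hu.le]
    have := hex
    rw [hK] at this
    simp only [Matrix.add_mul, Matrix.mul_add, Matrix.smul_mul, Matrix.mul_smul, one_mul, mul_one,
      smul_add, smul_smul, hq2] at this
    linear_combination (norm := module) this
  have hcomm : ∀ X : Matrix n n ℂ, ‖I • (B * X - X * B)‖ ≤ 2 * ‖B‖ * ‖X‖ := fun X => by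
    rw [norm_smul, Complex.norm_I, one_mul]
    refine (norm_sub_le _ _).trans ?_
    linarith [norm_mul_le B X, norm_mul_le X B]
  have hD2 : ‖D‖ * q ≤ ‖M‖ := by
    have h1 : ‖(2 * q : ℂ) • D‖ ≤ ‖M‖ + ‖D‖ * ‖D‖ + 2 * ‖B‖ * ‖D‖ := by
      rw [e1]
      exact (norm_sub_le _ _).trans (add_le_add ((norm_sub_le _ _).trans
        (add_le_add le_rfl (norm_mul_le _ _))) (hcomm D))
    rw [norm_smul, norm_mul, Complex.norm_ofNat, Complex.norm_real, Real.norm_eq_abs, abs_of_pos hq] at h1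
    nlinarith [norm_nonneg D, norm_nonneg B, mul_le_mul_of_nonneg_right hD4 (norm_nonneg D),
      mul_le_mul_of_nonneg_right hB (norm_nonneg D)]
  set X := wgt B E u - ((q : ℂ))⁻¹ • 1 with hX
  have hl := lyap_parts (wgt_spec h hu.le).2
  rw [hre, show imA (rootAt B E u) = K from rfl, hK, show wgt B E u = X + ((q : ℂ))⁻¹ • 1 by
    rw [hX, sub_add_cancel]] at hl
  have e2 : (2 * q : ℂ) • X = -((2 * ((q : ℂ))⁻¹) • D) - (D * X + X * D) + I • (B * X - X * B) := by
    simp only [Matrix.add_mul, Matrix.mul_add, Matrix.smul_mul, Matrix.mul_smul, one_mul, mul_one,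
      smul_add, smul_smul, mul_inv_cancel₀ (show (q : ℂ) ≠ 0 by exact_mod_cast hq.ne'),
      inv_mul_cancel₀ (show (q : ℂ) ≠ 0 by exact_mod_cast hq.ne'), one_smul] at hl
    linear_combination (norm := module) hl
  have h1 : ‖(2 * q : ℂ) • X‖ ≤ 2 * q⁻¹ * ‖D‖ + (‖D‖ * ‖X‖ + ‖X‖ * ‖D‖) + 2 * ‖B‖ * ‖X‖ := by
    rw [e2]
    refine (norm_add_le _ _).trans (add_le_add ((norm_sub_le _ _).trans (add_le_add ?_ ?_)) (hcomm X))
    · rw [norm_neg, norm_smul, norm_mul, Complex.norm_ofNat, norm_inv, Complex.norm_real, Real.norm_eq_abs,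
        abs_of_pos hq]
    · exact (norm_add_le _ _).trans (add_le_add (norm_mul_le _ _) (norm_mul_le _ _))
  rw [norm_smul, norm_mul, Complex.norm_ofNat, Complex.norm_real, Real.norm_eq_abs, abs_of_pos hq] at h1
  have h2 : q * ‖X‖ ≤ 2 * q⁻¹ * ‖D‖ := by
    nlinarith [norm_nonneg X, mul_le_mul_of_nonneg_right hD4 (norm_nonneg X),
      mul_le_mul_of_nonneg_right hB (norm_nonneg X)]
  have h3 : q * ‖X‖ * (q * q) ≤ 2 * ‖M‖ := by
    calc q * ‖X‖ * (q * q) ≤ 2 * q⁻¹ * ‖D‖ * (q * q) := mul_le_mul_of_nonneg_right h2 (by positivity)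
      _ = 2 * (‖D‖ * q) := by field_simp
      _ ≤ _ := by linarith
  rw [le_div_iff₀ (mul_pos hu hq)]
  calc ‖X‖ * (u * q) = q * ‖X‖ * (q * q) / q ^ 2 * u := by field_simp
    _ = q * ‖X‖ * (q * q) := by
        rw [div_mul_eq_mul_div, mul_div_assoc, show u / q ^ 2 = 1 by
          rw [hqdef, Real.sq_sqrt hu.le, div_self hu.ne'], mul_one]
    _ ≤ _ := h3

end Vale.Agent.P371.Pencil
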