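import Vale.Agent.P371.Pencil.Commute

/-!
P371, pencils: `(B, E) ↦ (B, Ξ)` is a `C¹` bijection from the part of the cone where `Ξ > 0`
onto all pairs with positive second entry.
-/

namespace Vale.Agent.P371.Pencil

open Matrix Complex MeasureTheory Filter Set
open scoped ComplexOrder Matrix.Norms.L2Operator Topology

variable {n : Type} [Fintype n] [DecidableEq n] {z k : Matrix n n ℂ} {ν : ℝ}

/-- The code of the linear coefficient and the weight. -/
noncomputable def chartMap (ν : ℝ) (z : Matrix n n ℂ) : Matrix n n ℂ := (2 : ℂ) • partB z + I • XiZ ν z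

lemma mem_domZC_shift {u : ℝ} (hu : 0 < u) (hz : z ∈ domZC) : Stable (rootZ (shiftZ z u)) :=
  (rootZ_spec (shiftZ_mem' hz hu)).1

lemma isHermitian_XiZ (hν : 1 / 2 < ν) (hν1 : ν < 1) (hz : z ∈ domZC) : (XiZ ν z).IsHermitian := by
  set S := (starL' ℝ : Matrix n n ℂ ≃L[ℝ] Matrix n n ℂ).toContinuousLinearMap
  show S (XiZ ν z) = XiZ ν z
  rw [XiZ, weightI, map_smul, ← S.integral_comp_comm (weightI_closed hν hν1 hz).1]
  congr 1
  refine setIntegral_congr_fun measurableSet_Ioi fun u hu => ?_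
  have hW : (wZ (shiftZ z u)).IsHermitian := (mem_domZC_shift hu hz).lyapSol_posDef.isHermitian
  show (u ^ (ν - 1 / 2) • ((Real.sqrt u)⁻¹ • (1 : Matrix n n ℂ) + -wZ (shiftZ z u)))ᴴ = _
  rw [← Complex.coe_smul, ← Complex.coe_smul (Real.sqrt u)⁻¹, conjTranspose_smul, conjTranspose_add,
    conjTranspose_smul, conjTranspose_neg, conjTranspose_one, hW.eq, Complex.star_def, Complex.conj_ofReal,
    Complex.conj_ofReal]

lemma chartMap_parts (hν : 1 / 2 < ν) (hν1 : ν < 1) (hz : z ∈ domZC) :
    partB (chartMap ν z) = partB z ∧ partE (chartMap ν z) = XiZ ν z :=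
  parts_eq (isHermitian_parts z).1 (isHermitian_XiZ hν hν1 hz)

/-- The weight decreases in the constant coefficient, strictly. -/
lemma trace_mul_fderiv_wZ (hz : z ∈ domZ) (hk : partB k = 0) :
    0 ≤ -(partE k * fderiv ℝ wZ z k).trace.re ∧
      ((partE k * fderiv ℝ wZ z k).trace.re = 0 → partE k = 0) := by
  set A := rootZ z with hAdef
  set W := wZ z with hWdef
  set H := fderiv ℝ rootZ z k with hHdef
  set X := fderiv ℝ wZ z k with hXdef
  have hs := (rootZ_spec hz).1
  have hW : W.PosDef := hs.lyapSol_posDef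
  have hk' : (H + Hᴴ) + I • (Aᴴ * H + Hᴴ * A) = k := coeffD_fderiv hz k
  obtain ⟨hH, hE⟩ := herm_add_I_smul_eq (X := H + Hᴴ) (Y := Aᴴ * H + Hᴴ * A - partE k)
    (by show _ = _; rw [conjTranspose_add, conjTranspose_conjTranspose, add_comm])
    (by
      refine IsHermitian.sub ?_ (isHermitian_parts k).2
      show _ = _
      rw [conjTranspose_add, conjTranspose_mul, conjTranspose_mul, conjTranspose_conjTranspose,
        conjTranspose_conjTranspose, add_comm])
    (by
      rw [smul_sub, ← add_sub_assoc, hk', sub_eq_zero]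
      conv_lhs => rw [← parts_spec k, hk, smul_zero, zero_add])
  have hH' : Hᴴ = -H := eq_neg_of_add_eq_zero_right hH
  rw [sub_eq_zero] at hE
  have hr : HasFDerivAt rootZ (fderiv ℝ rootZ z) z :=
    ((contDiffAt_rootZ (k := 2) (by norm_num) hz).differentiableAt (by norm_num)).hasFDerivAt
  have hw : HasFDerivAt wZ (fderiv ℝ wZ z) z :=
    ((contDiffAt_wZ (k := 2) (by norm_num) hz).differentiableAt (by norm_num)).hasFDerivAt
  set S := (starL' ℝ : Matrix n n ℂ ≃L[ℝ] Matrix n n ℂ).toContinuousLinearMap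
  have hl : HasFDerivAt (fun w => rootZ w * wZ w - wZ w * S (rootZ w)) _ z :=
    (hr.mul' hw).sub (hw.mul' (S.hasFDerivAt.comp _ hr))
  have h0 : HasFDerivAt (fun w => rootZ w * wZ w - wZ w * S (rootZ w)) (0 : Matrix n n ℂ →L[ℝ] Matrix n n ℂ)
      z := (hasFDerivAt_const ((2 * I) • (1 : Matrix n n ℂ)) z).congr_of_eventuallyEq <| by
    filter_upwards [isOpen_domZ.mem_nhds hz] with w hw using lyapSol_spec (rootZ_spec hw).1.isUnit_lyapL
  have h1 := DFunLike.congr_fun (hl.unique h0) k
  simp only [_root_.sub_apply, _root_.add_apply, _root_.smul_apply,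
    ContinuousLinearMap.comp_apply, smul_eq_mul, MulOpposite.smul_eq_mul_unop, MulOpposite.unop_op,
    _root_.zero_apply, ← hAdef, ← hWdef, ← hHdef, ← hXdef] at h1
  rw [show S H = -H from hH', show S A = Aᴴ from rfl, mul_neg] at h1
  have e1 : lyap A X = -(H * W + W * H) := by
    rw [lyap]
    linear_combination (norm := abel) h1
  have e2 : (partE k * X).trace = -(2 * (Hᴴ * W * H).trace) := by
    rw [← hE, hH', Matrix.neg_mul, Matrix.add_mul, Matrix.trace_add, Matrix.neg_mul, Matrix.trace_neg,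
      Matrix.trace_mul_cycle Aᴴ H X, Matrix.trace_mul_comm (X * Aᴴ) H, Matrix.mul_assoc H A X, ← sub_eq_add_neg,
      ← Matrix.trace_sub, ← Matrix.mul_sub, show X * Aᴴ - A * X = -lyap A X by rw [lyap]; abel, e1, neg_neg,
      Matrix.mul_add, Matrix.trace_add, Matrix.neg_mul, Matrix.neg_mul, Matrix.trace_neg, mul_neg, neg_neg,
      Matrix.trace_mul_comm H (H * W), Matrix.mul_assoc H W H, two_mul]
  have h2 := trace_sandwich_nonneg hW.posSemidef H
  obtain ⟨h3, h4⟩ := Complex.nonneg_iff.1 h2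
  rw [e2]
  refine ⟨by simp; linarith, fun h => ?_⟩
  simp at h
  have hH0 : H = 0 := eq_zero_of_sandwich hW (Complex.ext (by simpa using h) h4.symm)
  rw [← hE, hH0]
  simp

lemma integrableOn_dWeight (hν : 0 < ν) (hν1 : ν < 1) (hz : z ∈ domZ) :
    IntegrableOn (fun u => u ^ (ν - 1 / 2) • fderiv ℝ (fun w => -wZ w) (shiftZ z u)) (Ioi 0) := by
  have hf : ∀ w ∈ (domZ : Set (Matrix n n ℂ)), ContDiffAt ℝ 2 (fun w => -wZ w) w :=
    fun w hw => (contDiffAt_wZ (by norm_num) hw).neg
  have hc : ContinuousOn (fun u => fderiv ℝ (fun w => -wZ w) (shiftZ z u)) (Ici 0) :=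
    continuousOn_along (g := fderiv ℝ fun w => -wZ w) hz
      fun w hw => ((hf w hw).fderiv_right (m := 1) (by norm_num)).continuousAt
  obtain ⟨K, hK⟩ := (isCompact_Icc (a := (0 : ℝ)) (b := 1)).exists_bound_of_continuousOn
    (hc.mono Icc_subset_Ici_self)
  obtain ⟨C, hC⟩ := exists_fderiv_wZ_le (n := n) ‖z‖
  refine integrableOn_weight (F := Matrix n n ℂ →L[ℝ] Matrix n n ℂ) hν hν1 (hc.mono Ioi_subset_Ici_self :)
    (C := K) (C' := C) (fun u hu => ?_) ?_
  · have hK' := hK u ⟨hu.1.le, hu.2⟩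
    rw [rpow_neg_half hu.1]
    exact hK'.trans (le_mul_of_one_le_right ((norm_nonneg _).trans hK')
      ((one_le_inv₀ (Real.sqrt_pos.2 hu.1)).2 (Real.sqrt_le_one.2 hu.2)))
  · filter_upwards [hC, eventually_gt_atTop 0] with u hu hu0
    rw [rpow_neg_three_halves hu0, fderiv_fun_neg, norm_neg]
    exact hu z hz le_rfl

/-- The derivative of the weight in the constant coefficient is positive definite. -/
theorem pairing_fderiv_XiZ_pos (hν : 0 < ν) (hν1 : ν < 1) (hz : z ∈ domZ) (hk : partB k = 0)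
    (hk0 : partE k ≠ 0) : 0 < pairing (partE k) (fderiv ℝ (XiZ ν) z k) := by
  obtain ⟨hW, -⟩ := hasFDerivAt_weightI hν hν1 hz
  have hX : HasFDerivAt (XiZ ν) ((scal ν)⁻¹ • ∫ u in Ioi (0 : ℝ),
      u ^ (ν - 1 / 2) • fderiv ℝ (fun w => -wZ w) (shiftZ z u)) z := hW.const_smul (scal ν)⁻¹
  rw [hX.fderiv]
  have hi := integrableOn_dWeight hν hν1 hz
  set L := (pairing (partE k)).comp (ContinuousLinearMap.apply ℝ (Matrix n n ℂ) k)
  show 0 < L ((scal ν)⁻¹ • ∫ u in Ioi (0 : ℝ), u ^ (ν - 1 / 2) • fderiv ℝ (fun w => -wZ w) (shiftZ z u))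
  rw [map_smul, smul_eq_mul, ← L.integral_comp_comm hi]
  refine mul_pos (inv_pos.2 (scal_pos hν hν1)) ?_
  have e : ∀ u, L (u ^ (ν - 1 / 2) • fderiv ℝ (fun w => -wZ w) (shiftZ z u)) =
      u ^ (ν - 1 / 2) * -(partE k * fderiv ℝ wZ (shiftZ z u) k).trace.re := fun u => by
    rw [map_smul, smul_eq_mul]
    congr 1
    show ((fderiv ℝ (fun w => -wZ w) (shiftZ z u) k) * partE k).trace.re = _
    rw [fderiv_fun_neg, _root_.neg_apply, Matrix.neg_mul, Matrix.trace_neg, Complex.neg_re, Matrix.trace_mul_comm]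
  have hint : IntegrableOn (fun u => L (u ^ (ν - 1 / 2) • fderiv ℝ (fun w => -wZ w) (shiftZ z u))) (Ioi 0) :=
    L.integrable_comp hi
  have hpos : ∀ u ∈ Ioi (0 : ℝ), 0 < L (u ^ (ν - 1 / 2) • fderiv ℝ (fun w => -wZ w) (shiftZ z u)) := fun u hu => by
    rw [e]
    obtain ⟨h1, h2⟩ := trace_mul_fderiv_wZ (shiftZ_mem hz (le_of_lt hu)) hk
    exact mul_pos (Real.rpow_pos_of_pos hu _) (h1.lt_of_ne fun h => hk0 (h2 (by linarith)))
  rw [setIntegral_pos_iff_support_of_nonneg_ae
    ((ae_restrict_mem measurableSet_Ioi).mono fun u hu => (hpos u hu).le) hint]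
  exact lt_of_lt_of_le (b := volume (Ioi (0 : ℝ))) (by simp) (measure_mono fun u hu => ⟨(hpos u hu).ne', hu⟩)

/-- The chart is a local diffeomorphism. -/
theorem exists_chart_deriv (hν : 1 / 2 < ν) (hν1 : ν < 1) (hz : z ∈ domZ) :
    ∃ f' : Matrix n n ℂ ≃L[ℝ] Matrix n n ℂ,
      HasStrictFDerivAt (chartMap ν) (f' : Matrix n n ℂ →L[ℝ] Matrix n n ℂ) z := by
  have hν0 : 0 < ν := by linarith
  have hX := ((contDiffOn_XiZ_GeZ hν0 hν1).1.contDiffAt (isOpen_domZ.mem_nhds hz)).hasStrictFDerivAt one_ne_zero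
  have hD : HasStrictFDerivAt (chartMap ν) ((2 : ℂ) • partBL + (I : ℂ) • fderiv ℝ (XiZ ν) z) z :=
    (((partBL (n := n)).hasStrictFDerivAt (x := z)).const_smul (2 : ℂ)).add (hX.const_smul (I : ℂ))
  set D : Matrix n n ℂ →L[ℝ] Matrix n n ℂ := (2 : ℂ) • partBL + (I : ℂ) • fderiv ℝ (XiZ ν) z
  have hinj : Function.Injective D := by
    refine (injective_iff_map_eq_zero _).2 fun j hj => ?_
    set S := (starL' ℝ : Matrix n n ℂ ≃L[ℝ] Matrix n n ℂ).toContinuousLinearMap
    have hS : (fderiv ℝ (XiZ ν) z j).IsHermitian := by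
      have h1 : HasFDerivAt (XiZ ν) (fderiv ℝ (XiZ ν) z) z := hX.hasFDerivAt
      have h2 : HasFDerivAt (XiZ ν) (S.comp (fderiv ℝ (XiZ ν) z)) z := by
        refine (S.hasFDerivAt.comp z h1).congr_of_eventuallyEq ?_
        filter_upwards [isOpen_domZ.mem_nhds hz] with w hw using
          (isHermitian_XiZ hν hν1 (domZ_subset_domZP hw).1).eq.symm
      exact (DFunLike.congr_fun (h1.unique h2) j).symm
    obtain ⟨h1, h2⟩ := herm_add_I_smul_eq (X := (2 : ℂ) • partB j) (Y := fderiv ℝ (XiZ ν) z j)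
      (by show _ = _; rw [conjTranspose_smul, (isHermitian_parts j).1.eq]; simp) hS hj
    have hb : partB j = 0 := (smul_eq_zero.1 h1).resolve_left two_ne_zero
    have he : partE j = 0 := by
      by_contra h
      have h3 := pairing_fderiv_XiZ_pos hν0 hν1 hz hb h
      rw [h2, map_zero] at h3
      exact lt_irrefl 0 h3
    rw [← parts_spec j, hb, he, smul_zero, smul_zero, add_zero]
  have hsur : Function.Surjective (D : Matrix n n ℂ →ₗ[ℝ] Matrix n n ℂ) :=
    LinearMap.injective_iff_surjective.1 hinj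
  exact ⟨ContinuousLinearEquiv.ofBijective D (LinearMap.ker_eq_bot.2 hinj) (LinearMap.range_eq_top.2 hsur), hD⟩

lemma domC_combo {B B' E E' : Matrix n n ℂ} (h : Dom B E) (h' : Dom B' E') {θ : ℝ} (h0 : 0 ≤ θ) (h1 : θ ≤ 1) :
    Dom (θ • B + (1 - θ) • B') (θ • E + (1 - θ) • E') := by
  refine ⟨((IsSelfAdjoint.all θ).smul h.hermB).add ((IsSelfAdjoint.all (1 - θ)).smul h'.hermB),
    ((IsSelfAdjoint.all θ).smul h.hermE).add ((IsSelfAdjoint.all (1 - θ)).smul h'.hermE), fun t => ?_⟩
  rw [pencil_combo]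
  rcases h0.eq_or_lt with rfl | h0
  · simpa using h'.pos t
  · exact ((h.pos t).smul h0).add_posSemidef ((h'.pos t).posSemidef.smul (sub_nonneg.2 h1))

/-- For a fixed linear coefficient the weight determines the constant one. -/
theorem chartMap_injOn (hν : 1 / 2 < ν) (hν1 : ν < 1) : InjOn (chartMap ν) (domZ : Set (Matrix n n ℂ)) := by
  intro z hz w hw e
  obtain ⟨a1, a2⟩ := chartMap_parts hν hν1 (domZ_subset_domZP hz).1
  obtain ⟨b1, b2⟩ := chartMap_parts hν hν1 (domZ_subset_domZP hw).1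
  rw [e, b1] at a1
  rw [e, b2] at a2
  set d := z - w with hd
  have hdB : partB d = 0 := by rw [← partBL_apply, map_sub, partBL_apply, partBL_apply, a1, sub_self]
  by_contra hne
  have hdE : partE d ≠ 0 := fun h => hne (sub_eq_zero.1 (by
    rw [← hd, ← parts_spec d, hdB, h, smul_zero, smul_zero, add_zero]))
  set g : ℝ → ℝ := fun s => pairing (partE d) (XiZ ν (w + s • d))
  have hmem : ∀ s ∈ Icc (0 : ℝ) 1, w + s • d ∈ domZ := fun s hs => by
    have e1 : w + s • d = s • z + (1 - s) • w := by rw [hd, smul_sub, sub_smul, one_smul]; abel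
    show Dom (partB (w + s • d)) (partE (w + s • d))
    rw [e1, ← partBL_apply, ← partEL_apply, map_add, map_add, map_smul, map_smul, map_smul, map_smul]
    exact domC_combo hz hw hs.1 hs.2
  have hder : ∀ s ∈ Icc (0 : ℝ) 1, HasDerivAt g (pairing (partE d) (fderiv ℝ (XiZ ν) (w + s • d) d)) s := fun s hs => by
    have h1 : HasDerivAt (fun s : ℝ => w + s • d) d s := by
      simpa using ((hasDerivAt_id s).smul_const d).const_add w
    have h2 := (((contDiffOn_XiZ_GeZ (by linarith : 0 < ν) hν1).1.contDiffAt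
      (isOpen_domZ.mem_nhds (hmem s hs))).differentiableAt one_ne_zero).hasFDerivAt
    exact (pairing (partE d)).hasFDerivAt.comp_hasDerivAt s (HasFDerivAt.comp_hasDerivAt (l := XiZ ν) (f := fun s : ℝ => w + s • d) s h2 h1)
  have hm := strictMonoOn_of_hasDerivWithinAt_pos (convex_Icc (0 : ℝ) 1)
    (fun s hs => (hder s hs).continuousAt.continuousWithinAt)
    (fun s hs => (hder s (interior_subset hs)).hasDerivWithinAt)
    fun s hs => pairing_fderiv_XiZ_pos (by linarith) hν1 (hmem s (interior_subset hs)) hdB hdE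
  have h := hm (left_mem_Icc.2 zero_le_one) (right_mem_Icc.2 zero_le_one) one_pos
  simp only [g, zero_smul, add_zero, one_smul, hd, add_sub_cancel] at h
  rw [a2] at h
  exact lt_irrefl _ h

/-- At a degenerate pencil the weight is not positive. -/
lemma not_posDef_Xi {B E : Matrix n n ℂ} (hν : 1 / 2 < ν) (hν1 : ν < 1) (h : DomC B E) {t₀ : ℝ}
    (ht : ¬(pencil B E t₀).PosDef) : ¬(Xi ν B E).PosDef := by
  intro hX
  obtain ⟨v, hv0, hv⟩ : ∃ v, v ≠ 0 ∧ qf (pencil B E t₀) v = 0 := by
    by_contra hne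
    push Not at hne
    refine ht (Matrix.PosDef.of_dotProduct_mulVec_pos (h.nonneg t₀).1 fun v hv => ?_)
    have h1 := (h.nonneg t₀).dotProduct_mulVec_nonneg v
    obtain ⟨h2, h3⟩ := Complex.nonneg_iff.1 h1
    exact Complex.pos_iff.2 ⟨h2.lt_of_ne (Ne.symm (hne v hv)), h3⟩
  set L := sqLen v
  have hL : 0 < L := (Complex.pos_iff.1 (dotProduct_star_self_pos_iff.2 hv0)).1
  set b := qf B v / L with hb
  have hp : ∀ t : ℝ, qf (pencil B E t) v = (t - b) ^ 2 * L + (qf E v - b ^ 2 * L) := fun t => by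
    have e : pencil B E t = ((t ^ 2 : ℝ) : ℂ) • 1 + (-(2 * t)) • B + E := by
      rw [pencil, ← Complex.coe_smul (-(2 * t))]
      push_cast
      module
    rw [e, qf_add, qf_add, qf_ofReal_one, qf_smul, show qf B v = b * L by rw [hb, div_mul_cancel₀ _ hL.ne']]
    ring
  have hm : qf E v - b ^ 2 * L = 0 := by
    have h1 := qf_nonneg (h.nonneg b) v
    rw [hp, sub_self, zero_pow two_ne_zero, zero_mul, zero_add] at h1
    rw [hp] at hv
    nlinarith [mul_nonneg (sq_nonneg (t₀ - b)) hL.le]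
  have hW : ∀ u, 0 < u → L / Real.sqrt u ≤ qf (wgt B E u) v := fun u hu => by
    have hd := h.shift hu
    have hq : 0 < Real.sqrt u := Real.sqrt_pos.2 hu
    have hlow : ∀ x : ℝ, L * ((x - b) ^ 2 + u)⁻¹ ≤ qf (pencil B (shiftE E u) x)⁻¹ v := fun x => by
      have hpos : 0 < (x - b) ^ 2 + u := by positivity
      set c := ((x - b) ^ 2 + u)⁻¹
      have e : pencil B (shiftE E u) x = pencil B E x + (u : ℂ) • 1 := by rw [pencil, pencil, shiftE, add_assoc]
      have h1 := two_re_sub_qf_le (hd.pos x) v ((c : ℂ) • v)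
      have e1 : (star ((c : ℂ) • v) ⬝ᵥ v).re = c * L := by simp [L, sqLen]
      have e2 : qf (pencil B (shiftE E u) x) ((c : ℂ) • v) = c * c * qf (pencil B (shiftE E u) x) v := by
        simp [qf, Matrix.mulVec_smul, dotProduct_smul, smul_dotProduct]
        ring
      rw [e1, e2, e, qf_add, qf_ofReal_one, hp, hm, add_zero] at h1
      rw [e]
      have hcd : c * ((x - b) ^ 2 + u) = 1 := inv_mul_cancel₀ hpos.ne'
      calc L * c = 2 * (c * L) - c * c * ((x - b) ^ 2 * L + u * L) := by linear_combination (c * L) * hcd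
        _ ≤ _ := h1
    have hlim : Tendsto (fun T : ℝ => ∫ x in -T..T, L * ((x - b) ^ 2 + u)⁻¹) atTop
        (𝓝 (Real.pi * (L / Real.sqrt u))) := by
      have hd' : ∀ x : ℝ, HasDerivAt (fun x => L / Real.sqrt u * Real.arctan ((x - b) / Real.sqrt u))
          (L * ((x - b) ^ 2 + u)⁻¹) x := fun x => by
        refine ((((hasDerivAt_id x).sub_const b).div_const (Real.sqrt u)).arctan.const_mul _).congr_deriv ?_
        have hpos : 0 < (x - b) ^ 2 + u := by positivity
        rw [id_eq, div_pow, Real.sq_sqrt hu.le]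
        field_simp
        linear_combination -((x - b) ^ 2 + u) * Real.sq_sqrt hu.le
      have e : ∀ T : ℝ, ∫ x in -T..T, L * ((x - b) ^ 2 + u)⁻¹ =
          L / Real.sqrt u * Real.arctan ((T - b) / Real.sqrt u) -
            L / Real.sqrt u * Real.arctan ((-T - b) / Real.sqrt u) := fun T =>
        intervalIntegral.integral_eq_sub_of_hasDerivAt (fun x _ => hd' x)
          ((continuous_const.mul ((by fun_prop : Continuous fun x : ℝ => (x - b) ^ 2 + u).inv₀
            fun x => (by positivity : (0 : ℝ) < (x - b) ^ 2 + u).ne')).intervalIntegrable _ _)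
      simp only [e]
      have t1 : Tendsto (fun T : ℝ => (T - b) / Real.sqrt u) atTop atTop :=
        (tendsto_atTop_add_const_right _ (-b) tendsto_id).atTop_div_const hq
      have t2 : Tendsto (fun T : ℝ => (-T - b) / Real.sqrt u) atTop atBot :=
        (tendsto_atBot_add_const_right _ (-b) tendsto_neg_atTop_atBot).atBot_div_const hq
      have := (((Real.tendsto_arctan_atTop.mono_right nhdsWithin_le_nhds).comp t1).const_mul (L / Real.sqrt u)).sub
        (((Real.tendsto_arctan_atBot.mono_right nhdsWithin_le_nhds).comp t2).const_mul (L / Real.sqrt u))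
      rw [show Real.pi * (L / Real.sqrt u) = L / Real.sqrt u * (Real.pi / 2) - L / Real.sqrt u * (-(Real.pi / 2)) by
        ring]
      exact this
    refine le_of_mul_le_mul_left ?_ Real.pi_pos
    refine le_of_tendsto_of_tendsto hlim (tendsto_qf_inv_pencil hd v) ?_
    filter_upwards [eventually_ge_atTop 0] with T hT
    exact intervalIntegral.integral_mono_on (by linarith)
      ((continuous_const.mul ((by fun_prop : Continuous fun x : ℝ => (x - b) ^ 2 + u).inv₀
        fun x => (by positivity : (0 : ℝ) < (x - b) ^ 2 + u).ne')).intervalIntegrable _ _)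
      ((continuous_qf_inv_pencil hd v).intervalIntegrable _ _) fun x _ => hlow x
  have h1 : qf (Xi ν B E) v ≤ 0 := by
    rw [(qf_Xi hν hν1 h v).2]
    refine mul_nonpos_of_nonneg_of_nonpos (inv_pos.2 (scal_pos (by linarith) hν1)).le
      (setIntegral_nonpos measurableSet_Ioi fun u hu => ?_)
    exact mul_nonpos_of_nonneg_of_nonpos (Real.rpow_nonneg (le_of_lt hu) _) (by linarith [hW u hu])
  exact absurd (Complex.pos_iff.1 (hX.dotProduct_mulVec_pos hv0)).1 (not_lt.2 h1)

/-- Homogeneity of the weight. -/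
lemma XiZ_scaleL (hz : z ∈ domZC) {s : ℝ} (hs : 0 < s) :
    scaleL s z ∈ domZC ∧ XiZ ν (scaleL s z) = s ^ (2 * ν) • XiZ ν z := by
  have hmem : scaleL s z ∈ domZC := by
    show DomC (partB (scaleL s z)) (partE (scaleL s z))
    rw [(parts_scaleL s z).1, (parts_scaleL s z).2]
    refine ⟨?_, ?_, fun t => ?_⟩
    · show _ = _
      rw [conjTranspose_smul, (isHermitian_parts z).1.eq, Complex.star_def, Complex.conj_ofReal]
    · show _ = _
      rw [conjTranspose_smul, (isHermitian_parts z).2.eq, Complex.star_def, map_mul, Complex.conj_ofReal]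
    · have e : pencil ((s : ℂ) • partB z) (((s : ℂ) * s) • partE z) t =
          ((s * s : ℝ) : ℂ) • pencil (partB z) (partE z) (t / s) := by
        have hs' : (s : ℂ) ≠ 0 := by exact_mod_cast hs.ne'
        rw [pencil, pencil, smul_add, smul_sub, smul_smul, smul_smul, smul_smul]
        push_cast
        congr 2 <;> congr 1 <;> field_simp
      rw [e]
      exact (DomC.nonneg hz _).smul (Complex.zero_le_real.2 (mul_self_nonneg s))
  refine ⟨hmem, ?_⟩
  set g : ℝ → Matrix n n ℂ := fun u =>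
    u ^ (ν - 1 / 2) • ((Real.sqrt u)⁻¹ • (1 : Matrix n n ℂ) + -wZ (shiftZ (scaleL s z) u))
  have e : EqOn (fun v => g (s * s * v)) (fun v => (s ^ (2 * ν) * (s * s)⁻¹) •
      (v ^ (ν - 1 / 2) • ((Real.sqrt v)⁻¹ • (1 : Matrix n n ℂ) + -wZ (shiftZ z v)))) (Ioi 0) := fun v hv => by
    have hv0 : (0 : ℝ) < v := hv
    have e1 : shiftZ (scaleL s z) (s * s * v) = scaleL s (shiftZ z v) := by
      rw [shiftZ, shiftZ, map_add, map_smul, scaleL_base, smul_smul, mul_comm v]
    have e2 := (scale_spec (shiftZ_mem' hz hv0) hs).2.2.1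
    rw [← e1] at e2
    simp only [g]
    rw [e2, Complex.coe_smul, Real.sqrt_mul (mul_self_nonneg s), Real.sqrt_mul_self hs.le, mul_inv, ← smul_smul,
      ← smul_neg, ← smul_add, smul_smul, smul_smul, Real.mul_rpow (mul_self_nonneg s) hv0.le]
    congr 1
    rw [Real.mul_rpow hs.le hs.le, ← Real.rpow_add hs, ← Real.rpow_neg_one s, ← Real.rpow_neg_one (s * s),
      Real.mul_rpow hs.le hs.le, ← Real.rpow_add hs, ← Real.rpow_add hs, mul_right_comm, ← Real.rpow_add hs]
    ring_nf
  have h2 := integral_comp_mul_left_Ioi g 0 (mul_pos hs hs)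
  rw [mul_zero, setIntegral_congr_fun measurableSet_Ioi e, integral_smul, eq_inv_smul_iff₀ (mul_pos hs hs).ne',
    smul_smul, mul_left_comm, mul_inv_cancel₀ (mul_pos hs hs).ne', mul_one] at h2
  show (scal ν)⁻¹ • (∫ u in Ioi (0 : ℝ), g u) = _
  rw [← h2]
  exact smul_comm _ _ _

lemma continuous_pencilZ (t : ℝ) :
    Continuous fun z : Matrix n n ℂ => pencil (partB z) (partE z) t := by
  have h1 : Continuous fun z : Matrix n n ℂ => partB z := (partBL (n := n)).continuous
  have h2 : Continuous fun z : Matrix n n ℂ => partE z := (partEL (n := n)).continuous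
  have h3 : Continuous fun z : Matrix n n ℂ => (2 * (t : ℂ)) • partB z := h1.const_smul (2 * (t : ℂ))
  exact (continuous_const.sub h3).add h2

lemma isClosed_domZC : IsClosed (domZC : Set (Matrix n n ℂ)) := by
  refine IsSeqClosed.isClosed fun x z hx hlim => ⟨(isHermitian_parts z).1, (isHermitian_parts z).2, fun t => ?_⟩
  exact posSemidef_of_tendsto (fun k => (hx k).nonneg t) (((continuous_pencilZ t).tendsto z).comp hlim)

lemma XiZ_base (hν : 1 / 2 < ν) (hν1 : ν < 1) : XiZ ν (base (n := n)) = 1 := by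
  obtain ⟨h1, h2⟩ := parts_eq (B := (0 : Matrix n n ℂ)) (E := 1) (by simp [Matrix.IsHermitian])
    Matrix.isHermitian_one
  simp only [smul_zero, zero_add] at h1 h2
  have h := Xi_conj_dg hν hν1 (U := (1 : Matrix n n ℂ)) (by simp) (fun _ => 0) (fun _ => 1) fun _ => by norm_num
  rw [XiZ_eq, show base = I • (1 : Matrix n n ℂ) from rfl, h1, h2]
  simpa [dg, Real.one_rpow] using h

/-- Codes with convergent linear coefficient and weight have a bounded subsequence. -/
lemma bounded_of_chart (hν : 1 / 2 < ν) (hν1 : ν < 1) {zs : ℕ → Matrix n n ℂ} {y : Matrix n n ℂ}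
    (hzC : ∀ k, zs k ∈ domZC) (hB : Tendsto (fun k => partB (zs k)) atTop (𝓝 (partB y)))
    (hX : Tendsto (fun k => XiZ ν (zs k)) atTop (𝓝 (partE y))) :
    ∃ R : ℝ, ∃ᶠ k in atTop, ‖zs k‖ ≤ R := by
  have : ProperSpace (Matrix n n ℂ) := FiniteDimensional.proper ℂ _
  have hν0 : 0 < ν := by linarith
  by_contra hcon
  push Not at hcon
  have hr : Tendsto (fun k => ‖zs k‖) atTop atTop :=
    tendsto_atTop.2 fun R => ((hcon R) : ∀ᶠ k in atTop, R < ‖zs k‖).mono fun k => le_of_lt
  set s : ℕ → ℝ := fun k => (Real.sqrt ‖zs k‖)⁻¹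
  have hs0 : Tendsto s atTop (𝓝 0) := tendsto_inv_sqrt_atTop.comp hr
  have hb : Tendsto (fun k => s k • codeB (zs k)) atTop (𝓝 0) := by
    have := hs0.smul (hB.const_smul (2 : ℂ))
    rw [zero_smul] at this
    exact this
  have he : Tendsto (fun k => ‖(s k * s k) • codeE (zs k)‖) atTop (𝓝 1) := by
    have h1 : Tendsto (fun k => (s k * s k) • codeB (zs k)) atTop (𝓝 0) := by
      have := hs0.smul hb
      simp only [smul_smul, smul_zero] at this
      exact this
    have h2 : ∀ᶠ k in atTop, ‖(s k * s k) • codeE (zs k) + (s k * s k) • codeB (zs k)‖ = 1 := by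
      filter_upwards [hr.eventually_gt_atTop 0] with k hk
      rw [← smul_add, show codeE (zs k) + codeB (zs k) = zs k from (add_comm _ _).trans (parts_spec _), norm_smul,
        Real.norm_of_nonneg (mul_self_nonneg _), ← mul_inv, Real.mul_self_sqrt hk.le, inv_mul_cancel₀ hk.ne']
    refine tendsto_of_tendsto_of_tendsto_of_le_of_le'
      (g := fun k => 1 - ‖(s k * s k) • codeB (zs k)‖) (h := fun k => 1 + ‖(s k * s k) • codeB (zs k)‖) ?_ ?_ ?_ ?_
    · simpa using h1.norm.const_sub 1
    · simpa using h1.norm.const_add 1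
    · filter_upwards [h2] with k hk
      rw [← hk]
      linarith [norm_add_le ((s k * s k) • codeE (zs k)) ((s k * s k) • codeB (zs k))]
    · filter_upwards [h2] with k hk
      rw [← hk]
      linarith [norm_le_add_norm_add ((s k * s k) • codeE (zs k)) ((s k * s k) • codeB (zs k))]
  obtain ⟨R', hR'⟩ : ∃ R', ∀ᶠ k in atTop, scaleL (s k) (zs k) ∈ Metric.closedBall (0 : Matrix n n ℂ) R' := by
    refine ⟨2, ?_⟩
    have h1 := hb.norm.add he
    rw [norm_zero, zero_add] at h1
    filter_upwards [h1.eventually (ge_mem_nhds (show (1 : ℝ) < 2 by norm_num))] with k hk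
    rw [mem_closedBall_zero_iff]
    exact (norm_add_le (s k • codeB (zs k)) ((s k * s k) • codeE (zs k))).trans hk
  obtain ⟨a, -, φ, hφ, hconv⟩ := (isCompact_closedBall (0 : Matrix n n ℂ) R').tendsto_subseq' hR'.frequently
  have hpos : ∀ᶠ k in atTop, 0 < s k := (hr.eventually_gt_atTop 0).mono fun k hk => inv_pos.2 (Real.sqrt_pos.2 hk)
  have hposφ := hφ.tendsto_atTop.eventually hpos
  have ha : a ∈ domZC := isClosed_domZC.mem_of_tendsto hconv (hposφ.mono fun k hk => (XiZ_scaleL (ν := ν) (hzC _) hk).1)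
  have haB : partB a = 0 := by
    refine tendsto_nhds_unique (((partBL (n := n)).continuous.tendsto a).comp hconv) ?_
    have := (hs0.smul hB).comp hφ.tendsto_atTop
    rw [zero_smul] at this
    refine this.congr fun k => ?_
    show s (φ k) • partB (zs (φ k)) = partB (scaleL _ _)
    rw [(parts_scaleL _ _).1, Complex.coe_smul]
  have haX : XiZ ν a = 0 := by
    refine tendsto_nhds_unique ((continuousOn_XiZ hν hν1 a ha).tendsto.comp (tendsto_nhdsWithin_iff.2
      ⟨hconv, hposφ.mono fun k hk => (XiZ_scaleL (ν := ν) (hzC _) hk).1⟩)) ?_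
    have h1 := (((Real.continuousAt_rpow_const 0 (2 * ν) (Or.inr (by linarith))).tendsto.comp hs0).smul hX).comp
      hφ.tendsto_atTop
    rw [Real.zero_rpow (by linarith), zero_smul] at h1
    exact h1.congr' (hposφ.mono fun k hk => (XiZ_scaleL (ν := ν) (hzC (φ k)) hk).2.symm)
  have hE : (partE a).PosSemidef := by
    have := DomC.nonneg ha 0
    simpa [pencil] using this
  set U : Matrix n n ℂ := (hE.1.eigenvectorUnitary : Matrix n n ℂ)
  set e := hE.1.eigenvalues
  have hU : U * Uᴴ = 1 := Unitary.coe_mul_star_self _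
  have eE : partE a = U * dg e * Uᴴ := by
    conv_lhs => rw [hE.1.spectral_theorem]
    rfl
  have h2 := Xi_conj_dg hν hν1 hU (fun _ => 0) e fun i => by simpa using hE.eigenvalues_nonneg i
  rw [← eE, show U * dg (fun _ : n => (0 : ℝ)) * Uᴴ = 0 by simp [dg], ← haB, ← XiZ_eq, haX] at h2
  have h3 : dg (fun i => (e i - 0 ^ 2) ^ ν) = 0 := by
    have := congrArg (fun X => Uᴴ * X * U) h2
    simp only [mul_zero, zero_mul, ← Matrix.mul_assoc, mul_eq_one_comm.1 hU, one_mul] at this
    rw [Matrix.mul_assoc, mul_eq_one_comm.1 hU, mul_one] at this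
    exact this.symm
  have he0 : e = 0 := funext fun i => by
    have h4 := congrFun (congrFun h3 i) i
    simp only [dg, diagonal_apply_eq, Matrix.zero_apply, Complex.ofReal_eq_zero, zero_pow two_ne_zero,
      sub_zero] at h4
    exact ((Real.rpow_eq_zero (hE.eigenvalues_nonneg i) hν0.ne').1 h4)
  have hEa : partE a = 0 := by rw [eE, he0]; simp [dg]
  have ha0 : a = 0 := by rw [← parts_spec a, haB, hEa, smul_zero, smul_zero, add_zero]
  have hn : Tendsto (fun k => ‖scaleL (s k) (zs k)‖) atTop (𝓝 1) := by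
    refine tendsto_of_tendsto_of_tendsto_of_le_of_le
      (g := fun k => ‖(s k * s k) • codeE (zs k)‖ - ‖s k • codeB (zs k)‖)
      (h := fun k => ‖(s k * s k) • codeE (zs k)‖ + ‖s k • codeB (zs k)‖) ?_ ?_ ?_ ?_
    · simpa using he.sub hb.norm
    · simpa using he.add hb.norm
    · intro k
      have := norm_le_add_norm_add ((s k * s k) • codeE (zs k)) (s k • codeB (zs k))
      show _ ≤ ‖s k • codeB (zs k) + (s k * s k) • codeE (zs k)‖
      rw [add_comm (s k • codeB (zs k))]
      linarith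
    · intro k
      show ‖s k • codeB (zs k) + (s k * s k) • codeE (zs k)‖ ≤ _
      linarith [norm_add_le (s k • codeB (zs k)) ((s k * s k) • codeE (zs k))]
  have := tendsto_nhds_unique hconv.norm (hn.comp hφ.tendsto_atTop)
  rw [ha0, norm_zero] at this
  norm_num at this

/-- Every target with a positive weight is reached. -/
theorem exists_chart (hν : 1 / 2 < ν) (hν1 : ν < 1) {w : Matrix n n ℂ} (hw : (partE w).PosDef) :
    ∃ z ∈ domZ, chartMap ν z = w := by
  have : ProperSpace (Matrix n n ℂ) := FiniteDimensional.proper ℂ _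
  have hν0 : 0 < ν := by linarith
  set T : Set (Matrix n n ℂ) := {w | (partE w).PosDef}
  set S : Set (Matrix n n ℂ) := chartMap ν '' domZ
  have hS : IsOpen S := isOpen_iff_mem_nhds.2 fun y hy => by
    obtain ⟨z, hz, rfl⟩ := hy
    obtain ⟨f', hf⟩ := exists_chart_deriv hν hν1 hz
    rw [← hf.map_nhds_eq_of_equiv]
    exact image_mem_map (isOpen_domZ.mem_nhds hz)
  have hT : IsPreconnected T := by
    refine Convex.isPreconnected fun x hx y hy a b ha hb hab => ?_
    show (partE (a • x + b • y)).PosDef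
    rw [← partEL_apply, map_add, map_smul, map_smul]
    rcases ha.eq_or_lt with rfl | ha
    · rw [zero_add] at hab
      subst hab
      simpa [T, partEL_apply] using hy
    · exact (Matrix.PosDef.smul hx ha).add_posSemidef ((Matrix.PosDef.posSemidef hy).smul hb)
  have hne : (T ∩ S).Nonempty := by
    refine ⟨chartMap ν base, ?_, base, base_mem, rfl⟩
    show (partE _).PosDef
    rw [(chartMap_parts hν hν1 (domZ_subset_domZP base_mem).1).2, XiZ_base hν hν1]
    exact Matrix.PosDef.one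
  refine (hT.subset_of_closure_inter_subset hS hne ?_ : T ⊆ S) hw
  rintro y ⟨hy, hyT⟩
  obtain ⟨ys, hys, hlim⟩ := mem_closure_iff_seq_limit.1 hy
  choose zs hzs hze using hys
  have hzC : ∀ k, zs k ∈ domZC := fun k => (domZ_subset_domZP (hzs k)).1
  have hB : Tendsto (fun k => partB (zs k)) atTop (𝓝 (partB y)) := by
    refine (((partBL (n := n)).continuous.tendsto y).comp hlim).congr fun k => ?_
    show partB (ys k) = _
    rw [← hze k]
    exact (chartMap_parts hν hν1 (hzC k)).1
  have hX : Tendsto (fun k => XiZ ν (zs k)) atTop (𝓝 (partE y)) := by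
    refine (((partEL (n := n)).continuous.tendsto y).comp hlim).congr fun k => ?_
    show partE (ys k) = _
    rw [← hze k]
    exact (chartMap_parts hν hν1 (hzC k)).2
  have hbdd := bounded_of_chart hν hν1 hzC hB hX
  obtain ⟨R, hR⟩ := hbdd
  obtain ⟨a, -, φ, hφ, hconv⟩ := (isCompact_closedBall (0 : Matrix n n ℂ) R).tendsto_subseq'
    (hR.mono fun k hk => mem_closedBall_zero_iff.2 hk)
  have ha : a ∈ domZC := isClosed_domZC.mem_of_tendsto hconv (Eventually.of_forall fun k => hzC _)
  have haX : XiZ ν a = partE y := tendsto_nhds_unique ((continuousOn_XiZ hν hν1 a ha).tendsto.comp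
    (tendsto_nhdsWithin_iff.2 ⟨hconv, Eventually.of_forall fun k => hzC _⟩)) (hX.comp hφ.tendsto_atTop)
  have haB : partB a = partB y :=
    tendsto_nhds_unique (((partBL (n := n)).continuous.tendsto a).comp hconv) (hB.comp hφ.tendsto_atTop)
  have hadom : a ∈ domZ := ⟨(isHermitian_parts a).1, (isHermitian_parts a).2, fun t => by
    by_contra h
    exact not_posDef_Xi hν hν1 ha h (by rw [← XiZ_eq, haX]; exact hyT)⟩
  refine ⟨a, hadom, ?_⟩
  rw [chartMap, haX, haB, parts_spec]

end Vale.Agent.P371.Pencil
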