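import Vale.Agent.P371.Pencil.Root

/-!
P371, pencils: the Lyapunov solution is the average over the line of the inverse pencil.
-/

namespace Vale.Agent.P371.Pencil

open Matrix Complex Filter Set MeasureTheory
open scoped ComplexOrder Matrix.Norms.L2Operator Topology Interval

variable {n : Type} [Fintype n] [DecidableEq n] {A B E : Matrix n n ℂ}

/-- The resolvent. -/
noncomputable def res (A : Matrix n n ℂ) (z : ℂ) : Matrix n n ℂ := (z • (1 : Matrix n n ℂ) - A)⁻¹

lemma norm_one_matrix_le : ‖(1 : Matrix n n ℂ)‖ ≤ 1 := by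
  rw [← diagonal_one, Matrix.l2_opNorm_diagonal]
  exact (pi_norm_le_iff_of_nonneg zero_le_one).2 fun i => by simp

lemma isUnit_of_mul_injective {M : Matrix n n ℂ} (h : ∀ X : Matrix n n ℂ, X * M = 0 → X = 0) : IsUnit M := by
  have hs : Function.Surjective (LinearMap.mulRight ℂ M) :=
    LinearMap.injective_iff_surjective.1 ((injective_iff_map_eq_zero _).2 fun X hX => h X hX)
  obtain ⟨X, hX⟩ := hs 1
  exact (Matrix.isUnit_iff_isUnit_det M).2 (Matrix.isUnit_det_of_left_inverse (B := X) hX)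

lemma Stable.isUnit_sub (h : Stable A) {z : ℂ} (hz : z.im ≤ 0) : IsUnit (z • (1 : Matrix n n ℂ) - A) := by
  obtain ⟨W, hW, e⟩ := h
  refine isUnit_of_mul_injective fun X hX => ?_
  rw [Matrix.mul_sub, Matrix.mul_smul, mul_one, sub_eq_zero] at hX
  have h1 : X * lyap A W * Xᴴ = (z - star z) • (X * W * Xᴴ) := by
    have hX' : Aᴴ * Xᴴ = star z • Xᴴ := by rw [← conjTranspose_mul, ← hX, conjTranspose_smul]
    rw [lyap, Matrix.mul_sub, Matrix.sub_mul, ← Matrix.mul_assoc X A W, ← hX, Matrix.smul_mul, Matrix.smul_mul,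
      ← Matrix.mul_assoc X W Aᴴ, Matrix.mul_assoc (X * W) Aᴴ, hX', Matrix.mul_smul, sub_smul]
  rw [e, Matrix.mul_smul, mul_one, Matrix.smul_mul, Complex.star_def, Complex.sub_conj] at h1
  have h2 := congrArg (fun M => (Matrix.trace M).im) h1
  have p1 : 0 ≤ (X * Xᴴ).trace := (Matrix.posSemidef_self_mul_conjTranspose X).trace_nonneg
  have p2 : 0 ≤ (X * W * Xᴴ).trace := (hW.posSemidef.mul_mul_conjTranspose_same X).trace_nonneg
  obtain ⟨a1, b1⟩ := Complex.nonneg_iff.1 p1
  obtain ⟨a2, b2⟩ := Complex.nonneg_iff.1 p2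
  simp only [Matrix.trace_smul, smul_eq_mul, Complex.mul_im, Complex.ofReal_re, Complex.ofReal_im, Complex.I_re,
    Complex.I_im, Complex.mul_re, Complex.re_ofNat, Complex.im_ofNat, mul_zero, zero_mul, sub_zero, add_zero,
    zero_add, mul_one] at h2
  have h3 : (X * Xᴴ).trace.re = 0 := by nlinarith [mul_nonneg (neg_nonneg.2 hz) a2]
  exact Matrix.self_mul_conjTranspose_eq_zero.1 ((Matrix.posSemidef_self_mul_conjTranspose X).trace_eq_zero_iff.1
    (Complex.ext h3 b1.symm))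

lemma isUnit_sub_of_large {z : ℂ} (hz : ‖A‖ < ‖z‖) : IsUnit (z • (1 : Matrix n n ℂ) - A) := by
  refine isUnit_of_mul_injective fun X hX => ?_
  rw [Matrix.mul_sub, Matrix.mul_smul, mul_one, sub_eq_zero] at hX
  have h := congrArg norm hX
  rw [norm_smul] at h
  by_contra hne
  nlinarith [norm_mul_le X A, norm_pos_iff.2 hne]

lemma norm_res_le {z : ℂ} (hz : 2 * ‖A‖ ≤ ‖z‖) (h0 : z ≠ 0) : ‖res A z‖ ≤ 2 / ‖z‖ := by
  have hp : 0 < ‖z‖ := norm_pos_iff.2 h0
  have hd := (Matrix.isUnit_iff_isUnit_det _).1 (isUnit_sub_of_large (A := A) (z := z)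
    (by linarith [norm_nonneg A]))
  have e : z • res A z = 1 + A * res A z := by
    have := Matrix.mul_nonsing_inv _ hd
    rw [Matrix.sub_mul, Matrix.smul_mul, one_mul, sub_eq_iff_eq_add] at this
    exact this
  have h := congrArg norm e
  rw [norm_smul] at h
  rw [le_div_iff₀ hp]
  nlinarith [norm_add_le (1 : Matrix n n ℂ) (A * res A z), norm_mul_le A (res A z), norm_one_matrix_le (n := n),
    mul_le_mul_of_nonneg_right hz (norm_nonneg (res A z))]

lemma differentiableAt_inverse_ring {R : Type} [NormedRing R] [NormedAlgebra ℂ R] [HasSummableGeomSeries R]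
    {x : R} (h : IsUnit x) : DifferentiableAt ℂ Ring.inverse x := by
  obtain ⟨u, rfl⟩ := h
  exact (hasFDerivAt_ringInverse (𝕜 := ℂ) u).differentiableAt

lemma differentiableAt_res {z : ℂ} (h : IsUnit (z • (1 : Matrix n n ℂ) - A)) :
    DifferentiableAt ℂ (res A) z := by
  have e : res A = Ring.inverse ∘ fun w : ℂ => w • (1 : Matrix n n ℂ) - A :=
    funext fun w => Matrix.nonsing_inv_eq_ringInverse _
  rw [e]
  exact (differentiableAt_inverse_ring h).comp z ((differentiableAt_id.smul_const _).sub_const _)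

lemma continuous_res_ofReal (h : Stable A) : Continuous fun x : ℝ => res A x :=
  continuous_iff_continuousAt.2 fun x =>
    ((differentiableAt_res (h.isUnit_sub (z := (x : ℂ)) (by simp))).continuousAt.comp
      Complex.continuous_ofReal.continuousAt)

lemma norm_res_sub_le {A₁ A₂ : Matrix n n ℂ} {z : ℂ} (h1 : IsUnit (z • (1 : Matrix n n ℂ) - A₁))
    (h2 : IsUnit (z • (1 : Matrix n n ℂ) - A₂)) :
    ‖res A₁ z - res A₂ z‖ ≤ ‖res A₁ z‖ * ‖A₁ - A₂‖ * ‖res A₂ z‖ := by
  have e : res A₁ z - res A₂ z = res A₁ z * (A₁ - A₂) * res A₂ z := by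
    have e1 := Matrix.nonsing_inv_mul _ ((Matrix.isUnit_iff_isUnit_det _).1 h1)
    have e2 := Matrix.mul_nonsing_inv _ ((Matrix.isUnit_iff_isUnit_det _).1 h2)
    calc res A₁ z - res A₂ z
        = res A₁ z * ((z • 1 - A₂) * res A₂ z) - (res A₁ z * (z • 1 - A₁)) * res A₂ z := by
          rw [res, res, e1, e2, mul_one, one_mul]
      _ = _ := by
          rw [Matrix.mul_assoc, ← Matrix.mul_sub, ← Matrix.sub_mul, ← Matrix.mul_assoc]
          congr 2
          abel
  rw [e]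
  exact norm_mul₃_le.trans le_rfl

/-- Two stable resolvents have the same integral along the line. -/
lemma tendsto_integral_res_sub {A₁ A₂ : Matrix n n ℂ} (h1 : Stable A₁) (h2 : Stable A₂) :
    Tendsto (fun T => ∫ x : ℝ in -T..T, (res A₁ x - res A₂ x)) atTop (𝓝 0) := by
  set C := 4 * ‖A₁ - A₂‖
  refine squeeze_zero_norm' (a := fun T => 4 * C / T) ?_ ((tendsto_inv_atTop_zero.const_mul (4 * C)).congr'
    (Eventually.of_forall fun T => (div_eq_mul_inv _ _).symm) |>.trans (by rw [mul_zero]))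
  filter_upwards [eventually_gt_atTop 0, eventually_ge_atTop (2 * ‖A₁‖), eventually_ge_atTop (2 * ‖A₂‖)]
    with T hT hT1 hT2
  set f : ℂ → Matrix n n ℂ := fun z => res A₁ z - res A₂ z
  have hd : DifferentiableOn ℂ f
      ([[(⟨-T, -T⟩ : ℂ).re, (⟨T, 0⟩ : ℂ).re]] ×ℂ [[(⟨-T, -T⟩ : ℂ).im, (⟨T, 0⟩ : ℂ).im]]) := fun z hz => by
    have hi : z.im ≤ 0 := by
      have := hz.2
      rw [mem_preimage, uIcc_of_le (neg_nonpos.2 hT.le)] at this
      exact this.2
    exact ((differentiableAt_res (h1.isUnit_sub hi)).sub (differentiableAt_res (h2.isUnit_sub hi))).differentiableWithinAt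
  have hr := Complex.integral_boundary_rect_eq_zero_of_differentiableOn f ⟨-T, -T⟩ ⟨T, 0⟩ hd
  have hb : ∀ z : ℂ, T ≤ ‖z‖ → z.im ≤ 0 → ‖f z‖ ≤ C / T ^ 2 := fun z hz hi => by
    have hz0 : z ≠ 0 := fun h => by rw [h, norm_zero] at hz; linarith
    refine (norm_res_sub_le (h1.isUnit_sub hi) (h2.isUnit_sub hi)).trans ?_
    calc ‖res A₁ z‖ * ‖A₁ - A₂‖ * ‖res A₂ z‖ ≤ (2 / T) * ‖A₁ - A₂‖ * (2 / T) :=
          mul_le_mul (mul_le_mul_of_nonneg_right ((norm_res_le (hT1.trans hz) hz0).trans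
            (div_le_div_of_nonneg_left zero_le_two hT hz)) (norm_nonneg _))
            ((norm_res_le (hT2.trans hz) hz0).trans (div_le_div_of_nonneg_left zero_le_two hT hz))
            (norm_nonneg _) (mul_nonneg (div_nonneg zero_le_two hT.le) (norm_nonneg _))
      _ = _ := by simp only [C]; ring
  simp only [Complex.ofReal_zero, zero_mul, add_zero] at hr
  have i1 : ‖∫ x : ℝ in -T..T, f (x + ((-T : ℝ) : ℂ) * I)‖ ≤ C / T ^ 2 * |T - -T| :=
    intervalIntegral.norm_integral_le_of_norm_le_const fun x _ => hb _ (by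
      refine le_trans ?_ (Complex.abs_im_le_norm _)
      simp [abs_of_pos hT]) (by simp [hT.le])
  have i2 : ∀ a : ℝ, |a| = T → ‖∫ y : ℝ in -T..0, f ((a : ℂ) + y * I)‖ ≤ C / T ^ 2 * |0 - -T| := fun a ha =>
    intervalIntegral.norm_integral_le_of_norm_le_const fun y hy => hb _ (by
      refine le_trans ?_ (Complex.abs_re_le_norm _)
      simp [ha]) (by
      rw [uIoc_of_le (neg_nonpos.2 hT.le)] at hy
      simpa using hy.2)
  have j2 := i2 T (abs_of_pos hT)
  have j3 := i2 (-T) (by rw [abs_neg, abs_of_pos hT])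
  rw [sub_neg_eq_add, abs_of_pos (by linarith : 0 < T + T)] at i1
  rw [sub_neg_eq_add, zero_add, abs_of_pos hT] at j2 j3
  rw [sub_eq_zero] at hr
  set J1 := ∫ x : ℝ in -T..T, f (x + ((-T : ℝ) : ℂ) * I)
  set J2 := ∫ y : ℝ in -T..0, f ((T : ℂ) + y * I)
  set J3 := ∫ y : ℝ in -T..0, f (((-T : ℝ) : ℂ) + y * I)
  have e : (∫ x : ℝ in -T..T, f x) = J1 + I • J2 - I • J3 := by
    rw [← hr]
    abel
  calc ‖∫ x : ℝ in -T..T, f x‖ ≤ ‖J1‖ + ‖J2‖ + ‖J3‖ := by
        rw [e]
        refine (norm_sub_le _ _).trans (add_le_add ((norm_add_le _ _).trans (add_le_add le_rfl ?_)) ?_) <;>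
          rw [norm_smul, Complex.norm_I, one_mul]
    _ ≤ C / T ^ 2 * (T + T) + C / T ^ 2 * T + C / T ^ 2 * T := add_le_add (add_le_add i1 j2) j3
    _ = _ := by field_simp; ring

lemma res_base (x : ℝ) :
    res ((I : ℂ) • (1 : Matrix n n ℂ)) x - (res ((I : ℂ) • (1 : Matrix n n ℂ)) x)ᴴ =
      (1 + x ^ 2)⁻¹ • ((2 * I) • (1 : Matrix n n ℂ)) := by
  have hx : (x : ℂ) - I ≠ 0 := fun h => by simpa using congrArg Complex.im h
  have hx' : (x : ℂ) + I ≠ 0 := fun h => by simpa using congrArg Complex.im h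
  have e : res ((I : ℂ) • (1 : Matrix n n ℂ)) x = ((x : ℂ) - I)⁻¹ • 1 := by
    refine Matrix.inv_eq_right_inv ?_
    rw [← sub_smul, Matrix.smul_mul, one_mul, smul_smul, mul_inv_cancel₀ hx, one_smul]
  rw [e, conjTranspose_smul, conjTranspose_one, ← sub_smul, ← Complex.coe_smul, smul_smul]
  congr 1
  rw [star_inv₀, Complex.star_def, map_sub, Complex.conj_ofReal, Complex.conj_I, sub_neg_eq_add]
  have h1 : (1 : ℂ) + (x : ℂ) ^ 2 ≠ 0 := by exact_mod_cast (by positivity : (0 : ℝ) < 1 + x ^ 2).ne'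
  push_cast
  field_simp
  linear_combination (2 * I) * I_sq

lemma inv_pencil_eq (h1 : A + Aᴴ = (2 : ℂ) • B) (h2 : Aᴴ * A = E) (hA : Stable A) (x : ℝ) :
    (pencil B E x)⁻¹ = res A x * (res A x)ᴴ ∧
      lyap A ((pencil B E x)⁻¹) = res A x - (res A x)ᴴ := by
  have hd := (Matrix.isUnit_iff_isUnit_det _).1 (hA.isUnit_sub (z := (x : ℂ)) (by simp))
  have e : (pencil B E x)⁻¹ = res A x * (res A x)ᴴ := by
    rw [pencil_eq h1 h2, Matrix.mul_inv_rev, res, Matrix.conjTranspose_nonsing_inv]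
  refine ⟨e, ?_⟩
  have r1 : A * res A x = (x : ℂ) • res A x - 1 := by
    have := Matrix.mul_nonsing_inv _ hd
    rw [Matrix.sub_mul, Matrix.smul_mul, one_mul, sub_eq_iff_eq_add] at this
    rw [res, this, add_sub_cancel_left]
  have r2 : (res A x)ᴴ * Aᴴ = (x : ℂ) • (res A x)ᴴ - 1 := by
    rw [← conjTranspose_mul, r1, conjTranspose_sub, conjTranspose_smul, conjTranspose_one, Complex.star_def,
      Complex.conj_ofReal]
  rw [e, lyap, ← Matrix.mul_assoc A, r1, Matrix.mul_assoc (res A x) _ Aᴴ, r2, Matrix.sub_mul, Matrix.mul_sub,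
    Matrix.smul_mul, Matrix.mul_smul, one_mul, mul_one]
  abel

/-- The Lyapunov solution is the mean of the inverse pencil. -/
theorem tendsto_integral_inv_pencil (hA : Stable A) (h1 : A + Aᴴ = (2 : ℂ) • B) (h2 : Aᴴ * A = E) :
    Tendsto (fun T => ∫ x : ℝ in -T..T, (pencil B E x)⁻¹) atTop (𝓝 (Real.pi • lyapSol A)) := by
  have hi : Stable ((I : ℂ) • (1 : Matrix n n ℂ)) := ⟨1, Matrix.PosDef.one, by
    rw [lyap, conjTranspose_smul, conjTranspose_one, mul_one, one_mul, Complex.star_def, conj_I,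
      ← sub_smul, sub_neg_eq_add, two_mul]⟩
  have e := inv_pencil_eq h1 h2 hA
  set R := fun x : ℝ => res A x
  set R₀ := fun x : ℝ => res ((I : ℂ) • (1 : Matrix n n ℂ)) x
  set S := (starL' ℝ : Matrix n n ℂ ≃L[ℝ] Matrix n n ℂ).toContinuousLinearMap
  have hR : Continuous R := continuous_res_ofReal hA
  have hR₀ : Continuous R₀ := continuous_res_ofReal hi
  have hc : Continuous fun x : ℝ => (pencil B E x)⁻¹ := by
    simp only [(e _).1]
    exact hR.mul (S.continuous.comp hR)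
  have hD : Tendsto (fun T => ∫ x : ℝ in -T..T, (R x - (R x)ᴴ)) atTop (𝓝 (Real.pi • ((2 * I) • (1 : Matrix n n ℂ)))) := by
    have h0 := tendsto_integral_res_sub hA hi
    have h0' := (S.continuous.tendsto 0).comp h0
    rw [map_zero] at h0'
    have h3 : Tendsto (fun T => (2 * Real.arctan T) • ((2 * I) • (1 : Matrix n n ℂ))) atTop
        (𝓝 (Real.pi • ((2 * I) • (1 : Matrix n n ℂ)))) := by
      have ha := ((Real.tendsto_arctan_atTop.mono_right nhdsWithin_le_nhds).const_mul 2).smul_const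
        ((2 * I) • (1 : Matrix n n ℂ))
      rwa [mul_div_cancel₀ _ two_ne_zero] at ha
    have h4 := (h0.sub h0').add h3
    rw [sub_zero, zero_add] at h4
    refine h4.congr fun T => ?_
    have i0 : ∀ {g : ℝ → Matrix n n ℂ}, Continuous g → IntervalIntegrable g volume (-T) T :=
      fun hg => hg.intervalIntegrable _ _
    have e0 : ∫ x : ℝ in -T..T, (R₀ x - (R₀ x)ᴴ) = (2 * Real.arctan T) • ((2 * I) • (1 : Matrix n n ℂ)) := by
      simp only [R₀, res_base]
      rw [intervalIntegral.integral_smul_const, integral_inv_one_add_sq, Real.arctan_neg]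
      congr 1
      ring
    have e1 : S (∫ x : ℝ in -T..T, (R x - R₀ x)) = ∫ x : ℝ in -T..T, S (R x - R₀ x) :=
      (S.intervalIntegral_comp_comm (i0 (hR.sub hR₀))).symm
    show (∫ x : ℝ in -T..T, (R x - R₀ x)) - S (∫ x : ℝ in -T..T, (R x - R₀ x)) + _ = _
    rw [← e0, e1,
      ← intervalIntegral.integral_sub (i0 (g := fun x => R x - R₀ x) (hR.sub hR₀))
        (i0 (g := fun x => S (R x - R₀ x)) (S.continuous.comp (hR.sub hR₀))),
      ← intervalIntegral.integral_add (i0 (g := fun x => R x - R₀ x - S (R x - R₀ x))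
          ((hR.sub hR₀).sub (S.continuous.comp (hR.sub hR₀))))
        (i0 (g := fun x => R₀ x - (R₀ x)ᴴ) (hR₀.sub (S.continuous.comp hR₀)))]
    refine intervalIntegral.integral_congr fun x _ => ?_
    show R x - R₀ x - (R x - R₀ x)ᴴ + (R₀ x - (R₀ x)ᴴ) = R x - (R x)ᴴ
    rw [conjTranspose_sub]
    abel
  have key : ∀ T : ℝ, ∫ x : ℝ in -T..T, (pencil B E x)⁻¹ =
      Ring.inverse (lyapL A) (∫ x : ℝ in -T..T, (R x - (R x)ᴴ)) := fun T => by
    have h5 := ((lyapL A).restrictScalars ℝ).intervalIntegral_comp_comm (hc.intervalIntegrable (μ := volume) (-T) T)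
    have h6 : lyapL A (∫ x : ℝ in -T..T, (pencil B E x)⁻¹) = ∫ x : ℝ in -T..T, (R x - (R x)ᴴ) := by
      refine h5.symm.trans (intervalIntegral.integral_congr fun x _ => ?_)
      exact (e x).2
    rw [← h6, ← mul_apply_eq_comp, Ring.inverse_mul_cancel _ hA.isUnit_lyapL]
    rfl
  simp only [key]
  have hl := ((Ring.inverse (lyapL A)).continuous.tendsto _).comp hD
  rw [← Complex.coe_smul Real.pi, map_smul, Complex.coe_smul] at hl
  exact hl

end Vale.Agent.P371.Pencil
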