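import Vale.Agent.P371.Pencil.Calc
import Vale.Agent.P371.Pencil.Resolvent

/-!
P371, pencils: order properties of the Lyapunov solution (antitone, convex, even) and a bound that
survives up to the boundary of the cone of positive pencils.
-/

namespace Vale.Agent.P371.Pencil

open Matrix Complex Filter Set MeasureTheory
open scoped ComplexOrder Matrix.Norms.L2Operator Topology

variable {n : Type} [Fintype n] [DecidableEq n] {Q Q' B B' E E' : Matrix n n ℂ}

/-- The quadratic form. -/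
def qf (X : Matrix n n ℂ) (v : n → ℂ) : ℝ := (star v ⬝ᵥ (X *ᵥ v)).re

/-- The squared length. -/
def sqLen (v : n → ℂ) : ℝ := (star v ⬝ᵥ v).re

omit [DecidableEq n] in
lemma qf_add (X Y : Matrix n n ℂ) (v : n → ℂ) : qf (X + Y) v = qf X v + qf Y v := by
  simp [qf, Matrix.add_mulVec]

omit [DecidableEq n] in
lemma qf_smul (r : ℝ) (X : Matrix n n ℂ) (v : n → ℂ) : qf (r • X) v = r * qf X v := by
  simp [qf, Matrix.smul_mulVec, dotProduct_smul]

lemma qf_ofReal_one (r : ℝ) (v : n → ℂ) : qf ((r : ℂ) • (1 : Matrix n n ℂ)) v = r * sqLen v := by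
  simp [qf, sqLen, Matrix.smul_mulVec, dotProduct_smul]

omit [DecidableEq n] in
lemma sqLen_nonneg (v : n → ℂ) : 0 ≤ sqLen v :=
  (Complex.nonneg_iff.1 (dotProduct_star_self_nonneg v)).1

omit [DecidableEq n] in
lemma qf_nonneg (hQ : Q.PosSemidef) (v : n → ℂ) : 0 ≤ qf Q v :=
  (Complex.nonneg_iff.1 (hQ.dotProduct_mulVec_nonneg v)).1

omit [DecidableEq n] in
lemma continuous_qf (v : n → ℂ) : Continuous fun X : Matrix n n ℂ => qf X v := by
  unfold qf
  exact Complex.continuous_re.comp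
    (continuous_const.dotProduct (continuous_id.matrix_mulVec continuous_const))

omit [DecidableEq n] in
lemma re_dot_comm (a b : n → ℂ) : (star a ⬝ᵥ b).re = (star b ⬝ᵥ a).re := by
  simp [dotProduct, Complex.mul_re, Complex.re_sum, mul_comm]

/-- The form of the inverse dominates every linearisation, with equality at the solution. -/
lemma two_re_sub_qf_le (hQ : Q.PosDef) (v x : n → ℂ) :
    2 * (star x ⬝ᵥ v).re - qf Q x ≤ qf Q⁻¹ v := by
  have h := qf_nonneg hQ.posSemidef (x - Q⁻¹ *ᵥ v)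
  have hd := (Matrix.isUnit_iff_isUnit_det Q).1 hQ.isUnit
  have e : Q *ᵥ (Q⁻¹ *ᵥ v) = v := by rw [Matrix.mulVec_mulVec, Matrix.mul_nonsing_inv Q hd, Matrix.one_mulVec]
  have e1 : star (Q⁻¹ *ᵥ v) ⬝ᵥ (Q *ᵥ x) = star v ⬝ᵥ x := by
    rw [Matrix.dotProduct_mulVec, ← hQ.isHermitian.eq, ← Matrix.star_mulVec, hQ.isHermitian.eq, e]
  have e2 : (star (Q⁻¹ *ᵥ v) ⬝ᵥ v).re = qf Q⁻¹ v := by
    rw [qf, re_dot_comm]
  simp only [qf, Matrix.mulVec_sub, star_sub, sub_dotProduct, dotProduct_sub, Complex.sub_re, e, e1] at h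
  rw [e2] at h
  have e3 : (star v ⬝ᵥ x).re = (star x ⬝ᵥ v).re := by
    exact re_dot_comm v x
  rw [e3] at h
  simp only [qf] at h ⊢
  linarith

lemma two_re_sub_qf_eq (hQ : Q.PosDef) (v : n → ℂ) :
    2 * (star (Q⁻¹ *ᵥ v) ⬝ᵥ v).re - qf Q (Q⁻¹ *ᵥ v) = qf Q⁻¹ v := by
  have hd := (Matrix.isUnit_iff_isUnit_det Q).1 hQ.isUnit
  have e2 : (star (Q⁻¹ *ᵥ v) ⬝ᵥ v).re = qf Q⁻¹ v := by
    rw [qf, re_dot_comm]
  have e3 : qf Q (Q⁻¹ *ᵥ v) = qf Q⁻¹ v := by
    rw [← e2, qf, Matrix.mulVec_mulVec, Matrix.mul_nonsing_inv Q hd, Matrix.one_mulVec]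
  rw [e2, e3]
  ring

/-- The inverse is antitone. -/
lemma qf_inv_antitone (hQ : Q.PosDef) (hQ' : Q'.PosDef) (h : ∀ x, qf Q x ≤ qf Q' x) (v : n → ℂ) :
    qf Q'⁻¹ v ≤ qf Q⁻¹ v := by
  rw [← two_re_sub_qf_eq hQ' v]
  exact (sub_le_sub_left (h _) _).trans (two_re_sub_qf_le hQ v _)

/-- The inverse is convex. -/
lemma qf_inv_convex (hQ : Q.PosDef) (hQ' : Q'.PosDef) {θ : ℝ} (h0 : 0 ≤ θ) (h1 : θ ≤ 1)
    (hm : (θ • Q + (1 - θ) • Q').PosDef) (v : n → ℂ) :
    qf (θ • Q + (1 - θ) • Q')⁻¹ v ≤ θ * qf Q⁻¹ v + (1 - θ) * qf Q'⁻¹ v := by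
  set x := (θ • Q + (1 - θ) • Q')⁻¹ *ᵥ v
  rw [← two_re_sub_qf_eq hm v, qf_add, qf_smul, qf_smul]
  calc _ = θ * (2 * (star x ⬝ᵥ v).re - qf Q x) + (1 - θ) * (2 * (star x ⬝ᵥ v).re - qf Q' x) := by ring
    _ ≤ _ := add_le_add (mul_le_mul_of_nonneg_left (two_re_sub_qf_le hQ v x) h0)
        (mul_le_mul_of_nonneg_left (two_re_sub_qf_le hQ' v x) (sub_nonneg.2 h1))

lemma qf_le_opNorm (X : Matrix n n ℂ) (v : n → ℂ) : |qf X v| ≤ ‖X‖ * sqLen v := by
  set x : EuclideanSpace ℂ n := WithLp.toLp 2 v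
  have h1 : ‖x‖ ^ 2 = sqLen v := by
    rw [← inner_self_eq_norm_sq (𝕜 := ℂ) x, EuclideanSpace.inner_eq_star_dotProduct, dotProduct_comm]
    rfl
  have h2 : qf X v = (inner ℂ x (Matrix.toEuclideanCLM (n := n) (𝕜 := ℂ) X x)).re := by
    rw [EuclideanSpace.inner_eq_star_dotProduct, dotProduct_comm]
    rfl
  rw [h2, ← h1]
  refine (Complex.abs_re_le_norm _).trans ((norm_inner_le_norm _ _).trans ?_)
  calc ‖x‖ * ‖Matrix.toEuclideanCLM (n := n) (𝕜 := ℂ) X x‖ ≤ ‖x‖ * (‖X‖ * ‖x‖) :=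
        mul_le_mul_of_nonneg_left ((Matrix.toEuclideanCLM (n := n) (𝕜 := ℂ) X).le_opNorm x) (norm_nonneg _)
    _ = _ := by ring

lemma norm_le_trace {X : Matrix n n ℂ} (hX : X.PosSemidef) : ‖X‖ ≤ X.trace.re := by
  set U : Matrix n n ℂ := (hX.1.eigenvectorUnitary : Matrix n n ℂ)
  have e : X = U * diagonal (fun i => (hX.1.eigenvalues i : ℂ)) * star U := by
    conv_lhs => rw [hX.1.spectral_theorem]
    rfl
  have ht : X.trace.re = ∑ k, hX.1.eigenvalues k := by
    rw [hX.1.trace_eq_sum_eigenvalues]; simp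
  rw [ht]
  conv_lhs => rw [e]
  rw [← Unitary.coe_star, CStarRing.norm_mul_coe_unitary, CStarRing.norm_coe_unitary_mul,
    Matrix.l2_opNorm_diagonal]
  refine (pi_norm_le_iff_of_nonneg (Finset.sum_nonneg fun k _ => hX.eigenvalues_nonneg k)).2 fun i => ?_
  rw [Complex.norm_real, Real.norm_of_nonneg (hX.eigenvalues_nonneg i)]
  exact Finset.single_le_sum (fun k _ => hX.eigenvalues_nonneg k) (Finset.mem_univ i)

omit [DecidableEq n] in
lemma trace_re_eq_sum_qf [DecidableEq n] (X : Matrix n n ℂ) : X.trace.re = ∑ k, qf X (Pi.single k 1) := by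
  rw [Matrix.trace, re_sum]
  refine Finset.sum_congr rfl fun k _ => ?_
  simp [qf]

/-- Hermitian coefficients with a pencil nonnegative on the whole line. -/
structure DomC (B E : Matrix n n ℂ) : Prop where
  hermB : B.IsHermitian
  hermE : E.IsHermitian
  nonneg : ∀ t : ℝ, (pencil B E t).PosSemidef

omit [Fintype n] in
lemma Dom.domC [Fintype n] (h : Dom B E) : DomC B E := ⟨h.hermB, h.hermE, fun t => (h.pos t).posSemidef⟩

lemma DomC.shift (h : DomC B E) {u : ℝ} (hu : 0 < u) : Dom B (shiftE E u) := by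
  refine ⟨h.hermB, h.hermE.add ?_, fun t => ?_⟩
  · show _ = _
    rw [conjTranspose_smul, conjTranspose_one, Complex.star_def, Complex.conj_ofReal]
  · have e : pencil B (shiftE E u) t = (u : ℂ) • 1 + pencil B E t := by
      rw [pencil, pencil, shiftE]; abel
    rw [e]
    exact (Matrix.PosDef.one.smul (Complex.zero_lt_real.2 hu)).add_posSemidef (h.nonneg t)

/-- The integral formula in the quadratic form. -/
lemma tendsto_qf_inv_pencil (h : Dom B E) (v : n → ℂ) :
    Tendsto (fun T => ∫ x : ℝ in -T..T, qf (pencil B E x)⁻¹ v) atTop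
      (𝓝 (Real.pi * qf (lyapSol (root B E)) v)) := by
  obtain ⟨hs, h1, h2⟩ := root_spec h
  have ht := ((continuous_qf v).tendsto _).comp (tendsto_integral_inv_pencil hs h1 h2)
  rw [qf_smul] at ht
  refine ht.congr fun T => ?_
  set L : Matrix n n ℂ →L[ℝ] ℝ := LinearMap.toContinuousLinearMap
    { toFun := fun X => qf X v, map_add' := fun X Y => qf_add X Y v, map_smul' := fun r X => qf_smul r X v }
  have hc : Continuous fun x : ℝ => (pencil B E x)⁻¹ := by
    simp only [(inv_pencil_eq h1 h2 hs _).1]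
    exact (continuous_res_ofReal hs).mul (continuous_res_ofReal hs).matrix_conjTranspose
  exact (L.intervalIntegral_comp_comm (hc.intervalIntegrable (μ := volume) (-T) T)).symm

lemma continuous_qf_inv_pencil (h : Dom B E) (v : n → ℂ) :
    Continuous fun x : ℝ => qf (pencil B E x)⁻¹ v := by
  obtain ⟨hs, h1, h2⟩ := root_spec h
  simp only [(inv_pencil_eq h1 h2 hs _).1]
  exact (continuous_qf v).comp ((continuous_res_ofReal hs).mul (continuous_res_ofReal hs).matrix_conjTranspose)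

/-- Larger pencil, smaller weight. -/
theorem qf_lyapSol_antitone (h : Dom B E) (h' : Dom B' E')
    (hle : ∀ (t : ℝ) x, qf (pencil B E t) x ≤ qf (pencil B' E' t) x) (v : n → ℂ) :
    qf (lyapSol (root B' E')) v ≤ qf (lyapSol (root B E)) v := by
  refine le_of_mul_le_mul_left ?_ Real.pi_pos
  refine le_of_tendsto_of_tendsto (tendsto_qf_inv_pencil h' v) (tendsto_qf_inv_pencil h v) ?_
  filter_upwards [eventually_ge_atTop 0] with T hT
  exact intervalIntegral.integral_mono_on (by linarith) ((continuous_qf_inv_pencil h' v).intervalIntegrable _ _)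
    ((continuous_qf_inv_pencil h v).intervalIntegrable _ _) fun x _ =>
    qf_inv_antitone (h.pos x) (h'.pos x) (hle x) v

omit [Fintype n] in
lemma pencil_combo (θ : ℝ) (B B' E E' : Matrix n n ℂ) (t : ℝ) :
    pencil (θ • B + (1 - θ) • B') (θ • E + (1 - θ) • E') t =
      θ • pencil B E t + (1 - θ) • pencil B' E' t := by
  simp only [pencil, ← Complex.coe_smul, Complex.ofReal_sub, Complex.ofReal_one]
  module

/-- The weight is jointly convex in both coefficients. -/
theorem qf_lyapSol_convex (h : Dom B E) (h' : Dom B' E') {θ : ℝ} (h0 : 0 ≤ θ) (h1 : θ ≤ 1)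
    (hm : Dom (θ • B + (1 - θ) • B') (θ • E + (1 - θ) • E')) (v : n → ℂ) :
    qf (lyapSol (root (θ • B + (1 - θ) • B') (θ • E + (1 - θ) • E'))) v ≤
      θ * qf (lyapSol (root B E)) v + (1 - θ) * qf (lyapSol (root B' E')) v := by
  refine le_of_mul_le_mul_left ?_ Real.pi_pos
  rw [mul_add, mul_left_comm, mul_left_comm Real.pi (1 - θ)]
  refine le_of_tendsto_of_tendsto (tendsto_qf_inv_pencil hm v)
    (((tendsto_qf_inv_pencil h v).const_mul θ).add ((tendsto_qf_inv_pencil h' v).const_mul (1 - θ))) ?_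
  filter_upwards [eventually_ge_atTop 0] with T hT
  have i1 := ((continuous_qf_inv_pencil h v).intervalIntegrable (μ := volume) (-T) T).const_mul θ
  have i2 := ((continuous_qf_inv_pencil h' v).intervalIntegrable (μ := volume) (-T) T).const_mul (1 - θ)
  rw [← intervalIntegral.integral_const_mul, ← intervalIntegral.integral_const_mul,
    ← intervalIntegral.integral_add i1 i2]
  refine intervalIntegral.integral_mono_on (by linarith) ((continuous_qf_inv_pencil hm v).intervalIntegrable _ _)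
    (i1.add i2) fun x _ => ?_
  have hx := hm.pos x
  rw [pencil_combo] at hx ⊢
  exact qf_inv_convex (h.pos x) (h'.pos x) h0 h1 hx v

/-- The weight is even in the linear coefficient. -/
theorem qf_lyapSol_neg (h : Dom B E) (h' : Dom (-B) E) (v : n → ℂ) :
    qf (lyapSol (root (-B) E)) v = qf (lyapSol (root B E)) v := by
  refine mul_left_cancel₀ Real.pi_ne_zero (tendsto_nhds_unique (tendsto_qf_inv_pencil h' v) ?_)
  refine (tendsto_qf_inv_pencil h v).congr fun T => ?_
  have e : ∀ x : ℝ, pencil (-B) E x = pencil B E (-x) := fun x => by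
    simp only [pencil, Complex.ofReal_neg]
    module
  simp only [e]
  rw [intervalIntegral.integral_comp_neg (fun x => qf (pencil B E x)⁻¹ v), neg_neg]

/-- A bound that does not see the distance to the boundary. -/
theorem qf_wgt_le (h : DomC B E) {u : ℝ} (hu : 0 < u) (v : n → ℂ) :
    Real.pi * qf (wgt B E u) v ≤ (2 * (4 * (1 + ‖B‖ + ‖E‖)) / u + 4) * sqLen v := by
  set R := 4 * (1 + ‖B‖ + ‖E‖)
  have hR : 4 ≤ R := by simp only [R]; linarith [norm_nonneg B, norm_nonneg E]
  have hd := h.shift hu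
  have hv := sqLen_nonneg v
  have hinv : ∀ (Q : Matrix n n ℂ) (c : ℝ), Q.PosDef → 0 < c → (∀ x, c * sqLen x ≤ qf Q x) →
      qf Q⁻¹ v ≤ sqLen v / c := fun Q c hQ hc hle => by
    have hc' : ((c : ℂ) • (1 : Matrix n n ℂ)).PosDef := Matrix.PosDef.one.smul (Complex.zero_lt_real.2 hc)
    refine (qf_inv_antitone hc' hQ (fun x => by rw [qf_ofReal_one]; exact hle x) v).trans (le_of_eq ?_)
    rw [show ((c : ℂ) • (1 : Matrix n n ℂ))⁻¹ = ((c⁻¹ : ℝ) : ℂ) • 1 from Matrix.inv_eq_right_inv (by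
      rw [Matrix.smul_mul, one_mul, smul_smul, ← Complex.ofReal_mul, mul_inv_cancel₀ hc.ne', Complex.ofReal_one,
        one_smul]), qf_ofReal_one, div_eq_inv_mul]
  set q := fun x : ℝ => qf (pencil B (shiftE E u) x)⁻¹ v
  have hqc : Continuous q := continuous_qf_inv_pencil hd v
  have b1 : ∀ x : ℝ, q x ≤ sqLen v / u := fun x => hinv _ _ (hd.pos x) hu fun y => by
    have e : pencil B (shiftE E u) x = pencil B E x + (u : ℂ) • 1 := by rw [pencil, pencil, shiftE, add_assoc]
    rw [e, qf_add, qf_ofReal_one]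
    linarith [qf_nonneg (h.nonneg x) y]
  have b2 : ∀ x : ℝ, R ≤ |x| → q x ≤ 2 * sqLen v / x ^ 2 := fun x hx => by
    have hx2 : 0 < x ^ 2 := by have : 0 < |x| := by linarith
                               rw [← sq_abs]; positivity
    refine (hinv _ (x ^ 2 / 2) (hd.pos x) (by positivity) fun y => ?_).trans (le_of_eq (by field_simp))
    have hy := sqLen_nonneg y
    have e : pencil B (shiftE E u) x =
        ((x ^ 2 : ℝ) : ℂ) • 1 + (-(2 * x)) • B + (E + (u : ℂ) • 1) := by
      rw [pencil, shiftE, ← Complex.coe_smul (-(2 * x))]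
      push_cast
      module
    rw [e, qf_add, qf_add, qf_add, qf_ofReal_one, qf_ofReal_one, qf_smul]
    have hB := qf_le_opNorm B y
    have hE := abs_le.1 (qf_le_opNorm E y)
    have h3 : |2 * x * qf B y| ≤ 2 * |x| * (‖B‖ * sqLen y) := by
      rw [abs_mul, abs_mul, abs_two]
      exact mul_le_mul_of_nonneg_left hB (by positivity)
    obtain ⟨-, h4⟩ := abs_le.1 h3
    have h5 : 2 * |x| * ‖B‖ + ‖E‖ ≤ x ^ 2 / 2 := by
      rw [← sq_abs]
      simp only [R] at hx
      nlinarith [norm_nonneg B, norm_nonneg E]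
    nlinarith [mul_le_mul_of_nonneg_right h5 hy]
  refine le_of_tendsto (tendsto_qf_inv_pencil hd v) ?_
  filter_upwards [eventually_ge_atTop R] with T hT
  have i : ∀ a b : ℝ, IntervalIntegrable q volume a b := fun a b => hqc.intervalIntegrable a b
  rw [← intervalIntegral.integral_add_adjacent_intervals (i (-T) R) (i R T),
    ← intervalIntegral.integral_add_adjacent_intervals (i (-T) (-R)) (i (-R) R)]
  have hmid : ∫ x in -R..R, q x ≤ 2 * R / u * sqLen v := by
    refine (intervalIntegral.integral_mono_on (by linarith) (i _ _) intervalIntegrable_const fun x _ => b1 x).trans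
      (le_of_eq ?_)
    rw [intervalIntegral.integral_const, smul_eq_mul]
    ring
  have hc2 : ∀ a b : ℝ, R ≤ a → a ≤ b → IntervalIntegrable (fun x : ℝ => 2 * sqLen v / x ^ 2) volume a b :=
    fun a b ha hab => ContinuousOn.intervalIntegrable (ContinuousOn.div continuousOn_const (continuousOn_pow 2)
      fun x hx => by rw [uIcc_of_le hab] at hx; exact pow_ne_zero 2 (by linarith [hx.1]))
  have htail : ∀ a b : ℝ, R ≤ a → a ≤ b → ∫ x in a..b, 2 * sqLen v / x ^ 2 ≤ 2 * sqLen v / R := fun a b ha hab => by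
    have ha0 : 0 < a := by linarith
    have hdx : ∀ x ∈ uIcc a b, HasDerivAt (fun x => -(2 * sqLen v) * x⁻¹) (2 * sqLen v / x ^ 2) x := fun x hx => by
      rw [uIcc_of_le hab] at hx
      have hx0 : x ≠ 0 := by linarith [hx.1]
      exact ((hasDerivAt_inv hx0).const_mul (-(2 * sqLen v))).congr_deriv (by field_simp)
    rw [intervalIntegral.integral_eq_sub_of_hasDerivAt hdx (hc2 a b ha hab)]
    simp only [← div_eq_mul_inv]
    rw [neg_div, neg_div, sub_neg_eq_add]
    have h1 : 2 * sqLen v / a ≤ 2 * sqLen v / R := div_le_div_of_nonneg_left (by positivity) (by linarith) ha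
    have h2 : 0 ≤ 2 * sqLen v / b := div_nonneg (by positivity) (by linarith)
    linarith
  have hright : ∫ x in R..T, q x ≤ 2 * sqLen v / R := by
    refine (intervalIntegral.integral_mono_on hT (i _ _) (hc2 R T le_rfl hT) fun x hx => ?_).trans (htail R T le_rfl hT)
    exact b2 x (hx.1.trans (le_abs_self x))
  have hleft : ∫ x in -T..-R, q x ≤ 2 * sqLen v / R := by
    rw [← intervalIntegral.integral_comp_neg]
    refine (intervalIntegral.integral_mono_on hT ((hqc.comp continuous_neg).intervalIntegrable _ _)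
      (hc2 R T le_rfl hT) fun x hx => ?_).trans (htail R T le_rfl hT)
    refine (b2 (-x) ((hx.1.trans (le_abs_self x)).trans_eq (abs_neg x).symm)).trans (le_of_eq ?_)
    rw [neg_sq]
  have h6 : 2 * sqLen v / R ≤ 2 * sqLen v / 4 := div_le_div_of_nonneg_left (by positivity) (by norm_num) hR
  linarith

/-- The norm of the weight up to the boundary. -/
theorem norm_wgt_le (h : DomC B E) {u : ℝ} (hu : 0 < u) :
    Real.pi * ‖wgt B E u‖ ≤ (Fintype.card n : ℝ) * (8 * (1 + ‖B‖ + ‖E‖) / u + 4) := by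
  have hp := (root_spec (h.shift hu)).1.lyapSol_posDef
  refine (mul_le_mul_of_nonneg_left (norm_le_trace hp.posSemidef) Real.pi_pos.le).trans ?_
  rw [trace_re_eq_sum_qf, Finset.mul_sum]
  refine (Finset.sum_le_sum fun k _ => qf_wgt_le h hu (Pi.single k 1)).trans (le_of_eq ?_)
  have e : ∀ k : n, sqLen (Pi.single k (1 : ℂ)) = 1 := fun k => by simp [sqLen]
  simp only [e, mul_one, Finset.sum_const, Finset.card_univ, nsmul_eq_mul]
  ring

end Vale.Agent.P371.Pencil
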