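import Vale.Agent.P371.Pencil.Phi
import Vale.Agent.P371.Pencil.Order

/-!
P371, pencils: the weight, the multiplier and the potential extend continuously to the closed cone
`Q_t ≥ 0` (the multiplier and the potential where `E > 0`), for `1/2 < ν < 1`.
-/

namespace Vale.Agent.P371.Pencil

open Matrix Complex MeasureTheory Filter Set
open scoped ComplexOrder Matrix.Norms.L2Operator Topology

variable {n : Type} [Fintype n] [DecidableEq n] {z : Matrix n n ℂ} {ν : ℝ}

/-- The codes of nonnegative pencils. -/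
def domZC : Set (Matrix n n ℂ) := {z | DomC (partB z) (partE z)}

/-- The codes of nonnegative pencils with positive constant coefficient. -/
def domZP : Set (Matrix n n ℂ) := {z | DomC (partB z) (partE z) ∧ (partE z).PosDef}

lemma domZ_subset_domZP : (domZ : Set (Matrix n n ℂ)) ⊆ domZP := fun z hz => by
  refine ⟨Dom.domC hz, ?_⟩
  have h := Dom.pos hz 0
  simpa [pencil] using h

lemma shiftZ_mem' (hz : z ∈ domZC) {u : ℝ} (hu : 0 < u) : shiftZ z u ∈ domZ := by
  show Dom (partB (shiftZ z u)) (partE (shiftZ z u))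
  rw [(parts_shiftZ z u).1, (parts_shiftZ z u).2]
  exact DomC.shift hz hu

lemma scaleL_scaleL (a b : ℝ) (z : Matrix n n ℂ) : scaleL a (scaleL b z) = scaleL (a * b) z := by
  rw [scaleL_apply a, (parts_scaleL b z).1, (parts_scaleL b z).2, scaleL_apply (a * b), Complex.ofReal_mul]
  module

/-- Far along the shift every code is in the domain, with uniform decay. -/
theorem exists_value_le (R : ℝ) : ∃ C : ℝ, ∀ᶠ u : ℝ in atTop, ∀ w : Matrix n n ℂ, ‖w‖ ≤ R →
    ‖(Real.sqrt u)⁻¹ • (1 : Matrix n n ℂ) + -wZ (shiftZ w u)‖ ≤ C * (u * Real.sqrt u)⁻¹ ∧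
      ‖gZ (shiftZ w u)‖ ≤ C * (u * Real.sqrt u)⁻¹ := by
  obtain ⟨δ₀, hδ₀, hsub⟩ := Metric.mem_nhds_iff.1 (isOpen_domZ.mem_nhds (base_mem (n := n)))
  obtain ⟨δ₁, hδ₁, C, hC, hb⟩ := exists_lipschitz_fderiv (contDiffAt_wZ (n := n) (k := 2) (by norm_num) base_mem)
  obtain ⟨δ₂, hδ₂, C₂, hC₂, hb₂⟩ := exists_lipschitz_fderiv (contDiffAt_gZ (n := n) (k := 2) (by norm_num) base_mem)
  set δ := min δ₀ (min δ₁ δ₂)
  have hδ : 0 < δ := lt_min hδ₀ (lt_min hδ₁ hδ₂)
  set L := ‖codeB (n := n)‖ + ‖codeE (n := n)‖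
  have hL : 0 ≤ L := add_nonneg (norm_nonneg _) (norm_nonneg _)
  set D0 := fderiv ℝ wZ (base (n := n))
  set K₂ := C₂ * δ + ‖fderiv ℝ gZ (base (n := n))‖
  have hK₂ : 0 ≤ K₂ := add_nonneg (mul_nonneg hC₂ hδ.le) (norm_nonneg _)
  set K₁ := C * (L * |R|) * L + ‖D0.comp codeE‖
  have hK₁ : 0 ≤ K₁ := add_nonneg (mul_nonneg (mul_nonneg hC (mul_nonneg hL (abs_nonneg R))) hL) (norm_nonneg _)
  refine ⟨K₁ * |R| + K₂ * L * |R|, ?_⟩
  have hsmall : ∀ᶠ u : ℝ in atTop, (Real.sqrt u)⁻¹ * (L * |R|) < δ := by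
    have := tendsto_inv_sqrt_atTop.mul_const (L * |R|)
    rw [zero_mul] at this
    exact this.eventually (gt_mem_nhds hδ)
  filter_upwards [hsmall, eventually_gt_atTop 0, tendsto_inv_sqrt_atTop.eventually (ge_mem_nhds one_pos)]
    with u hu hu0 hs1 w hR
  rw [← inv_sqrt_cube hu0]
  set s := (Real.sqrt u)⁻¹ with hsdef
  have hs : 0 < s := inv_pos.2 (Real.sqrt_pos.2 hu0)
  have hT : ∀ v : Matrix n n ℂ, ‖v‖ ≤ |R| → ‖scaleL s v‖ ≤ s * (L * |R|) := fun v hv => by
    refine ((scaleL s).le_opNorm v).trans ?_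
    rw [← mul_assoc]
    exact mul_le_mul (norm_scaleL_le hs.le hs1) hv (norm_nonneg _) (mul_nonneg hs.le hL)
  have hball : ∀ v ∈ Metric.closedBall (0 : Matrix n n ℂ) |R|, ‖base + scaleL s v - base‖ < δ := fun v hv => by
    rw [add_sub_cancel_left]
    exact (hT v (by simpa using hv)).trans_lt hu
  have hw : w ∈ Metric.closedBall (0 : Matrix n n ℂ) |R| := by simpa using hR.trans (le_abs_self R)
  have hmem : base + scaleL s w ∈ domZ := hsub (by
    rw [Metric.mem_ball, dist_eq_norm]; exact (hball w hw).trans_le (min_le_left _ _))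
  have e : shiftZ w u = scaleL s⁻¹ (base + scaleL s w) := by
    rw [map_add, scaleL_scaleL, inv_mul_cancel₀ hs.ne', scaleL_one, scaleL_base, hsdef, inv_inv,
      Real.mul_self_sqrt hu0.le, shiftZ, add_comm]
  obtain ⟨-, -, hW, hG⟩ := scale_spec hmem (inv_pos.2 hs)
  rw [← e, inv_inv] at hW hG
  constructor
  · set f : Matrix n n ℂ → Matrix n n ℂ := fun v => wZ (base + scaleL s v)
    have hd : ∀ v ∈ Metric.closedBall (0 : Matrix n n ℂ) |R|,
        HasFDerivWithinAt f ((fderiv ℝ wZ (base + scaleL s v)).comp (scaleL s))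
          (Metric.closedBall (0 : Matrix n n ℂ) |R|) v := fun v hv => by
      have h1 : HasFDerivAt (fun y => base + scaleL s y) (scaleL (n := n) s) v :=
        (scaleL (n := n) s).hasFDerivAt.const_add base
      have h2 := (hb _ ((hball v hv).trans_le ((min_le_right _ _).trans (min_le_left _ _)))).1.hasFDerivAt
      exact (h2.comp v h1).hasFDerivWithinAt
    have h0 : D0.comp (scaleL s) = (s * s) • D0.comp codeE := by
      rw [scaleL, ContinuousLinearMap.comp_add, ContinuousLinearMap.comp_smul, ContinuousLinearMap.comp_smul,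
        fderiv_wZ_base_codeB]
      simp
      refine ContinuousLinearMap.ext fun k => ?_
      show s • (0 : Matrix n n ℂ) = 0
      exact smul_zero s
    have hd' : ∀ v ∈ Metric.closedBall (0 : Matrix n n ℂ) |R|,
        ‖(fderiv ℝ wZ (base + scaleL s v)).comp (scaleL (n := n) s)‖ ≤ s * s * K₁ := fun v hv => by
      have h1 := (hb _ ((hball v hv).trans_le ((min_le_right _ _).trans (min_le_left _ _)))).2
      rw [add_sub_cancel_left] at h1
      rw [show (fderiv ℝ wZ (base + scaleL s v)).comp (scaleL s) =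
        (fderiv ℝ wZ (base + scaleL s v) - D0).comp (scaleL s) + D0.comp (scaleL s) by
          rw [ContinuousLinearMap.sub_comp, sub_add_cancel], h0]
      refine (norm_add_le _ _).trans ?_
      rw [norm_smul, Real.norm_of_nonneg (mul_nonneg hs.le hs.le), mul_add (s * s)]
      refine add_le_add ((ContinuousLinearMap.opNorm_comp_le _ _).trans ?_) le_rfl
      calc ‖fderiv ℝ wZ (base + scaleL s v) - D0‖ * ‖scaleL (n := n) s‖ ≤ C * (s * (L * |R|)) * (s * L) :=
            mul_le_mul (h1.trans (mul_le_mul_of_nonneg_left (hT v (by simpa using hv)) hC))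
              (norm_scaleL_le (n := n) hs.le hs1) (norm_nonneg _)
              (mul_nonneg hC (mul_nonneg hs.le (mul_nonneg hL (abs_nonneg R))))
        _ = _ := by ring
    have h := (convex_closedBall (0 : Matrix n n ℂ) |R|).norm_image_sub_le_of_norm_hasFDerivWithin_le
      hd hd' (Metric.mem_closedBall_self (abs_nonneg R)) hw
    simp only [f, map_zero, add_zero, wZ_base, sub_zero] at h
    rw [hW, ← sub_eq_add_neg, Complex.coe_smul, ← smul_sub, norm_smul, Real.norm_of_nonneg hs.le, norm_sub_rev]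
    calc s * ‖wZ (base + scaleL s w) - 1‖ ≤ s * (s * s * K₁ * |R|) :=
          mul_le_mul_of_nonneg_left (h.trans (mul_le_mul_of_nonneg_left (hR.trans (le_abs_self R))
            (mul_nonneg (mul_nonneg hs.le hs.le) hK₁))) hs.le
      _ = K₁ * |R| * (s * (s * s)) := by ring
      _ ≤ _ := mul_le_mul_of_nonneg_right
          (le_add_of_nonneg_right (mul_nonneg (mul_nonneg hK₂ hL) (abs_nonneg R))) (by positivity)
  · have hD : ∀ y ∈ Metric.ball (base : Matrix n n ℂ) δ, DifferentiableAt ℝ gZ y ∧ ‖fderiv ℝ gZ y‖ ≤ K₂ := by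
      intro y hy
      rw [Metric.mem_ball, dist_eq_norm] at hy
      obtain ⟨h1, h2⟩ := hb₂ y (hy.trans_le ((min_le_right _ _).trans (min_le_right _ _)))
      refine ⟨h1, ?_⟩
      calc ‖fderiv ℝ gZ y‖ ≤ ‖fderiv ℝ gZ y - fderiv ℝ gZ base‖ + ‖fderiv ℝ gZ (base (n := n))‖ :=
            norm_le_norm_sub_add _ _
        _ ≤ K₂ := add_le_add (h2.trans (mul_le_mul_of_nonneg_left hy.le hC₂)) le_rfl
    have h := (convex_ball (base : Matrix n n ℂ) δ).norm_image_sub_le_of_norm_fderiv_le (𝕜 := ℝ)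
      (fun y hy => (hD y hy).1) (fun y hy => (hD y hy).2) (Metric.mem_ball_self hδ)
      (show base + scaleL s w ∈ Metric.ball (base : Matrix n n ℂ) δ by
        rw [Metric.mem_ball, dist_eq_norm]; exact hball w hw)
    rw [gZ_base, sub_zero, add_sub_cancel_left] at h
    rw [hG, Complex.coe_smul, norm_smul, Real.norm_of_nonneg (mul_nonneg hs.le hs.le)]
    calc s * s * ‖gZ (base + scaleL s w)‖ ≤ s * s * (K₂ * (s * (L * |R|))) :=
          mul_le_mul_of_nonneg_left (h.trans (mul_le_mul_of_nonneg_left (hT w (hR.trans (le_abs_self R))) hK₂))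
            (mul_nonneg hs.le hs.le)
      _ = K₂ * L * |R| * (s * (s * s)) := by ring
      _ ≤ _ := mul_le_mul_of_nonneg_right (le_add_of_nonneg_left (mul_nonneg hK₁ (abs_nonneg R))) (by positivity)

/-- Dominated continuity of an integral along the shift on a set of codes. -/
lemma continuity_core (hν : 1 / 2 < ν) (hν1 : ν < 1) {s : Set (Matrix n n ℂ)}
    {f : Matrix n n ℂ → ℝ → Matrix n n ℂ} (hz : z ∈ s) {r : ℝ} (hr : 0 < r)
    (hc : ∀ w ∈ s, ∀ u, 0 < u → ContinuousAt (fun v => f w v) u ∧ ContinuousAt (fun y => f y u) w)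
    (h0 : ∀ a : ℝ, 1 ≤ a → ∃ K, ∀ w ∈ s ∩ Metric.closedBall z r, ∀ u ∈ Ioc (0 : ℝ) a, ‖f w u‖ ≤ K / u)
    (hinf : ∃ C, ∀ᶠ u : ℝ in atTop, ∀ w ∈ s ∩ Metric.closedBall z r, ‖f w u‖ ≤ C * (u * Real.sqrt u)⁻¹) :
    IntegrableOn (fun u => u ^ (ν - 1 / 2) • f z u) (Ioi 0) ∧
      ContinuousWithinAt (fun w => ∫ u in Ioi (0 : ℝ), u ^ (ν - 1 / 2) • f w u) s z := by
  obtain ⟨C, hC⟩ := hinf
  obtain ⟨a, ha⟩ := eventually_atTop.1 (hC.and (eventually_ge_atTop 1))
  have ha1 : 1 ≤ a := (ha a le_rfl).2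
  obtain ⟨K, hK⟩ := h0 a ha1
  set bound : ℝ → ℝ := fun u => if u ≤ a then K * u ^ (ν - 3 / 2) else C * u ^ (ν - 2)
  have hbound : ∀ u ∈ Ioi (0 : ℝ), ∀ w ∈ s ∩ Metric.closedBall z r, ‖u ^ (ν - 1 / 2) • f w u‖ ≤ bound u :=
    fun u hu w hw => by
    have hu0 : (0 : ℝ) < u := hu
    rw [norm_smul, Real.norm_of_nonneg (Real.rpow_nonneg hu0.le _)]
    simp only [bound]
    split
    · refine (mul_le_mul_of_nonneg_left (hK w hw u ⟨hu0, ‹_›⟩) (Real.rpow_nonneg hu0.le _)).trans (le_of_eq ?_)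
      rw [div_eq_mul_inv K, ← Real.rpow_neg_one u, mul_left_comm, ← Real.rpow_add hu0]
      ring_nf
    · refine (mul_le_mul_of_nonneg_left ((ha u (le_of_not_ge ‹_›)).1 w hw) (Real.rpow_nonneg hu0.le _)).trans
        (le_of_eq ?_)
      rw [← rpow_neg_three_halves hu0, mul_left_comm, ← Real.rpow_add hu0]
      ring_nf
  have hbi : IntegrableOn bound (Ioi 0) := by
    rw [← Ioc_union_Ioi_eq_Ioi (zero_le_one.trans ha1)]
    refine IntegrableOn.union ?_ ?_
    · have h := ((intervalIntegrable_iff_integrableOn_Ioc_of_le (μ := volume) (zero_le_one.trans ha1)).1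
        (intervalIntegral.intervalIntegrable_rpow' (r := ν - 3 / 2) (by linarith))).const_mul K
      exact IntegrableOn.congr_fun h (fun u hu => by simp only [bound, if_pos hu.2]) measurableSet_Ioc
    · have h := (integrableOn_Ioi_rpow_of_lt (a := ν - 2) (by linarith) (lt_of_lt_of_le one_pos ha1)).const_mul C
      exact IntegrableOn.congr_fun h (fun u hu => by simp only [bound, if_neg (not_le.2 (show a < u from hu))])
        measurableSet_Ioi
  have hm : ∀ w ∈ s, AEStronglyMeasurable (fun u => u ^ (ν - 1 / 2) • f w u) (volume.restrict (Ioi 0)) :=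
    fun w hw => ContinuousOn.aestronglyMeasurable (fun u hu => ContinuousAt.continuousWithinAt
      ((Real.continuousAt_rpow_const _ _ (Or.inl (ne_of_gt hu))).smul (hc w hw u hu).1)) measurableSet_Ioi
  have hz' : z ∈ s ∩ Metric.closedBall z r := ⟨hz, Metric.mem_closedBall_self hr.le⟩
  refine ⟨Integrable.mono' hbi (hm z hz) ((ae_restrict_mem measurableSet_Ioi).mono fun u hu => hbound u hu z hz'),
    continuousWithinAt_of_dominated (bound := bound) ?_ ?_ hbi ?_⟩
  · filter_upwards [self_mem_nhdsWithin] with w hw using hm w hw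
  · filter_upwards [self_mem_nhdsWithin, mem_nhdsWithin_of_mem_nhds (Metric.closedBall_mem_nhds z hr)]
      with w hw hwb using (ae_restrict_mem measurableSet_Ioi).mono fun u hu => hbound u hu w ⟨hw, hwb⟩
  · exact (ae_restrict_mem measurableSet_Ioi).mono fun u hu =>
      ((hc z hz u hu).2.const_smul (u ^ (ν - 1 / 2))).continuousWithinAt

lemma continuity_shift (hz : z ∈ domZC) {g : Matrix n n ℂ → Matrix n n ℂ} (hg : ∀ w ∈ domZ, ContinuousAt g w)
    {u : ℝ} (hu : 0 < u) :
    ContinuousAt (fun v => g (shiftZ z v)) u ∧ ContinuousAt (fun y => g (shiftZ y u)) z := by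
  have h := hg _ (shiftZ_mem' hz hu)
  exact ⟨h.comp (x := u) (f := fun v => shiftZ z v)
      (continuous_const.add (continuous_id.smul continuous_const)).continuousAt,
    h.comp (x := z) (f := fun y => shiftZ y u) (hasFDerivAt_shiftZ u).continuousAt⟩

lemma exists_wgt_bound (z : Matrix n n ℂ) (r : ℝ) {a : ℝ} (ha : 1 ≤ a) : ∃ K, 0 ≤ K ∧ ∀ w ∈ (domZC : Set (Matrix n n ℂ)),
    w ∈ Metric.closedBall z r → ∀ u ∈ Ioc (0 : ℝ) a, ‖wZ (shiftZ w u)‖ ≤ K / u := by
  set R := ‖z‖ + |r|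
  set c := (1 + (‖partBL (n := n)‖ + ‖partEL (n := n)‖) * R)
  have hc : 0 ≤ c := by positivity
  refine ⟨(Fintype.card n : ℝ) * (8 * c + 4 * a) / Real.pi, by positivity, fun w hw hwb u hu => ?_⟩
  have hR : ‖w‖ ≤ R := by
    rw [Metric.mem_closedBall, dist_eq_norm] at hwb
    linarith [norm_le_norm_sub_add w z, le_abs_self r]
  have hB : ‖partB w‖ ≤ ‖partBL (n := n)‖ * R :=
    ((partBL (n := n)).le_opNorm w).trans (mul_le_mul_of_nonneg_left hR (norm_nonneg _))
  have hE : ‖partE w‖ ≤ ‖partEL (n := n)‖ * R :=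
    ((partEL (n := n)).le_opNorm w).trans (mul_le_mul_of_nonneg_left hR (norm_nonneg _))
  have h := norm_wgt_le hw hu.1
  rw [← wZ_shiftZ] at h
  rw [div_div, le_div_iff₀ (mul_pos Real.pi_pos hu.1)]
  calc ‖wZ (shiftZ w u)‖ * (Real.pi * u) = Real.pi * ‖wZ (shiftZ w u)‖ * u := by ring
    _ ≤ (Fintype.card n : ℝ) * (8 * (1 + ‖partB w‖ + ‖partE w‖) / u + 4) * u := mul_le_mul_of_nonneg_right h hu.1.le
    _ = (Fintype.card n : ℝ) * (8 * (1 + ‖partB w‖ + ‖partE w‖) + 4 * u) := by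
        have := hu.1.ne'
        field_simp
    _ ≤ _ := mul_le_mul_of_nonneg_left (by simp only [c]; nlinarith [hu.2]) (Nat.cast_nonneg _)

/-- The weight integral on the closed cone. -/
theorem weightI_closed (hν : 1 / 2 < ν) (hν1 : ν < 1) (hz : z ∈ domZC) :
    IntegrableOn (fun u => u ^ (ν - 1 / 2) • ((Real.sqrt u)⁻¹ • (1 : Matrix n n ℂ) + -wZ (shiftZ z u))) (Ioi 0) ∧
      ContinuousWithinAt (weightI ν) domZC z := by
  refine continuity_core hν hν1 (f := fun w u => (Real.sqrt u)⁻¹ • (1 : Matrix n n ℂ) + -wZ (shiftZ w u)) hz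
    one_pos (fun w hw u hu => ?_) (fun a ha => ?_) ?_
  · obtain ⟨h1, h2⟩ := continuity_shift hw (fun v hv => (contDiffAt_wZ (k := 2) (by norm_num) hv).continuousAt) hu
    exact ⟨((Real.continuous_sqrt.continuousAt.inv₀ (Real.sqrt_pos.2 hu).ne').smul continuousAt_const).add h1.neg,
      continuousAt_const.add h2.neg⟩
  · obtain ⟨K, -, hK⟩ := exists_wgt_bound z 1 ha
    refine ⟨a + K, fun w hw u hu => (norm_add_le _ _).trans ?_⟩
    rw [norm_neg, norm_smul, Real.norm_of_nonneg (inv_nonneg.2 (Real.sqrt_nonneg u)), add_div]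
    refine add_le_add ((mul_le_of_le_one_right (by positivity) norm_one_matrix_le).trans ?_) (hK w hw.1 hw.2 u hu)
    have hq := Real.sqrt_pos.2 hu.1
    rw [← one_div, div_le_div_iff₀ hq hu.1]
    nlinarith [Real.mul_self_sqrt hu.1.le, hu.2]
  · obtain ⟨C, hC⟩ := exists_value_le (n := n) (‖z‖ + 1)
    refine ⟨C, hC.mono fun u hu w hw => (hu w ?_).1⟩
    have := hw.2
    rw [Metric.mem_closedBall, dist_eq_norm] at this
    linarith [norm_le_norm_sub_add w z]

lemma norm_gOf_le {A W : Matrix n n ℂ} :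
    ‖gOf A W‖ ≤ ‖A⁻¹‖ * ‖W‖ + ‖A⁻¹‖ * ‖A⁻¹‖ := by
  rw [gOf]
  refine (norm_add_le _ _).trans (add_le_add ?_ ?_)
  · rw [norm_smul]
    exact (mul_le_of_le_one_left (norm_nonneg _) (by simp; norm_num)).trans (norm_mul_le _ _)
  · rw [norm_smul]
    refine (mul_le_of_le_one_left (norm_nonneg _) (by simp; norm_num)).trans ((norm_mul_le _ _).trans ?_)
    rw [Matrix.l2_opNorm_conjTranspose]

/-- The multiplier integral on the closed cone with positive constant coefficient. -/
theorem multI_closed (hν : 1 / 2 < ν) (hν1 : ν < 1) (hz : z ∈ domZP) :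
    IntegrableOn (fun u => u ^ (ν - 1 / 2) • (0 + gZ (shiftZ z u))) (Ioi 0) ∧
      ContinuousWithinAt (multI ν) domZP z := by
  have : ProperSpace (Matrix n n ℂ) := FiniteDimensional.proper ℂ _
  have hpe : ∀ᶠ w in 𝓝 z, (partE w).PosDef :=
    (((partEL (n := n)).continuous.tendsto z).eventually (eventually_posDef hz.2)).mono
      fun w hw => hw (isHermitian_parts w).2
  obtain ⟨r, hr, hball⟩ := Metric.nhds_basis_closedBall.mem_iff.1 hpe
  refine continuity_core hν hν1 (f := fun w u => 0 + gZ (shiftZ w u)) hz hr (fun w hw u hu => ?_)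
    (fun a ha => ?_) ?_
  · simp only [zero_add]
    exact continuity_shift hw.1 (fun v hv => (contDiffAt_gZ (k := 2) (by norm_num) hv).continuousAt) hu
  · obtain ⟨K, hK0, hK⟩ := exists_wgt_bound z r ha
    have hcinv : ContinuousOn (fun p : Matrix n n ℂ × ℝ => (partE p.1 + (p.2 : ℂ) • (1 : Matrix n n ℂ))⁻¹)
        (Metric.closedBall z r ×ˢ Icc 0 a) := fun p hp => by
      have hp2 : (0 : ℂ) ≤ (p.2 : ℂ) := Complex.zero_le_real.2 hp.2.1
      have hu : IsUnit (partE p.1 + (p.2 : ℂ) • (1 : Matrix n n ℂ)) :=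
        ((show (partE p.1).PosDef from hball hp.1).add_posSemidef (Matrix.PosSemidef.one.smul hp2)).isUnit
      exact ((contDiffAt_inv (k := 1) hu).continuousAt.comp (x := p)
        (f := fun q : Matrix n n ℂ × ℝ => partE q.1 + (q.2 : ℂ) • (1 : Matrix n n ℂ))
        (((partEL (n := n)).continuous.comp continuous_fst).add
          ((Complex.continuous_ofReal.comp continuous_snd).smul continuous_const)).continuousAt).continuousWithinAt
    obtain ⟨M, hM⟩ := ((isCompact_closedBall z r).prod isCompact_Icc).exists_bound_of_continuousOn hcinv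
    have hM0 : 0 ≤ M := (norm_nonneg _).trans
      (hM (z, 0) ⟨Metric.mem_closedBall_self hr.le, le_rfl, zero_le_one.trans ha⟩)
    refine ⟨Real.sqrt M * K + M * a, fun w hw u hu => ?_⟩
    set A := rootZ (shiftZ w u)
    have hd := shiftZ_mem' hw.1.1 hu.1
    have hAA : A⁻¹ * (A⁻¹)ᴴ = (partE w + (u : ℂ) • (1 : Matrix n n ℂ))⁻¹ := by
      obtain ⟨-, -, h2⟩ := root_spec hd
      rw [Matrix.conjTranspose_nonsing_inv, ← Matrix.mul_inv_rev, show Aᴴ * A = partE (shiftZ w u) from h2,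
        (parts_shiftZ w u).2]
    have hn : ‖A⁻¹‖ * ‖A⁻¹‖ ≤ M := by
      rw [← CStarRing.norm_self_mul_star, Matrix.star_eq_conjTranspose, hAA]
      exact hM (w, u) ⟨hw.2, hu.1.le, hu.2⟩
    have hn' : ‖A⁻¹‖ ≤ Real.sqrt M := by
      rw [← Real.sqrt_mul_self (norm_nonneg A⁻¹)]
      exact Real.sqrt_le_sqrt hn
    rw [zero_add, gZ, add_div]
    refine norm_gOf_le.trans (add_le_add ?_ ?_)
    · rw [mul_div_assoc]
      exact mul_le_mul hn' (hK w hw.1.1 hw.2 u hu) (norm_nonneg _) (Real.sqrt_nonneg M)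
    · refine hn.trans ((le_div_iff₀ hu.1).2 (mul_le_mul_of_nonneg_left hu.2 hM0))
  · obtain ⟨C, hC⟩ := exists_value_le (n := n) (‖z‖ + r)
    refine ⟨C, hC.mono fun u hu w hw => ?_⟩
    rw [zero_add]
    refine (hu w ?_).2
    have := hw.2
    rw [Metric.mem_closedBall, dist_eq_norm] at this
    linarith [norm_le_norm_sub_add w z]

/-- The fractional weight is continuous on the closed cone. -/
theorem continuousOn_XiZ (hν : 1 / 2 < ν) (hν1 : ν < 1) :
    ContinuousOn (XiZ ν) (domZC : Set (Matrix n n ℂ)) := fun _ hz =>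
  (weightI_closed hν hν1 hz).2.const_smul (scal ν)⁻¹

/-- The fractional multiplier is continuous on the closed cone with `E > 0`. -/
theorem continuousOn_GeZ (hν : 1 / 2 < ν) (hν1 : ν < 1) :
    ContinuousOn (GeZ ν) (domZP : Set (Matrix n n ℂ)) := fun _ hz =>
  (multI_closed hν hν1 hz).2.const_smul (scal ν)⁻¹

/-- The potential is continuous on the closed cone with `E > 0`. -/
theorem continuousOn_Phi (hν : 1 / 2 < ν) (hν1 : ν < 1) :
    ContinuousOn (Phi ν) (domZP : Set (Matrix n n ℂ)) := by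
  have h1 : ContinuousOn (XiZ ν) (domZP : Set (Matrix n n ℂ)) := (continuousOn_XiZ hν hν1).mono fun z hz => hz.1
  unfold Phi
  refine ((Complex.continuous_re.comp_continuousOn (continuous_id.matrix_trace.comp_continuousOn
    (h1.mul (partBL (n := n)).continuous.continuousOn))).add
    (continuousOn_const.mul (Complex.continuous_re.comp_continuousOn (continuous_id.matrix_trace.comp_continuousOn
      ((continuousOn_GeZ hν hν1).mul (partEL (n := n)).continuous.continuousOn))))).div_const _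

/-- The differential is jointly continuous on the closed cone with `E > 0`. -/
theorem continuousOn_dPhi (hν : 1 / 2 < ν) (hν1 : ν < 1) :
    ContinuousOn (fun p : Matrix n n ℂ × Matrix n n ℂ => dPhi ν p.1 p.2) (domZP ×ˢ univ) := by
  have h1 : ContinuousOn (fun p : Matrix n n ℂ × Matrix n n ℂ => XiZ ν p.1) (domZP ×ˢ univ) :=
    (continuousOn_XiZ hν hν1).comp continuousOn_fst fun p hp => hp.1.1
  have h2 : ContinuousOn (fun p : Matrix n n ℂ × Matrix n n ℂ => GeZ ν p.1) (domZP ×ˢ univ) :=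
    (continuousOn_GeZ hν hν1).comp continuousOn_fst fun p hp => hp.1
  have h3 : ContinuousOn (fun p : Matrix n n ℂ × Matrix n n ℂ => partB p.2) (domZP ×ˢ univ) :=
    ((partBL (n := n)).continuous.comp continuous_snd).continuousOn
  have h4 : ContinuousOn (fun p : Matrix n n ℂ × Matrix n n ℂ => partE p.2) (domZP ×ˢ univ) :=
    ((partEL (n := n)).continuous.comp continuous_snd).continuousOn
  have ht : Continuous fun X : Matrix n n ℂ => X.trace.re := Complex.continuous_re.comp continuous_id.matrix_trace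
  refine ((ht.comp_continuousOn (h1.mul h3)).add (ht.comp_continuousOn (h2.mul h4))).congr fun p _ => ?_
  exact dPhi_apply p.1 p.2

lemma limit_integral {F : ℝ → ℝ → ℝ} {g : ℝ → ℝ} {a b : ℝ} (hab : a ≤ b)
    (hF : ContinuousOn (fun p : ℝ × ℝ => F p.1 p.2) (Icc 0 1 ×ˢ Icc a b))
    (hg : ContinuousWithinAt g (Icc 0 1) 0) (he : ∀ ε, 0 < ε → ε ≤ 1 → g ε = ∫ t in a..b, F ε t) :
    g 0 = ∫ t in a..b, F 0 t := by
  obtain ⟨K, hK⟩ := (isCompact_Icc.prod isCompact_Icc).exists_bound_of_continuousOn hF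
  have hr : ContinuousWithinAt (fun ε => ∫ t in a..b, F ε t) (Icc 0 1) 0 := by
    refine intervalIntegral.continuousWithinAt_of_dominated_interval (bound := fun _ => K) ?_ ?_
      intervalIntegrable_const ?_
    · filter_upwards [self_mem_nhdsWithin] with ε hε
      rw [uIoc_of_le hab]
      exact ((hF.comp (continuousOn_const.prodMk continuousOn_id) fun t ht => ⟨hε, ht⟩).mono
        Ioc_subset_Icc_self).aestronglyMeasurable measurableSet_Ioc
    · filter_upwards [self_mem_nhdsWithin] with ε hε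
      refine Eventually.of_forall fun t ht => ?_
      rw [uIoc_of_le hab] at ht
      exact hK (ε, t) ⟨hε, Ioc_subset_Icc_self ht⟩
    · refine Eventually.of_forall fun t ht => ?_
      rw [uIoc_of_le hab] at ht
      exact (hF.comp (continuousOn_id.prodMk continuousOn_const) fun ε hε => ⟨hε, Ioc_subset_Icc_self ht⟩) 0
        ⟨le_rfl, zero_le_one⟩
  have h0 : (0 : ℝ) ∈ closure (Ioc (0 : ℝ) 1) := by rw [closure_Ioc zero_ne_one]; exact ⟨le_rfl, zero_le_one⟩
  have : (𝓝[Ioc (0 : ℝ) 1] (0 : ℝ)).NeBot := mem_closure_iff_nhdsWithin_neBot.1 h0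
  exact tendsto_nhds_unique
    ((hg.mono Ioc_subset_Icc_self).tendsto.congr'
      (eventually_nhdsWithin_of_forall fun ε hε => he ε hε.1 hε.2))
    ((hr.mono Ioc_subset_Icc_self).tendsto)

lemma shift_mem_domZP (hz : z ∈ domZP) {ε : ℝ} (hε : 0 ≤ ε) : shiftZ z ε ∈ domZP := by
  rcases hε.eq_or_lt with rfl | hε
  · simpa [shiftZ] using hz
  · exact domZ_subset_domZP (shiftZ_mem' hz.1 hε)

lemma continuousWithinAt_Phi_shift (hν : 1 / 2 < ν) (hν1 : ν < 1) (hz : z ∈ domZP) :
    ContinuousWithinAt (fun ε => Phi ν (shiftZ z ε)) (Icc 0 1) 0 := by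
  have hc : Continuous fun ε : ℝ => shiftZ z ε := continuous_const.add (continuous_id.smul continuous_const)
  exact ContinuousWithinAt.comp (g := Phi ν) (f := fun ε : ℝ => shiftZ z ε) (t := domZP)
    (continuousOn_Phi hν hν1 _ (shift_mem_domZP hz le_rfl)) hc.continuousWithinAt
    fun ε hε => shift_mem_domZP hz hε.1

lemma continuousOn_dPhi_comp (hν : 1 / 2 < ν) (hν1 : ν < 1) {c c' : ℝ → Matrix n n ℂ} {a b : ℝ}
    (hc : ContinuousOn c (Icc a b)) (hc' : ContinuousOn c' (Icc a b)) (hmem : ∀ t ∈ Icc a b, c t ∈ domZP) :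
    ContinuousOn (fun p : ℝ × ℝ => dPhi ν (shiftZ (c p.2) p.1) (c' p.2)) (Icc 0 1 ×ˢ Icc a b) := by
  have hm : ContinuousOn (fun p : ℝ × ℝ => shiftZ (c p.2) p.1) (Icc 0 1 ×ˢ Icc a b) :=
    (hc.comp continuousOn_snd fun p hp => hp.2).add (continuousOn_fst.smul continuousOn_const)
  have hk : ContinuousOn (fun p : ℝ × ℝ => c' p.2) (Icc 0 1 ×ˢ Icc a b) :=
    hc'.comp continuousOn_snd fun p hp => hp.2
  exact ContinuousOn.comp (g := fun q : Matrix n n ℂ × Matrix n n ℂ => dPhi ν q.1 q.2)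
    (f := fun p : ℝ × ℝ => (shiftZ (c p.2) p.1, c' p.2)) (continuousOn_dPhi hν hν1) (hm.prodMk hk)
    fun p hp => ⟨shift_mem_domZP (hmem p.2 hp.2) hp.1.1, trivial⟩

/-- The differential persists along curves in the closed cone. -/
theorem Phi_sub_eq_integral (hν : 1 / 2 < ν) (hν1 : ν < 1) {c c' : ℝ → Matrix n n ℂ} {a b : ℝ} (hab : a ≤ b)
    (hc : ∀ t ∈ Icc a b, HasDerivAt c (c' t) t) (hc' : ContinuousOn c' (Icc a b))
    (hmem : ∀ t ∈ Icc a b, c t ∈ domZP) :
    Phi ν (c b) - Phi ν (c a) = ∫ t in a..b, dPhi ν (c t) (c' t) := by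
  have hcc : ContinuousOn c (Icc a b) := fun t ht => (hc t ht).continuousAt.continuousWithinAt
  have hF := continuousOn_dPhi_comp hν hν1 hcc hc' hmem
  have hg : ContinuousWithinAt (fun ε => Phi ν (shiftZ (c b) ε) - Phi ν (shiftZ (c a) ε)) (Icc 0 1) 0 :=
    (continuousWithinAt_Phi_shift hν hν1 (hmem b (right_mem_Icc.2 hab))).sub
      (continuousWithinAt_Phi_shift hν hν1 (hmem a (left_mem_Icc.2 hab)))
  have he : ∀ ε, 0 < ε → ε ≤ 1 → Phi ν (shiftZ (c b) ε) - Phi ν (shiftZ (c a) ε) =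
      ∫ t in a..b, dPhi ν (shiftZ (c t) ε) (c' t) := fun ε hε hε1 => by
    have hd : ∀ t ∈ uIcc a b, HasDerivAt (fun t => Phi ν (shiftZ (c t) ε))
        (dPhi ν (shiftZ (c t) ε) (c' t)) t := fun t ht => by
      rw [uIcc_of_le hab] at ht
      have hsh : HasDerivAt (fun t => shiftZ (c t) ε) (c' t) t := (hc t ht).add_const _
      exact HasFDerivAt.comp_hasDerivAt t (hasFDerivAt_Phi (by linarith) hν1 (shiftZ_mem' (hmem t ht).1 hε)) hsh
    refine (intervalIntegral.integral_eq_sub_of_hasDerivAt hd (ContinuousOn.intervalIntegrable ?_)).symm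
    rw [uIcc_of_le hab]
    exact ContinuousOn.comp (g := fun p : ℝ × ℝ => dPhi ν (shiftZ (c p.2) p.1) (c' p.2))
      (f := fun t => (ε, t)) hF (continuousOn_const.prodMk continuousOn_id) fun t ht => ⟨⟨hε.le, hε1⟩, ht⟩
  have h := limit_integral (F := fun ε t => dPhi ν (shiftZ (c t) ε) (c' t)) hab hF hg he
  simpa [shiftZ] using h

end Vale.Agent.P371.Pencil
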