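import Vale.Agent.P371.Pencil.Closed

/-!
P371, pencils: commuting pencils, concavity of the fractional weight and the end values of `Φ`.
-/

namespace Vale.Agent.P371.Pencil

open Matrix Complex MeasureTheory Filter Set
open scoped ComplexOrder Matrix.Norms.L2Operator Topology

variable {n : Type} [Fintype n] [DecidableEq n] {B B' E E' U : Matrix n n ℂ} {ν : ℝ}

omit [DecidableEq n] in
lemma qf_sub (X Y : Matrix n n ℂ) (v : n → ℂ) : qf (X - Y) v = qf X v - qf Y v := by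
  simp [qf, Matrix.sub_mulVec]

/-- The scalar weight integral. -/
theorem integral_scalar_weight (hν : 0 < ν) (hν1 : ν < 1) {m : ℝ} (hm : 0 ≤ m) :
    ∫ u in Ioi (0 : ℝ), u ^ (ν - 1 / 2) * ((Real.sqrt u)⁻¹ - (Real.sqrt (u + m))⁻¹) = m ^ ν * scal ν := by
  rcases hm.eq_or_lt with rfl | hm
  · simp [Real.zero_rpow hν.ne']
  set g : ℝ → ℝ := fun u => u ^ (ν - 1 / 2) * ((Real.sqrt u)⁻¹ - (Real.sqrt (u + m))⁻¹)
  have e : EqOn (fun v => g (m * v)) (fun v => m ^ (ν - 1) * (v ^ (ν - 1 / 2) * invGap v)) (Ioi 0) := fun v hv => by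
    have hv' : (0 : ℝ) < v := hv
    have hs := Real.sqrt_pos.2 hm
    simp only [g, invGap]
    rw [Real.mul_rpow hm.le hv'.le, show m * v + m = m * (v + 1) by ring, Real.sqrt_mul hm.le,
      Real.sqrt_mul hm.le, show m ^ (ν - 1) = m ^ (ν - 1 / 2) * (Real.sqrt m)⁻¹ by
        rw [← rpow_neg_half hm, ← Real.rpow_add hm]; ring_nf, mul_inv, mul_inv]
    ring
  have h2 := integral_comp_mul_left_Ioi g 0 hm
  rw [mul_zero, setIntegral_congr_fun measurableSet_Ioi e, integral_const_mul, smul_eq_mul] at h2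
  show ∫ u in Ioi (0 : ℝ), g u = _
  rw [scal, show m ^ ν = m * m ^ (ν - 1) by rw [mul_comm, ← Real.rpow_add_one hm.ne']; ring_nf, mul_assoc, h2,
    ← mul_assoc, mul_inv_cancel₀ hm.ne', one_mul]

/-- Complex diagonal matrix of a real vector. -/
noncomputable def dg (b : n → ℝ) : Matrix n n ℂ := diagonal fun i => (b i : ℂ)

omit [Fintype n] in
lemma isHermitian_dg (b : n → ℝ) : (dg b).IsHermitian :=
  Matrix.isHermitian_diagonal_iff.2 fun i => by simp [IsSelfAdjoint]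

omit [Fintype n] in
lemma pencil_dg (b e : n → ℝ) (t : ℝ) : pencil (dg b) (dg e) t = dg fun i => t ^ 2 - 2 * t * b i + e i := by
  rw [pencil, dg, dg, dg, ← diagonal_one, ← diagonal_smul, ← diagonal_smul, diagonal_sub, diagonal_add]
  congr 1
  funext i
  simp

lemma root_dg (b e : n → ℝ) (h : ∀ i, b i ^ 2 < e i) :
    root (dg b) (dg e) = diagonal (fun i => (b i : ℂ) + I * Real.sqrt (e i - b i ^ 2)) ∧
      lyapSol (root (dg b) (dg e)) = dg fun i => (Real.sqrt (e i - b i ^ 2))⁻¹ := by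
  set q := fun i => Real.sqrt (e i - b i ^ 2)
  have hq : ∀ i, 0 < q i := fun i => Real.sqrt_pos.2 (by linarith [h i])
  set A : Matrix n n ℂ := diagonal fun i => (b i : ℂ) + I * q i
  have hW : (dg fun i => (q i)⁻¹).PosDef :=
    Matrix.posDef_diagonal_iff.2 fun i => Complex.zero_lt_real.2 (inv_pos.2 (hq i))
  have el : lyap A (dg fun i => (q i)⁻¹) = (2 * I) • 1 := by
    rw [lyap, dg, diagonal_conjTranspose, diagonal_mul_diagonal, diagonal_mul_diagonal, diagonal_sub,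
      ← diagonal_one, ← diagonal_smul]
    congr 1
    funext i
    simp only [Pi.star_apply, Pi.smul_apply, smul_eq_mul, mul_one, Complex.star_def, map_add, map_mul,
      Complex.conj_ofReal, Complex.conj_I]
    have : (q i : ℂ) ≠ 0 := by exact_mod_cast (hq i).ne'
    push_cast
    field_simp
    ring
  have hA : Stable A := ⟨_, hW, el⟩
  have hr : root (dg b) (dg e) = A := by
    refine root_eq (isHermitian_dg b) (isHermitian_dg e) hA ?_ ?_
    · rw [diagonal_conjTranspose, diagonal_add, dg, ← diagonal_smul]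
      congr 1
      funext i
      simp
      ring
    · rw [diagonal_conjTranspose, diagonal_mul_diagonal, dg]
      congr 1
      funext i
      have hsq : (q i : ℂ) * q i = (e i : ℂ) - (b i : ℂ) ^ 2 := by
        rw [← Complex.ofReal_mul, Real.mul_self_sqrt (by linarith [h i])]; push_cast; rfl
      simp only [Pi.star_apply, Complex.star_def, map_add, map_mul, Complex.conj_ofReal, Complex.conj_I]
      linear_combination -(q i : ℂ) * q i * I_sq + hsq
  refine ⟨hr, ?_⟩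
  rw [hr]
  exact hA.lyap_inj ((lyapSol_spec hA.isUnit_lyapL).trans el.symm)

omit [Fintype n] in
lemma shiftE_dg (e : n → ℝ) (u : ℝ) : shiftE (dg e) u = dg fun i => e i + u := by
  rw [shiftE, dg, dg, ← diagonal_one, ← diagonal_smul, diagonal_add]
  congr 1
  funext i
  simp

lemma wgt_dg (b e : n → ℝ) (h : ∀ i, b i ^ 2 ≤ e i) {u : ℝ} (hu : 0 < u) :
    wgt (dg b) (dg e) u = dg fun i => (Real.sqrt (u + (e i - b i ^ 2)))⁻¹ := by
  rw [wgt, rootAt, shiftE_dg, (root_dg b (fun i => e i + u) fun i => by linarith [h i]).2]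
  congr 1
  funext i
  ring_nf

lemma domC_dg (b e : n → ℝ) (h : ∀ i, b i ^ 2 ≤ e i) : DomC (dg b) (dg e) := by
  refine ⟨isHermitian_dg b, isHermitian_dg e, fun t => ?_⟩
  rw [pencil_dg]
  exact Matrix.posSemidef_diagonal_iff.2 fun i => Complex.zero_le_real.2 (by nlinarith [sq_nonneg (t - b i), h i])

/-- A unitary change of basis. -/
lemma root_conj (h : Dom B E) (hU : U * Uᴴ = 1) :
    Dom (U * B * Uᴴ) (U * E * Uᴴ) ∧ root (U * B * Uᴴ) (U * E * Uᴴ) = U * root B E * Uᴴ ∧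
      lyapSol (root (U * B * Uᴴ) (U * E * Uᴴ)) = U * lyapSol (root B E) * Uᴴ := by
  have hU' : Uᴴ * U = 1 := mul_eq_one_comm.1 hU
  have hm : ∀ X Y : Matrix n n ℂ, U * X * Uᴴ * (U * Y * Uᴴ) = U * (X * Y) * Uᴴ := fun X Y => by
    rw [show U * X * Uᴴ * (U * Y * Uᴴ) = U * X * (Uᴴ * U) * Y * Uᴴ by simp only [Matrix.mul_assoc], hU',
      mul_one]
    simp only [Matrix.mul_assoc]
  have hc : ∀ X : Matrix n n ℂ, (U * X * Uᴴ)ᴴ = U * Xᴴ * Uᴴ := fun X => by
    rw [conjTranspose_mul, conjTranspose_mul, conjTranspose_conjTranspose, Matrix.mul_assoc]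
  obtain ⟨hs, h1, h2⟩ := root_spec h
  have hinj : Function.Injective U.vecMul ∧ Function.Injective Uᴴ.mulVec :=
    ⟨fun v w e => by simpa [Matrix.vecMul_vecMul, hU] using congrArg (fun x => x ᵥ* Uᴴ) e,
      fun v w e => by simpa [Matrix.mulVec_mulVec, hU] using congrArg (fun x => U *ᵥ x) e⟩
  have el : lyap (U * root B E * Uᴴ) (U * lyapSol (root B E) * Uᴴ) = (2 * I) • 1 := by
    rw [lyap, hc, hm, hm, ← Matrix.sub_mul, ← Matrix.mul_sub, ← lyap.eq_1, lyapSol_spec hs.isUnit_lyapL,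
      Matrix.mul_smul, mul_one, Matrix.smul_mul, hU]
  have hst : Stable (U * root B E * Uᴴ) :=
    ⟨_, hs.lyapSol_posDef.mul_mul_conjTranspose_same hinj.1, el⟩
  have hBh : (U * B * Uᴴ).IsHermitian := by show _ = _; rw [hc, h.hermB.eq]
  have hEh : (U * E * Uᴴ).IsHermitian := by show _ = _; rw [hc, h.hermE.eq]
  have e1 : U * root B E * Uᴴ + (U * root B E * Uᴴ)ᴴ = (2 : ℂ) • (U * B * Uᴴ) := by
    rw [hc, ← Matrix.add_mul, ← Matrix.mul_add, h1, Matrix.mul_smul, Matrix.smul_mul]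
  have e2 : (U * root B E * Uᴴ)ᴴ * (U * root B E * Uᴴ) = U * E * Uᴴ := by rw [hc, hm, h2]
  have hr := root_eq hBh hEh hst e1 e2
  refine ⟨hst.dom hBh hEh e1 e2, hr, ?_⟩
  rw [hr]
  exact hst.lyap_inj ((lyapSol_spec hst.isUnit_lyapL).trans el.symm)

lemma domC_conj (h : DomC B E) (hU : U * Uᴴ = 1) : DomC (U * B * Uᴴ) (U * E * Uᴴ) := by
  refine ⟨Matrix.isHermitian_mul_mul_conjTranspose U h.hermB, Matrix.isHermitian_mul_mul_conjTranspose U h.hermE,
    fun t => ?_⟩
  have e : pencil (U * B * Uᴴ) (U * E * Uᴴ) t = U * pencil B E t * Uᴴ := by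
    simp only [pencil, Matrix.mul_add, Matrix.mul_sub, Matrix.add_mul, Matrix.sub_mul, Matrix.mul_smul,
      Matrix.smul_mul, mul_one, hU]
  rw [e]
  exact (h.nonneg t).mul_mul_conjTranspose_same U

lemma shiftE_conj (hU : U * Uᴴ = 1) (u : ℝ) : shiftE (U * E * Uᴴ) u = U * shiftE E u * Uᴴ := by
  rw [shiftE, shiftE, Matrix.mul_add, Matrix.add_mul, Matrix.mul_smul, mul_one, Matrix.smul_mul, hU]

lemma integrableOn_kern_closed (hν : 1 / 2 < ν) (hν1 : ν < 1) (h : DomC B E) :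
    IntegrableOn (kern ν B E) (Ioi 0) := by
  have hp := parts_eq h.hermB h.hermE
  have hz : ((2 : ℂ) • B + I • E) ∈ (domZC : Set (Matrix n n ℂ)) := by
    show DomC (partB _) (partE _)
    rwa [hp.1, hp.2]
  have hi := (weightI_closed hν hν1 hz).1
  simp only [weightInt_eq, hp.1, hp.2] at hi
  exact hi

lemma qf_Xi (hν : 1 / 2 < ν) (hν1 : ν < 1) (h : DomC B E) (v : n → ℂ) :
    IntegrableOn (fun u => u ^ (ν - 1 / 2) * (sqLen v / Real.sqrt u - qf (wgt B E u) v)) (Ioi 0) ∧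
      qf (Xi ν B E) v =
        (scal ν)⁻¹ * ∫ u in Ioi (0 : ℝ), u ^ (ν - 1 / 2) * (sqLen v / Real.sqrt u - qf (wgt B E u) v) := by
  set L : Matrix n n ℂ →L[ℝ] ℝ := LinearMap.toContinuousLinearMap
    { toFun := fun X => qf X v, map_add' := fun X Y => qf_add X Y v, map_smul' := fun r X => qf_smul r X v }
  have e : ∀ u, L (kern ν B E u) = u ^ (ν - 1 / 2) * (sqLen v / Real.sqrt u - qf (wgt B E u) v) := fun u => by
    show qf (kern ν B E u) v = _
    rw [kern, qf_smul, qf_sub, ← Complex.ofReal_inv, qf_ofReal_one, div_eq_inv_mul (sqLen v)]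
  have hi := integrableOn_kern_closed hν hν1 h
  refine ⟨?_, ?_⟩
  · have := L.integrable_comp hi
    simp only [e] at this
    exact this
  show L (Xi ν B E) = _
  rw [Xi, map_smul, smul_eq_mul, ← L.integral_comp_comm hi]
  simp only [e]

/-- The fractional weight is jointly operator concave on the closed cone. -/
theorem qf_Xi_concave (hν : 1 / 2 < ν) (hν1 : ν < 1) (h : DomC B E) (h' : DomC B' E') {θ : ℝ} (h0 : 0 ≤ θ)
    (h1 : θ ≤ 1) (v : n → ℂ) :
    DomC (θ • B + (1 - θ) • B') (θ • E + (1 - θ) • E') ∧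
      θ * qf (Xi ν B E) v + (1 - θ) * qf (Xi ν B' E') v ≤
        qf (Xi ν (θ • B + (1 - θ) • B') (θ • E + (1 - θ) • E')) v := by
  have hm : DomC (θ • B + (1 - θ) • B') (θ • E + (1 - θ) • E') := by
    refine ⟨?_, ?_, fun t => ?_⟩
    · exact ((IsSelfAdjoint.all θ).smul h.hermB).add ((IsSelfAdjoint.all (1 - θ)).smul h'.hermB)
    · exact ((IsSelfAdjoint.all θ).smul h.hermE).add ((IsSelfAdjoint.all (1 - θ)).smul h'.hermE)
    · rw [pencil_combo]
      exact ((h.nonneg t).smul h0).add ((h'.nonneg t).smul (sub_nonneg.2 h1))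
  refine ⟨hm, ?_⟩
  obtain ⟨i1, e1⟩ := qf_Xi hν hν1 h v
  obtain ⟨i2, e2⟩ := qf_Xi hν hν1 h' v
  obtain ⟨i3, e3⟩ := qf_Xi hν hν1 hm v
  rw [e1, e2, e3, mul_left_comm θ, mul_left_comm (1 - θ), ← mul_add, ← integral_const_mul, ← integral_const_mul,
    ← integral_add (i1.const_mul θ) (i2.const_mul (1 - θ))]
  refine mul_le_mul_of_nonneg_left (setIntegral_mono_on ((i1.const_mul θ).add (i2.const_mul (1 - θ))) i3
    measurableSet_Ioi fun u hu => ?_) (inv_pos.2 (scal_pos (by linarith) hν1)).le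
  have hu0 : (0 : ℝ) < u := hu
  have hs : shiftE (θ • E + (1 - θ) • E') u = θ • shiftE E u + (1 - θ) • shiftE E' u := by
    simp only [shiftE, ← Complex.coe_smul, Complex.ofReal_sub, Complex.ofReal_one]
    module
  have hd := hm.shift hu0
  rw [hs] at hd
  have hc := qf_lyapSol_convex (h.shift hu0) (h'.shift hu0) h0 h1 hd v
  rw [← hs] at hc
  have hp := Real.rpow_nonneg hu0.le (ν - 1 / 2)
  have hc' := mul_le_mul_of_nonneg_left hc hp
  simp only [wgt, rootAt]
  nlinarith [hc']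

/-- The fractional weight is even in the linear coefficient. -/
theorem qf_Xi_neg (hν : 1 / 2 < ν) (hν1 : ν < 1) (h : DomC B E) (v : n → ℂ) :
    DomC (-B) E ∧ qf (Xi ν (-B) E) v = qf (Xi ν B E) v := by
  have h' : DomC (-B) E := ⟨h.hermB.neg, h.hermE, fun t => by
    rw [show pencil (-B) E t = pencil B E (-t) by simp only [pencil, Complex.ofReal_neg]; module]
    exact h.nonneg (-t)⟩
  refine ⟨h', ?_⟩
  rw [(qf_Xi hν hν1 h' v).2, (qf_Xi hν hν1 h v).2]
  congr 1
  refine setIntegral_congr_fun measurableSet_Ioi fun u hu => ?_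
  simp only [wgt, rootAt, qf_lyapSol_neg (h.shift hu) (h'.shift hu) v]

/-- Removing the linear coefficient increases the fractional weight. -/
theorem qf_Xi_le_zero (hν : 1 / 2 < ν) (hν1 : ν < 1) (h : DomC B E) (v : n → ℂ) :
    qf (Xi ν B E) v ≤ qf (Xi ν 0 E) v := by
  obtain ⟨h', e⟩ := qf_Xi_neg hν hν1 h v
  obtain ⟨-, hc⟩ := qf_Xi_concave hν hν1 h h' (θ := 1 / 2) (by norm_num) (by norm_num) v
  rw [e, show (1 : ℝ) - 1 / 2 = 1 / 2 by norm_num, smul_neg, add_neg_cancel, ← add_smul,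
    show (1 / 2 : ℝ) + 1 / 2 = 1 by norm_num, one_smul] at hc
  linarith

/-- The fractional weight of a commuting pencil. -/
theorem Xi_conj_dg (hν : 1 / 2 < ν) (hν1 : ν < 1) (hU : U * Uᴴ = 1) (b e : n → ℝ) (h : ∀ i, b i ^ 2 ≤ e i) :
    Xi ν (U * dg b * Uᴴ) (U * dg e * Uᴴ) = U * dg (fun i => (e i - b i ^ 2) ^ ν) * Uᴴ := by
  set m := fun i => e i - b i ^ 2
  set k : n → ℝ → ℝ := fun i u => u ^ (ν - 1 / 2) * ((Real.sqrt u)⁻¹ - (Real.sqrt (u + m i))⁻¹)
  have hk : ∀ u ∈ Ioi (0 : ℝ), kern ν (U * dg b * Uᴴ) (U * dg e * Uᴴ) u = U * dg (fun i => k i u) * Uᴴ := by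
    intro u hu
    have hd := (domC_dg b e h).shift hu
    rw [kern, wgt, rootAt, shiftE_conj hU, (root_conj hd hU).2.2, ← rootAt.eq_1, ← wgt.eq_1,
      wgt_dg b e h hu, show ((Real.sqrt u)⁻¹ : ℂ) • (1 : Matrix n n ℂ) = U * (((Real.sqrt u)⁻¹ : ℂ) • 1) * Uᴴ by
        rw [Matrix.mul_smul, mul_one, Matrix.smul_mul, hU],
      ← Matrix.sub_mul, ← Matrix.mul_sub, ← Matrix.smul_mul, ← Matrix.mul_smul]
    congr 2
    rw [dg, dg, ← diagonal_one, ← diagonal_smul, diagonal_sub, ← Complex.coe_smul, ← diagonal_smul]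
    congr 1
    funext i
    simp [k, m]
  have hi := integrableOn_kern_closed hν hν1 (domC_conj (domC_dg b e h) hU)
  have hU' : Uᴴ * U = 1 := mul_eq_one_comm.1 hU
  set L : n → Matrix n n ℂ →L[ℝ] ℝ := fun i => LinearMap.toContinuousLinearMap
    { toFun := fun X => ((Uᴴ * X * U) i i).re
      map_add' := fun X Y => by simp [Matrix.mul_add, Matrix.add_mul]
      map_smul' := fun r X => by simp [Matrix.mul_smul] }
  have hLk : ∀ i, ∀ u ∈ Ioi (0 : ℝ), L i (kern ν (U * dg b * Uᴴ) (U * dg e * Uᴴ) u) = k i u := fun i u hu => by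
    show ((Uᴴ * kern ν (U * dg b * Uᴴ) (U * dg e * Uᴴ) u * U) i i).re = _
    rw [hk u hu, show Uᴴ * (U * dg (fun i => k i u) * Uᴴ) * U = (Uᴴ * U) * dg (fun i => k i u) * (Uᴴ * U) by
      simp only [Matrix.mul_assoc], hU', one_mul, mul_one, dg, diagonal_apply_eq, Complex.ofReal_re]
  have hki : ∀ i, IntegrableOn (k i) (Ioi 0) := fun i =>
    IntegrableOn.congr_fun ((L i).integrable_comp hi) (hLk i) measurableSet_Ioi
  have hint : IntegrableOn (fun u => ∑ i, k i u • (U * Matrix.single i i (1 : ℂ) * Uᴴ)) (Ioi 0) :=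
    integrable_finsetSum _ fun i _ => (hki i).smul_const _
  have es : ∀ f : n → ℝ, U * dg f * Uᴴ = ∑ i, f i • (U * Matrix.single i i (1 : ℂ) * Uᴴ) := fun f => by
    have e0 : dg f = ∑ i, f i • Matrix.single i i (1 : ℂ) := by
      ext a c
      by_cases hac : a = c
      · subst hac; simp [dg, Matrix.sum_apply, Matrix.single_apply]
      · simp only [dg, Matrix.sum_apply, Matrix.smul_apply, Matrix.single_apply, diagonal_apply_ne _ hac]
        refine (Finset.sum_eq_zero fun i _ => ?_).symm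
        rw [if_neg (fun h : i = a ∧ i = c => hac (h.1.symm.trans h.2)), smul_zero]
    rw [e0, Finset.mul_sum, Finset.sum_mul]
    simp only [Matrix.mul_smul, Matrix.smul_mul]
  rw [Xi, setIntegral_congr_fun measurableSet_Ioi hk]
  simp only [es]
  rw [integral_finsetSum _ (fun i _ => (hki i).smul_const _), Finset.smul_sum]
  refine Finset.sum_congr rfl fun i _ => ?_
  rw [integral_smul_const, smul_smul]
  congr 1
  rw [integral_scalar_weight (by linarith) hν1 (by simp only [m]; linarith [h i]), mul_comm,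
    mul_assoc, mul_inv_cancel₀ (scal_pos (by linarith) hν1).ne', mul_one]

lemma GeZ_zero_dg (hU : U * Uᴴ = 1) (e : n → ℝ) (h : ∀ i, 0 < e i) :
    GeZ ν ((2 : ℂ) • (0 : Matrix n n ℂ) + I • (U * dg e * Uᴴ)) = 0 := by
  have hU' : Uᴴ * U = 1 := mul_eq_one_comm.1 hU
  rw [GeZ, multI, setIntegral_congr_fun measurableSet_Ioi (g := fun _ => (0 : Matrix n n ℂ)) fun u hu => ?_]
  · simp
  have hu0 : (0 : ℝ) < u := hu
  set z : Matrix n n ℂ := (2 : ℂ) • (0 : Matrix n n ℂ) + I • (U * dg e * Uᴴ)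
  have hp := parts_eq (B := (0 : Matrix n n ℂ)) (E := U * dg e * Uᴴ) (by simp [Matrix.IsHermitian])
    (Matrix.isHermitian_mul_mul_conjTranspose U (isHermitian_dg e))
  set q := fun i => Real.sqrt (e i + u)
  have hq : ∀ i, (q i : ℂ) ≠ 0 := fun i => by exact_mod_cast (Real.sqrt_pos.2 (by linarith [h i] : 0 < e i + u)).ne'
  have h0 : dg (fun _ : n => (0 : ℝ)) = 0 := by simp [dg]
  have hd : Dom (dg fun _ : n => (0 : ℝ)) (dg fun i => e i + u) := by
    rw [← shiftE_dg]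
    exact (domC_dg _ e fun i => by nlinarith [h i]).shift hu0
  obtain ⟨r1, r2⟩ := root_dg (fun _ : n => (0 : ℝ)) (fun i => e i + u) fun i => by nlinarith [h i]
  obtain ⟨-, c1, c2⟩ := root_conj hd hU
  rw [h0, mul_zero, zero_mul] at c1 c2
  rw [h0] at r1 r2
  simp only [zero_pow two_ne_zero, sub_zero, Complex.ofReal_zero, zero_add] at r1 r2
  have eroot : rootZ (shiftZ z u) = U * diagonal (fun i => I * (q i : ℂ)) * Uᴴ := by
    rw [rootZ, (parts_shiftZ z u).1, (parts_shiftZ z u).2, hp.1, hp.2, ← shiftE.eq_1, shiftE_conj hU, shiftE_dg,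
      c1, r1]
  have ew : wZ (shiftZ z u) = U * dg (fun i => (q i)⁻¹) * Uᴴ := by
    rw [wZ_shiftZ, hp.1, hp.2, wgt, rootAt, shiftE_conj hU, shiftE_dg, c2, r2]
  have einv : (rootZ (shiftZ z u))⁻¹ = U * diagonal (fun i => -I * (q i : ℂ)⁻¹) * Uᴴ := by
    refine Matrix.inv_eq_right_inv ?_
    rw [eroot, show ∀ X Y : Matrix n n ℂ, U * X * Uᴴ * (U * Y * Uᴴ) = U * X * (Uᴴ * U) * Y * Uᴴ from
      fun X Y => by simp only [Matrix.mul_assoc], hU', mul_one, Matrix.mul_assoc U, diagonal_mul_diagonal,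
      show (fun i => I * (q i : ℂ) * (-I * (q i : ℂ)⁻¹)) = fun _ => (1 : ℂ) from funext fun i => by
        have := hq i
        field_simp
        linear_combination -I_sq, diagonal_one, mul_one, hU]
  show u ^ (ν - 1 / 2) • (0 + gZ (shiftZ z u)) = 0
  rw [zero_add, gZ, gOf, einv, ew, conjTranspose_mul, conjTranspose_mul, conjTranspose_conjTranspose,
    diagonal_conjTranspose, dg]
  simp only [← Matrix.mul_assoc]
  rw [Matrix.mul_assoc _ Uᴴ U, hU', mul_one, Matrix.mul_assoc _ (diagonal _) (diagonal _),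
    diagonal_mul_diagonal, Matrix.mul_assoc U (diagonal _) (diagonal _), diagonal_mul_diagonal]
  rw [show ∀ (x y : ℂ) (X Y : Matrix n n ℂ), x • (U * X * Uᴴ) + y • (U * Y * Uᴴ) = U * (x • X + y • Y) * Uᴴ from
    fun x y X Y => by simp only [Matrix.mul_add, Matrix.add_mul, Matrix.mul_smul, Matrix.smul_mul]]
  refine smul_eq_zero_of_right _ ?_
  suffices h2 : ∀ f : n → ℂ, (∀ i, f i = 0) → U * diagonal f * Uᴴ = 0 by
    rw [← diagonal_smul, ← diagonal_smul, diagonal_add]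
    exact h2 _ fun i => by simp; ring_nf; simp [I_pow_three]
  intro f hf
  rw [show f = fun _ => (0 : ℂ) from funext hf, diagonal_zero, mul_zero, zero_mul]

/-- The end values: along `B = t σ`, `E = σ²` the potential is the scalar profile times `Σ s^(2ν+1)`. -/
theorem Phi_end (hν : 1 / 2 < ν) (hν1 : ν < 1) (hU : U * Uᴴ = 1) (s : n → ℝ) (hs : ∀ i, 0 < s i)
    {τ : ℝ} (hτ : |τ| ≤ 1) :
    Phi ν ((2 : ℂ) • (τ • (U * dg s * Uᴴ)) + I • (U * dg (fun i => s i ^ 2) * Uᴴ)) =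
      (∫ t in (0 : ℝ)..τ, (1 - t ^ 2) ^ ν) * ∑ i, s i ^ (2 * ν + 1) := by
  have hU' : Uᴴ * U = 1 := mul_eq_one_comm.1 hU
  set S := U * dg s * Uᴴ
  set T := U * dg (fun i => s i ^ 2) * Uᴴ
  set c : ℝ → Matrix n n ℂ := fun t => (2 : ℂ) • (t • S) + I • T
  have hS : S.IsHermitian := Matrix.isHermitian_mul_mul_conjTranspose U (isHermitian_dg s)
  have hT : T.IsHermitian := Matrix.isHermitian_mul_mul_conjTranspose U (isHermitian_dg _)
  have etS : ∀ t : ℝ, t • S = U * dg (fun i => t * s i) * Uᴴ := fun t => by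
    rw [show dg (fun i => t * s i) = (t : ℂ) • dg s by
      rw [dg, dg, ← diagonal_smul]; congr 1; funext i; simp, Matrix.mul_smul, Matrix.smul_mul, Complex.coe_smul]
  have hp : ∀ t : ℝ, partB (c t) = t • S ∧ partE (c t) = T := fun t =>
    parts_eq ((IsSelfAdjoint.all t).smul hS) hT
  have hle : ∀ t : ℝ, |t| ≤ 1 → ∀ i, (t * s i) ^ 2 ≤ s i ^ 2 := fun t ht i => by
    rw [mul_pow]
    exact mul_le_of_le_one_left (sq_nonneg _) ((sq_le_one_iff_abs_le_one t).2 ht)
  have hmem : ∀ t : ℝ, |t| ≤ 1 → c t ∈ domZP := fun t ht => by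
    refine ⟨?_, ?_⟩
    · rw [(hp t).1, (hp t).2, etS]
      exact domC_conj (domC_dg _ _ (hle t ht)) hU
    · rw [(hp t).2]
      refine (Matrix.posDef_diagonal_iff.2 fun i => Complex.zero_lt_real.2 (pow_pos (hs i) 2)).mul_mul_conjTranspose_same ?_
      exact fun v w e => by simpa [Matrix.vecMul_vecMul, hU] using congrArg (fun x => x ᵥ* Uᴴ) e
  have hd : ∀ t, HasDerivAt c ((2 : ℂ) • S) t := fun t => by
    simpa [c] using ((((hasDerivAt_id t).smul_const S).const_smul (2 : ℂ)).add_const (I • T))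
  have hval : ∀ t, |t| ≤ 1 → dPhi ν (c t) ((2 : ℂ) • S) = (1 - t ^ 2) ^ ν * ∑ i, s i ^ (2 * ν + 1) := by
    intro t ht
    obtain ⟨a1, a2⟩ := parts_eq (B := S) (E := (0 : Matrix n n ℂ)) hS (by simp [Matrix.IsHermitian])
    rw [smul_zero, add_zero] at a1 a2
    rw [dPhi_apply, a1, a2, mul_zero, Matrix.trace_zero, Complex.zero_re, add_zero, XiZ_eq, (hp t).1, (hp t).2,
      etS, Xi_conj_dg hν hν1 hU _ _ (hle t ht)]
    rw [show U * dg (fun i => (s i ^ 2 - (t * s i) ^ 2) ^ ν) * Uᴴ * S =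
      U * (dg (fun i => (s i ^ 2 - (t * s i) ^ 2) ^ ν) * (Uᴴ * U) * dg s) * Uᴴ by
        simp only [S, Matrix.mul_assoc], hU', mul_one, Matrix.trace_mul_cycle, hU', one_mul, dg, dg,
      diagonal_mul_diagonal, trace_diagonal, re_sum, Finset.mul_sum]
    refine Finset.sum_congr rfl fun i _ => ?_
    rw [← Complex.ofReal_mul, Complex.ofReal_re, show s i ^ 2 - (t * s i) ^ 2 = (1 - t ^ 2) * s i ^ 2 by ring,
      Real.mul_rpow (sub_nonneg.2 ((sq_le_one_iff_abs_le_one t).2 ht)) (sq_nonneg _), mul_assoc,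
      ← Real.rpow_natCast (s i) 2, ← Real.rpow_mul (hs i).le, ← Real.rpow_add_one (hs i).ne']
    norm_num
  have h0 : Phi ν (c 0) = 0 := by
    have hz : c 0 = (2 : ℂ) • (0 : Matrix n n ℂ) + I • T := by simp [c]
    rw [Phi, (hp 0).1, zero_smul, mul_zero, hz, GeZ_zero_dg hU _ fun i => pow_pos (hs i) 2]
    simp
  have hcont : ∀ a b : ℝ, ContinuousOn (fun _ : ℝ => (2 : ℂ) • S) (Icc a b) := fun a b => continuousOn_const
  have hint : ∀ a b : ℝ, a ≤ b → -1 ≤ a → b ≤ 1 →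
      Phi ν (c b) - Phi ν (c a) = (∫ t in a..b, (1 - t ^ 2) ^ ν) * ∑ i, s i ^ (2 * ν + 1) := by
    intro a b hab ha hb
    rw [Phi_sub_eq_integral hν hν1 hab (fun t _ => hd t) (hcont a b)
      fun t ht => hmem t (abs_le.2 ⟨ha.trans ht.1, ht.2.trans hb⟩), ← intervalIntegral.integral_mul_const]
    refine intervalIntegral.integral_congr fun t ht => ?_
    rw [uIcc_of_le hab] at ht
    exact hval t (abs_le.2 ⟨ha.trans ht.1, ht.2.trans hb⟩)
  obtain ⟨hτ0, hτ1⟩ := abs_le.1 hτ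
  show Phi ν (c τ) = _
  rcases le_total 0 τ with h | h
  · have := hint 0 τ h (by norm_num) hτ1
    rwa [h0, sub_zero] at this
  · have := hint τ 0 h hτ0 zero_le_one
    rw [h0, intervalIntegral.integral_symm 0 τ] at this
    linarith

end Vale.Agent.P371.Pencil
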