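import Vale.Agent.P371.Pencil.Chart

/-!
P371, pencils in cone coordinates `B = (P - S)/2`, `E = ((P + S)/2)²` with `P, S ≥ 0`: for every
`0 < ν < 1` the weight, the symmetrised multiplier and the potential are continuous up to the
boundary, and `tr Ξ (E - B²) = 0` forces `E = B²`.
-/

namespace Vale.Agent.P371.Pencil

open Matrix Complex MeasureTheory Filter Set
open scoped ComplexOrder Matrix.Norms.L2Operator Topology

variable {n : Type} [Fintype n] [DecidableEq n] {P S B E : Matrix n n ℂ} {ν : ℝ}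

/-- Half the sum. -/
noncomputable def cC (q : Matrix n n ℂ × Matrix n n ℂ) : Matrix n n ℂ := (1 / 2 : ℝ) • (q.1 + q.2)

/-- Half the difference. -/
noncomputable def cB (q : Matrix n n ℂ × Matrix n n ℂ) : Matrix n n ℂ := (1 / 2 : ℝ) • (q.1 - q.2)

/-- The code of a pair in the cone coordinates. -/
noncomputable def codeQ (q : Matrix n n ℂ × Matrix n n ℂ) : Matrix n n ℂ :=
  (2 : ℂ) • cB q + I • (cC q * cC q)

/-- Pairs of nonnegative matrices. -/
def coneQ : Set (Matrix n n ℂ × Matrix n n ℂ) := {q | q.1.PosSemidef ∧ q.2.PosSemidef}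

variable {q : Matrix n n ℂ × Matrix n n ℂ}

omit [Fintype n] [DecidableEq n] in
lemma isHermitian_cB (hq : q ∈ coneQ) : (cB q).IsHermitian :=
  (IsSelfAdjoint.all (1 / 2 : ℝ)).smul (hq.1.isHermitian.sub hq.2.isHermitian)

omit [Fintype n] [DecidableEq n] in
lemma isHermitian_cC (hq : q ∈ coneQ) : (cC q).IsHermitian :=
  (IsSelfAdjoint.all (1 / 2 : ℝ)).smul (hq.1.isHermitian.add hq.2.isHermitian)

omit [DecidableEq n] in
lemma isHermitian_cC_sq (hq : q ∈ coneQ) : (cC q * cC q).IsHermitian := by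
  show _ = _
  rw [conjTranspose_mul, (isHermitian_cC hq).eq]

lemma parts_codeQ (hq : q ∈ coneQ) : partB (codeQ q) = cB q ∧ partE (codeQ q) = cC q * cC q :=
  parts_eq (isHermitian_cB hq) (isHermitian_cC_sq hq)

omit [Fintype n] in
lemma cC_sub_cB (q : Matrix n n ℂ × Matrix n n ℂ) : cC q - cB q = q.2 ∧ cC q + cB q = q.1 := by
  constructor <;>
  · simp only [cC, cB, ← smul_sub, ← smul_add]
    first
      | (rw [show q.1 + q.2 - (q.1 - q.2) = (2 : ℝ) • q.2 by rw [two_smul]; abel, smul_smul]; norm_num)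
      | (rw [show q.1 + q.2 + (q.1 - q.2) = (2 : ℝ) • q.1 by rw [two_smul]; abel, smul_smul]; norm_num)

lemma pencil_cone_eq (q : Matrix n n ℂ × Matrix n n ℂ) (t : ℝ) :
    pencil (cB q) (cC q * cC q) t = pencil (cC q) (cC q * cC q) t + ((2 * t : ℝ) : ℂ) • q.2 ∧
      pencil (cB q) (cC q * cC q) t = pencil (-cC q) (cC q * cC q) t + ((-(2 * t) : ℝ) : ℂ) • q.1 := by
  obtain ⟨h1, h2⟩ := cC_sub_cB q
  constructor
  · rw [← h1]
    simp only [pencil, smul_sub]
    push_cast
    abel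
  · rw [← h2]
    simp only [pencil, smul_add, smul_neg]
    push_cast
    simp only [neg_smul]
    abel

lemma pencil_square {C : Matrix n n ℂ} (hC : C.IsHermitian) (t : ℝ) :
    (pencil C (C * C) t).PosSemidef := by
  have e : pencil C (C * C) t = ((t : ℂ) • 1 - C)ᴴ * ((t : ℂ) • 1 - C) := by
    rw [pencil, conjTranspose_sub, conjTranspose_smul, conjTranspose_one, hC.eq, Complex.star_def,
      Complex.conj_ofReal, Matrix.sub_mul, Matrix.mul_sub, Matrix.mul_sub, Matrix.smul_mul, Matrix.mul_smul,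
      one_mul, smul_smul, Matrix.mul_smul, mul_one, Matrix.smul_mul, one_mul, pow_two, two_mul, add_smul]
    abel
  rw [e]
  exact Matrix.posSemidef_conjTranspose_mul_self _

/-- The cone lies in the closed domain. -/
lemma domC_cone (hq : q ∈ coneQ) : DomC (cB q) (cC q * cC q) := by
  refine ⟨isHermitian_cB hq, isHermitian_cC_sq hq, fun t => ?_⟩
  rcases le_total 0 t with ht | ht
  · rw [(pencil_cone_eq q t).1]
    exact (pencil_square (isHermitian_cC hq) t).add (hq.2.smul (Complex.zero_le_real.2 (by linarith)))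
  · rw [(pencil_cone_eq q t).2]
    have h := pencil_square (isHermitian_cC hq).neg t
    rw [neg_mul_neg] at h
    exact h.add (hq.1.smul (Complex.zero_le_real.2 (by linarith)))

lemma codeQ_mem (hq : q ∈ coneQ) : codeQ q ∈ domZC := by
  show DomC (partB (codeQ q)) (partE (codeQ q))
  rw [(parts_codeQ hq).1, (parts_codeQ hq).2]
  exact domC_cone hq

/-- The interior of the cone lies in the open domain. -/
lemma codeQ_mem_domZ (h1 : q.1.PosDef) (h2 : q.2.PosDef) : codeQ q ∈ domZ := by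
  have hq : q ∈ coneQ := ⟨h1.posSemidef, h2.posSemidef⟩
  show Dom (partB (codeQ q)) (partE (codeQ q))
  rw [(parts_codeQ hq).1, (parts_codeQ hq).2]
  refine ⟨isHermitian_cB hq, isHermitian_cC_sq hq, fun t => ?_⟩
  rcases lt_trichotomy 0 t with ht | rfl | ht
  · rw [(pencil_cone_eq q t).1]
    exact Matrix.PosDef.posSemidef_add (pencil_square (isHermitian_cC hq) t)
      (h2.smul (Complex.zero_lt_real.2 (by linarith)))
  · have hC : (cC q).PosDef := (h1.add h2).smul (by norm_num : (0 : ℝ) < 1 / 2)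
    have h := Matrix.PosDef.conjTranspose_mul_self (cC q) (Matrix.mulVec_injective_iff_isUnit.2 hC.isUnit)
    rw [hC.isHermitian.eq] at h
    simpa [pencil] using h
  · rw [(pencil_cone_eq q t).2]
    have h := pencil_square (isHermitian_cC hq).neg t
    rw [neg_mul_neg] at h
    exact Matrix.PosDef.posSemidef_add h (h1.smul (Complex.zero_lt_real.2 (by linarith)))

/-- The root of a square. -/
lemma lyapSol_square {C : Matrix n n ℂ} (hC : C.IsHermitian) {u : ℝ} (hu : 0 < u) :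
    Dom C (shiftE (C * C) u) ∧ root C (shiftE (C * C) u) = C + ((Real.sqrt u : ℂ) * I) • 1 ∧
      lyapSol (root C (shiftE (C * C) u)) = (((Real.sqrt u)⁻¹ : ℝ) : ℂ) • 1 := by
  set A : Matrix n n ℂ := C + ((Real.sqrt u : ℂ) * I) • 1
  have hs : 0 < Real.sqrt u := Real.sqrt_pos.2 hu
  have hA' : Aᴴ = C - ((Real.sqrt u : ℂ) * I) • 1 := by
    rw [conjTranspose_add, conjTranspose_smul, conjTranspose_one, hC.eq, Complex.star_def, map_mul,
      Complex.conj_ofReal, Complex.conj_I, mul_neg, neg_smul, ← sub_eq_add_neg]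
  have el : lyap A ((((Real.sqrt u)⁻¹ : ℝ) : ℂ) • 1) = (2 * I) • 1 := by
    rw [lyap, Matrix.mul_smul, mul_one, Matrix.smul_mul, one_mul, hA', ← smul_sub,
      show A - (C - ((Real.sqrt u : ℂ) * I) • (1 : Matrix n n ℂ)) = (2 * ((Real.sqrt u : ℂ) * I)) • 1 by
        rw [two_mul, add_smul]; simp only [A]; abel, smul_smul]
    congr 1
    have : (Real.sqrt u : ℂ) ≠ 0 := by exact_mod_cast hs.ne'
    push_cast
    field_simp
  have hst : Stable A := ⟨_, Matrix.PosDef.one.smul (Complex.zero_lt_real.2 (inv_pos.2 hs)), el⟩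
  have hH : (shiftE (C * C) u).IsHermitian := by
    refine IsHermitian.add (by show _ = _; rw [conjTranspose_mul, hC.eq]) ?_
    show _ = _
    rw [conjTranspose_smul, conjTranspose_one, Complex.star_def, Complex.conj_ofReal]
  have e1 : A + Aᴴ = (2 : ℂ) • C := by rw [hA', two_smul]; simp only [A]; abel
  have e2 : Aᴴ * A = shiftE (C * C) u := by
    have hq : ((Real.sqrt u : ℂ) * I) * ((Real.sqrt u : ℂ) * I) = -(u : ℂ) := by
      rw [mul_mul_mul_comm, I_mul_I, ← Complex.ofReal_mul, Real.mul_self_sqrt hu.le, mul_neg_one]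
    rw [hA', shiftE]
    simp only [A, Matrix.sub_mul, Matrix.mul_add, Matrix.smul_mul, Matrix.mul_smul, one_mul, mul_one, smul_add,
      smul_smul, hq, neg_smul]
    simp only [smul_sub, smul_add, smul_smul, hq, neg_smul]
    abel
  have hr := root_eq hC hH hst e1 e2
  refine ⟨hst.dom hC hH e1 e2, hr, ?_⟩
  rw [hr]
  exact hst.lyap_inj ((lyapSol_spec hst.isUnit_lyapL).trans el.symm)

lemma qf_shiftE (X : Matrix n n ℂ) (C D : Matrix n n ℂ) (u t : ℝ) (v : n → ℂ) (h : pencil C X t = D) :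
    qf (pencil C (shiftE X u) t) v = qf D v + u * sqLen v := by
  rw [show pencil C (shiftE X u) t = pencil C X t + (u : ℂ) • 1 by rw [pencil, pencil, shiftE, add_assoc],
    qf_add, qf_ofReal_one, h]

/-- Inside the cone the weight is at most twice the inverse square root. -/
theorem qf_wgt_cone_le (hq : q ∈ coneQ) {u : ℝ} (hu : 0 < u) (v : n → ℂ) :
    qf (wgt (cB q) (cC q * cC q) u) v ≤ 2 * sqLen v / Real.sqrt u := by
  set B := cB q
  set C := cC q
  have hC : C.IsHermitian := isHermitian_cC hq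
  have hd := (domC_cone hq).shift hu
  obtain ⟨d1, -, w1⟩ := lyapSol_square hC hu
  obtain ⟨d2, -, w2⟩ := lyapSol_square hC.neg hu
  rw [neg_mul_neg] at d2 w2
  refine le_of_mul_le_mul_left ?_ Real.pi_pos
  have t1 := tendsto_qf_inv_pencil d1 v
  have t2 := tendsto_qf_inv_pencil d2 v
  rw [w1, qf_ofReal_one] at t1
  rw [w2, qf_ofReal_one] at t2
  refine le_of_tendsto_of_tendsto (tendsto_qf_inv_pencil hd v) (by
    have := t1.add t2
    rw [show Real.pi * (2 * sqLen v / Real.sqrt u) = Real.pi * ((Real.sqrt u)⁻¹ * sqLen v) +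
      Real.pi * ((Real.sqrt u)⁻¹ * sqLen v) by ring]
    exact this) ?_
  filter_upwards [eventually_ge_atTop 0] with T hT
  set f := fun x : ℝ => qf (pencil B (shiftE (C * C) u) x)⁻¹ v
  set g₁ := fun x : ℝ => qf (pencil C (shiftE (C * C) u) x)⁻¹ v
  set g₂ := fun x : ℝ => qf (pencil (-C) (shiftE (C * C) u) x)⁻¹ v
  have i0 : ∀ a b, IntervalIntegrable f volume a b := fun a b => (continuous_qf_inv_pencil hd v).intervalIntegrable a b
  have i1 : ∀ a b, IntervalIntegrable g₁ volume a b := fun a b => (continuous_qf_inv_pencil d1 v).intervalIntegrable a b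
  have i2 : ∀ a b, IntervalIntegrable g₂ volume a b := fun a b => (continuous_qf_inv_pencil d2 v).intervalIntegrable a b
  have p1 : ∀ x, 0 ≤ g₁ x := fun x => qf_nonneg (d1.pos x).posSemidef.inv v
  have p2 : ∀ x, 0 ≤ g₂ x := fun x => qf_nonneg (d2.pos x).posSemidef.inv v
  have hr : ∫ x in (0 : ℝ)..T, f x ≤ ∫ x in (0 : ℝ)..T, g₁ x :=
    intervalIntegral.integral_mono_on hT (i0 _ _) (i1 _ _) fun x hx =>
      qf_inv_antitone (d1.pos x) (hd.pos x) (fun y => by
        rw [qf_shiftE _ _ _ u x y rfl, qf_shiftE _ _ _ u x y ((pencil_cone_eq q x).1), qf_add]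
        linarith [qf_nonneg (hq.2.smul (Complex.zero_le_real.2 (show (0 : ℝ) ≤ 2 * x by linarith [hx.1]))) y]) v
  have hl : ∫ x in -T..0, f x ≤ ∫ x in -T..0, g₂ x :=
    intervalIntegral.integral_mono_on (by linarith) (i0 _ _) (i2 _ _) fun x hx =>
      qf_inv_antitone (d2.pos x) (hd.pos x) (fun y => by
        rw [qf_shiftE _ _ _ u x y rfl, qf_shiftE _ _ _ u x y ((pencil_cone_eq q x).2), qf_add]
        linarith [qf_nonneg (hq.1.smul (Complex.zero_le_real.2 (show (0 : ℝ) ≤ -(2 * x) by linarith [hx.2]))) y]) v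
  rw [← intervalIntegral.integral_add_adjacent_intervals (i0 (-T) 0) (i0 0 T),
    ← intervalIntegral.integral_add_adjacent_intervals (i1 (-T) 0) (i1 0 T),
    ← intervalIntegral.integral_add_adjacent_intervals (i2 (-T) 0) (i2 0 T)]
  have q1 : 0 ≤ ∫ x in -T..0, g₁ x := intervalIntegral.integral_nonneg (by linarith) fun x _ => p1 x
  have q2 : 0 ≤ ∫ x in (0 : ℝ)..T, g₂ x := intervalIntegral.integral_nonneg hT fun x _ => p2 x
  linarith

/-- The norm of the weight inside the cone. -/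
lemma norm_wZ_cone_le (hq : q ∈ coneQ) {u : ℝ} (hu : 0 < u) :
    ‖wZ (shiftZ (codeQ q) u)‖ ≤ 2 * (Fintype.card n : ℝ) / Real.sqrt u := by
  rw [wZ_shiftZ, (parts_codeQ hq).1, (parts_codeQ hq).2]
  have hp := (root_spec ((domC_cone hq).shift hu)).1.lyapSol_posDef
  refine (norm_le_trace hp.posSemidef).trans ?_
  rw [trace_re_eq_sum_qf]
  refine (Finset.sum_le_sum fun k _ => qf_wgt_cone_le hq hu (Pi.single k 1)).trans (le_of_eq ?_)
  have e : ∀ k : n, sqLen (Pi.single k (1 : ℂ)) = 1 := fun k => by simp [sqLen]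
  simp only [e, mul_one, Finset.sum_const, Finset.card_univ, nsmul_eq_mul]
  ring

/-- The multiplier times the square root of the constant coefficient. -/
lemma norm_cC_mul_gZ_le (hq : q ∈ coneQ) {u : ℝ} (hu : 0 < u) :
    ‖cC q * gZ (shiftZ (codeQ q) u)‖ ≤ 3 * ((Fintype.card n : ℝ) + 1) * ((Fintype.card n : ℝ) + 1) / Real.sqrt u := by
  set C := cC q
  set c := (Fintype.card n : ℝ) + 1
  have hc : (Fintype.card n : ℝ) ≤ c := by simp only [c]; linarith
  have hc1 : 1 ≤ c := by simp only [c]; linarith [(Nat.cast_nonneg (Fintype.card n) : (0 : ℝ) ≤ _)]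
  set A := rootZ (shiftZ (codeQ q) u)
  have hd := shiftZ_mem' (codeQ_mem hq) hu
  obtain ⟨hst, -, h2⟩ := root_spec hd
  have hAu : Aᴴ * A = C * C + (u : ℂ) • 1 := by
    rw [show Aᴴ * A = partE (shiftZ (codeQ q) u) from h2, (parts_shiftZ _ u).2, (parts_codeQ hq).2]
  have hdet := (Matrix.isUnit_iff_isUnit_det A).1 (show IsUnit A from hst.isUnit)
  have hsum : (A⁻¹)ᴴ * (C * C) * A⁻¹ + (u : ℂ) • ((A⁻¹)ᴴ * A⁻¹) = 1 := by
    have h3 : (A⁻¹)ᴴ * (Aᴴ * A) * A⁻¹ = 1 := by
      rw [← Matrix.mul_assoc, ← conjTranspose_mul, Matrix.mul_nonsing_inv A hdet, conjTranspose_one, one_mul,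
        Matrix.mul_nonsing_inv A hdet]
    rw [hAu, Matrix.mul_add, Matrix.add_mul, Matrix.mul_smul, mul_one, Matrix.smul_mul] at h3
    exact h3
  have hp1 : ((A⁻¹)ᴴ * (C * C) * A⁻¹).PosSemidef := by
    have := Matrix.posSemidef_conjTranspose_mul_self (C * A⁻¹)
    rw [conjTranspose_mul, (isHermitian_cC hq).eq] at this
    simpa only [Matrix.mul_assoc] using this
  have hp2 : ((A⁻¹)ᴴ * A⁻¹).PosSemidef := Matrix.posSemidef_conjTranspose_mul_self _
  have htr : ((A⁻¹)ᴴ * (C * C) * A⁻¹).trace.re + u * ((A⁻¹)ᴴ * A⁻¹).trace.re = Fintype.card n := by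
    have := congrArg (fun X => (Matrix.trace X).re) hsum
    simpa [Matrix.trace_add, Matrix.trace_smul, Complex.re_ofReal_mul, Matrix.trace_one] using this
  have t1 := (Complex.nonneg_iff.1 hp1.trace_nonneg).1
  have t2 := (Complex.nonneg_iff.1 hp2.trace_nonneg).1
  have hCA : ‖C * A⁻¹‖ ≤ c := by
    have h3 : ‖C * A⁻¹‖ * ‖C * A⁻¹‖ ≤ c * c := by
      rw [← Matrix.l2_opNorm_conjTranspose_mul_self, conjTranspose_mul, (isHermitian_cC hq).eq,
        show (A⁻¹)ᴴ * C * (C * A⁻¹) = (A⁻¹)ᴴ * (C * C) * A⁻¹ by simp only [Matrix.mul_assoc]]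
      refine (norm_le_trace hp1).trans ?_
      nlinarith
    nlinarith [norm_nonneg (C * A⁻¹)]
  have hAi : ‖(A⁻¹)ᴴ‖ ≤ c / Real.sqrt u := by
    rw [Matrix.l2_opNorm_conjTranspose]
    have h3 : ‖A⁻¹‖ * ‖A⁻¹‖ ≤ c / u := by
      rw [← Matrix.l2_opNorm_conjTranspose_mul_self, le_div_iff₀ hu]
      nlinarith [norm_le_trace hp2]
    rw [le_div_iff₀ (Real.sqrt_pos.2 hu)]
    have h4 : ‖A⁻¹‖ * ‖A⁻¹‖ * u ≤ c := (le_div_iff₀ hu).1 h3
    nlinarith [Real.mul_self_sqrt hu.le, norm_nonneg A⁻¹, Real.sqrt_nonneg u,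
      mul_nonneg (norm_nonneg A⁻¹) (Real.sqrt_nonneg u)]
  have hW := norm_wZ_cone_le hq hu
  rw [gZ, gOf, Matrix.mul_add, Matrix.mul_smul, Matrix.mul_smul, ← Matrix.mul_assoc, ← Matrix.mul_assoc]
  have hcu : 0 ≤ c / Real.sqrt u := div_nonneg (by linarith) (Real.sqrt_nonneg u)
  refine (norm_add_le _ _).trans ?_
  rw [norm_smul, norm_smul]
  have n1 : ‖(1 / 2 : ℂ)‖ ≤ 1 := by simp; norm_num
  have n2 : ‖(I / 2 : ℂ)‖ ≤ 1 := by simp; norm_num
  calc ‖(1 / 2 : ℂ)‖ * ‖C * A⁻¹ * wZ (shiftZ (codeQ q) u)‖ + ‖(I / 2 : ℂ)‖ * ‖C * A⁻¹ * (A⁻¹)ᴴ‖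
      ≤ 1 * (c * (2 * c / Real.sqrt u)) + 1 * (c * (c / Real.sqrt u)) := by
        refine add_le_add (mul_le_mul n1 ((norm_mul_le _ _).trans (mul_le_mul hCA (hW.trans
          (div_le_div_of_nonneg_right (mul_le_mul_of_nonneg_left hc zero_le_two) (Real.sqrt_nonneg u)))
          (norm_nonneg _) (by linarith))) (norm_nonneg _) zero_le_one)
          (mul_le_mul n2 ((norm_mul_le _ _).trans (mul_le_mul hCA hAi (norm_nonneg _) (by linarith)))
            (norm_nonneg _) zero_le_one)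
    _ = 3 * c * c / Real.sqrt u := by ring

/-- The integral defining the symmetrised multiplier. -/
noncomputable def hI (ν : ℝ) (q : Matrix n n ℂ × Matrix n n ℂ) : Matrix n n ℂ :=
  ∫ u in Ioi (0 : ℝ), u ^ (ν - 1 / 2) • (cC q * gZ (shiftZ (codeQ q) u))

/-- Half the sum times the fractional multiplier. -/
noncomputable def HQ (ν : ℝ) (q : Matrix n n ℂ × Matrix n n ℂ) : Matrix n n ℂ := (scal ν)⁻¹ • hI ν q

/-- The potential in cone coordinates. -/
noncomputable def PhiQ (ν : ℝ) (q : Matrix n n ℂ × Matrix n n ℂ) : ℝ :=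
  ((XiZ ν (codeQ q) * cB q).trace.re + 2 * (HQ ν q * cC q).trace.re) / (2 * ν + 1)

/-- The differential of the potential in cone coordinates. -/
noncomputable def dPhiQ (ν : ℝ) (q d : Matrix n n ℂ × Matrix n n ℂ) : ℝ :=
  (XiZ ν (codeQ q) * cB d).trace.re + 2 * (HQ ν q * cC d).trace.re

lemma continuity_core0 {X : Type} [TopologicalSpace X] [FirstCountableTopology X] (hν : 0 < ν) (hν1 : ν < 1)
    {s : Set X} {f : X → ℝ → Matrix n n ℂ} {x : X} (hx : x ∈ s) {U : Set X} (hU : U ∈ 𝓝 x)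
    (hc : ∀ w ∈ s, ∀ u, 0 < u → ContinuousAt (fun v => f w v) u ∧ ContinuousWithinAt (fun y => f y u) s w)
    {K : ℝ} (h0 : ∀ w ∈ s, ∀ u, 0 < u → ‖f w u‖ ≤ K / Real.sqrt u)
    (hinf : ∃ C, ∀ᶠ u : ℝ in atTop, ∀ w ∈ s ∩ U, ‖f w u‖ ≤ C * (u * Real.sqrt u)⁻¹) :
    IntegrableOn (fun u => u ^ (ν - 1 / 2) • f x u) (Ioi 0) ∧
      ContinuousWithinAt (fun w => ∫ u in Ioi (0 : ℝ), u ^ (ν - 1 / 2) • f w u) s x := by
  obtain ⟨C, hC⟩ := hinf
  obtain ⟨a, ha⟩ := eventually_atTop.1 (hC.and (eventually_ge_atTop 1))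
  have ha1 : 1 ≤ a := (ha a le_rfl).2
  set bound : ℝ → ℝ := fun u => if u ≤ a then K * u ^ (ν - 1) else C * u ^ (ν - 2)
  have hbound : ∀ u ∈ Ioi (0 : ℝ), ∀ w ∈ s ∩ U, ‖u ^ (ν - 1 / 2) • f w u‖ ≤ bound u := fun u hu w hw => by
    have hu0 : (0 : ℝ) < u := hu
    rw [norm_smul, Real.norm_of_nonneg (Real.rpow_nonneg hu0.le _)]
    simp only [bound]
    split
    · refine (mul_le_mul_of_nonneg_left (h0 w hw.1 u hu0) (Real.rpow_nonneg hu0.le _)).trans (le_of_eq ?_)
      rw [div_eq_mul_inv K, ← rpow_neg_half hu0, mul_left_comm, ← Real.rpow_add hu0]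
      ring_nf
    · refine (mul_le_mul_of_nonneg_left ((ha u (le_of_not_ge ‹_›)).1 w hw) (Real.rpow_nonneg hu0.le _)).trans
        (le_of_eq ?_)
      rw [← rpow_neg_three_halves hu0, mul_left_comm, ← Real.rpow_add hu0]
      ring_nf
  have hbi : IntegrableOn bound (Ioi 0) := by
    rw [← Ioc_union_Ioi_eq_Ioi (zero_le_one.trans ha1)]
    refine IntegrableOn.union ?_ ?_
    · have h := ((intervalIntegrable_iff_integrableOn_Ioc_of_le (μ := volume) (zero_le_one.trans ha1)).1
        (intervalIntegral.intervalIntegrable_rpow' (r := ν - 1) (by linarith))).const_mul K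
      exact IntegrableOn.congr_fun h (fun u hu => by simp only [bound, if_pos hu.2]) measurableSet_Ioc
    · have h := (integrableOn_Ioi_rpow_of_lt (a := ν - 2) (by linarith) (lt_of_lt_of_le one_pos ha1)).const_mul C
      exact IntegrableOn.congr_fun h (fun u hu => by simp only [bound, if_neg (not_le.2 (show a < u from hu))])
        measurableSet_Ioi
  have hm : ∀ w ∈ s, AEStronglyMeasurable (fun u => u ^ (ν - 1 / 2) • f w u) (volume.restrict (Ioi 0)) :=
    fun w hw => ContinuousOn.aestronglyMeasurable (fun u hu => ContinuousAt.continuousWithinAt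
      ((Real.continuousAt_rpow_const _ _ (Or.inl (ne_of_gt hu))).smul (hc w hw u hu).1)) measurableSet_Ioi
  refine ⟨Integrable.mono' hbi (hm x hx) ((ae_restrict_mem measurableSet_Ioi).mono fun u hu =>
    hbound u hu x ⟨hx, mem_of_mem_nhds hU⟩), continuousWithinAt_of_dominated (bound := bound) ?_ ?_ hbi ?_⟩
  · filter_upwards [self_mem_nhdsWithin] with w hw using hm w hw
  · filter_upwards [self_mem_nhdsWithin, mem_nhdsWithin_of_mem_nhds hU] with w hw hwb using
      (ae_restrict_mem measurableSet_Ioi).mono fun u hu => hbound u hu w ⟨hw, hwb⟩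
  · exact (ae_restrict_mem measurableSet_Ioi).mono fun u hu =>
      (hc x hx u hu).2.const_smul (u ^ (ν - 1 / 2))

omit [DecidableEq n] in
lemma continuous_cB : Continuous (cB (n := n)) := (continuous_fst.sub continuous_snd).const_smul (1 / 2 : ℝ)

omit [DecidableEq n] in
lemma continuous_cC : Continuous (cC (n := n)) := (continuous_fst.add continuous_snd).const_smul (1 / 2 : ℝ)

lemma continuous_codeQ : Continuous (codeQ (n := n)) :=
  (continuous_cB.const_smul (2 : ℂ)).add ((continuous_cC.mul continuous_cC).const_smul I)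

lemma continuity_cone (hq : q ∈ coneQ) {g : Matrix n n ℂ → Matrix n n ℂ} (hg : ∀ w ∈ domZ, ContinuousAt g w)
    {u : ℝ} (hu : 0 < u) :
    ContinuousAt (fun v => g (shiftZ (codeQ q) v)) u ∧ ContinuousAt (fun y => g (shiftZ (codeQ y) u)) q := by
  obtain ⟨h1, h2⟩ := continuity_shift (codeQ_mem hq) hg hu
  exact ⟨h1, h2.comp (x := q) (f := codeQ) continuous_codeQ.continuousAt⟩

lemma exists_bound_nhds (q : Matrix n n ℂ × Matrix n n ℂ) :
    ∃ R : ℝ, ∀ᶠ w in 𝓝 q, ‖codeQ w‖ ≤ R ∧ ‖cC w‖ ≤ R := by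
  refine ⟨max ‖codeQ q‖ ‖cC q‖ + 1, ?_⟩
  exact ((continuous_codeQ.norm.tendsto q).eventually
      (ge_mem_nhds (lt_of_le_of_lt (le_max_left _ _) (lt_add_one _)))).and
    ((continuous_cC.norm.tendsto q).eventually (ge_mem_nhds (lt_of_le_of_lt (le_max_right _ _) (lt_add_one _))))

/-- The weight on the cone, for every exponent. -/
theorem weightI_cone (hν : 0 < ν) (hν1 : ν < 1) (hq : q ∈ coneQ) :
    IntegrableOn (fun u => u ^ (ν - 1 / 2) • ((Real.sqrt u)⁻¹ • (1 : Matrix n n ℂ) + -wZ (shiftZ (codeQ q) u)))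
        (Ioi 0) ∧
      ContinuousWithinAt (fun w => XiZ ν (codeQ w)) coneQ q := by
  obtain ⟨R, hR⟩ := exists_bound_nhds q
  set f := fun (w : Matrix n n ℂ × Matrix n n ℂ) (u : ℝ) =>
    (Real.sqrt u)⁻¹ • (1 : Matrix n n ℂ) + -wZ (shiftZ (codeQ w) u)
  have hc : ∀ w ∈ coneQ, ∀ u, 0 < u →
      ContinuousAt (fun v => f w v) u ∧ ContinuousWithinAt (fun y => f y u) coneQ w := fun w hw u hu => by
    obtain ⟨a1, a2⟩ := continuity_cone hw (fun v hv => (contDiffAt_wZ (k := 2) (by norm_num) hv).continuousAt) hu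
    exact ⟨((Real.continuous_sqrt.continuousAt.inv₀ (Real.sqrt_pos.2 hu).ne').smul continuousAt_const).add a1.neg,
      (continuousAt_const.add a2.neg).continuousWithinAt⟩
  have h0 : ∀ w ∈ coneQ, ∀ u, 0 < u → ‖f w u‖ ≤ (1 + 2 * (Fintype.card n : ℝ)) / Real.sqrt u := fun w hw u hu => by
    refine (norm_add_le _ _).trans ?_
    rw [norm_neg, norm_smul, Real.norm_of_nonneg (inv_nonneg.2 (Real.sqrt_nonneg u)), add_div, one_div]
    exact add_le_add (mul_le_of_le_one_right (by positivity) norm_one_matrix_le) (norm_wZ_cone_le hw hu)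
  obtain ⟨C, hC⟩ := exists_value_le (n := n) R
  have h := continuity_core0 hν hν1 hq hR hc h0
    ⟨C, hC.mono fun u hu w hw => (hu _ hw.2.1).1⟩
  exact ⟨h.1, h.2.const_smul (scal ν)⁻¹⟩

/-- The symmetrised multiplier on the cone, for every exponent. -/
theorem hI_cone (hν : 0 < ν) (hν1 : ν < 1) (hq : q ∈ coneQ) :
    IntegrableOn (fun u => u ^ (ν - 1 / 2) • (cC q * gZ (shiftZ (codeQ q) u))) (Ioi 0) ∧
      ContinuousWithinAt (HQ ν) coneQ q := by
  obtain ⟨R, hR⟩ := exists_bound_nhds q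
  set f := fun (w : Matrix n n ℂ × Matrix n n ℂ) (u : ℝ) => cC w * gZ (shiftZ (codeQ w) u)
  have hc : ∀ w ∈ coneQ, ∀ u, 0 < u →
      ContinuousAt (fun v => f w v) u ∧ ContinuousWithinAt (fun y => f y u) coneQ w := fun w hw u hu => by
    obtain ⟨a1, a2⟩ := continuity_cone hw (fun v hv => (contDiffAt_gZ (k := 2) (by norm_num) hv).continuousAt) hu
    exact ⟨continuousAt_const.mul a1, (continuous_cC.continuousAt.mul a2).continuousWithinAt⟩
  obtain ⟨C, hC⟩ := exists_value_le (n := n) R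
  have h := continuity_core0 hν hν1 hq hR hc (fun w hw u hu => norm_cC_mul_gZ_le hw hu)
    ⟨R * C, hC.mono fun u hu w hw => by
      rw [mul_assoc]
      exact (norm_mul_le _ _).trans
        (mul_le_mul hw.2.2 (hu _ hw.2.1).2 (norm_nonneg _) ((norm_nonneg _).trans hw.2.2))⟩
  exact ⟨h.1, h.2.const_smul (scal ν)⁻¹⟩

/-- The potential is continuous on the cone. -/
theorem continuousOn_PhiQ (hν : 0 < ν) (hν1 : ν < 1) :
    ContinuousOn (PhiQ (n := n) ν) coneQ := by
  have ht : Continuous fun X : Matrix n n ℂ => X.trace.re := Complex.continuous_re.comp continuous_id.matrix_trace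
  have h1 : ContinuousOn (fun w => XiZ ν (codeQ w)) (coneQ (n := n)) := fun w hw => (weightI_cone hν hν1 hw).2
  have h2 : ContinuousOn (HQ ν) (coneQ (n := n)) := fun w hw => (hI_cone hν hν1 hw).2
  exact ((ht.comp_continuousOn (h1.mul continuous_cB.continuousOn)).add
    (continuousOn_const.mul (ht.comp_continuousOn (h2.mul continuous_cC.continuousOn)))).div_const _

/-- The differential is continuous on the cone. -/
theorem continuousOn_dPhiQ (hν : 0 < ν) (hν1 : ν < 1) :
    ContinuousOn (fun p : (Matrix n n ℂ × Matrix n n ℂ) × (Matrix n n ℂ × Matrix n n ℂ) => dPhiQ ν p.1 p.2)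
      (coneQ ×ˢ univ) := by
  have ht : Continuous fun X : Matrix n n ℂ => X.trace.re := Complex.continuous_re.comp continuous_id.matrix_trace
  have h1 : ContinuousOn (fun w => XiZ ν (codeQ w)) (coneQ (n := n)) := fun w hw => (weightI_cone hν hν1 hw).2
  have h2 : ContinuousOn (HQ ν) (coneQ (n := n)) := fun w hw => (hI_cone hν hν1 hw).2
  exact (ht.comp_continuousOn ((h1.comp continuousOn_fst fun p hp => hp.1).mul
      (continuous_cB.comp continuous_snd).continuousOn)).add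
    (continuousOn_const.mul (ht.comp_continuousOn ((h2.comp continuousOn_fst fun p hp => hp.1).mul
      (continuous_cC.comp continuous_snd).continuousOn)))

end Vale.Agent.P371.Pencil
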