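import Vale.Agent.P371.Pencil.Pointwise

/-!
P371, pencils: the one dimensional integrals in the spectral parameter.
-/

namespace Vale.Agent.P371.Pencil

open MeasureTheory Set Filter
open scoped Topology

variable {ν : ℝ}

/-- A weight power against a function of size `u ^ (-1/2)` at zero and `u ^ (-3/2)` at infinity. -/
lemma integrableOn_weight {F : Type} [NormedAddCommGroup F] [NormedSpace ℝ F] (hν : 0 < ν) (hν1 : ν < 1)
    {g : ℝ → F} (hg : ContinuousOn g (Ioi 0)) {C C' : ℝ}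
    (h0 : ∀ u ∈ Ioc (0 : ℝ) 1, ‖g u‖ ≤ C * u ^ (-(1 / 2) : ℝ))
    (hinf : ∀ᶠ u in atTop, ‖g u‖ ≤ C' * u ^ (-(3 / 2) : ℝ)) :
    IntegrableOn (fun u => u ^ (ν - 1 / 2) • g u) (Ioi 0) := by
  have hc : ContinuousOn (fun u : ℝ => u ^ (ν - 1 / 2) • g u) (Ioi 0) :=
    (continuousOn_id.rpow_const fun u hu => Or.inl (ne_of_gt hu)).smul hg
  obtain ⟨a, ha⟩ := eventually_atTop.1 (hinf.and (eventually_ge_atTop 1))
  have ha1 : 1 ≤ a := (ha a le_rfl).2
  rw [← Ioc_union_Ioi_eq_Ioi (zero_le_one.trans ha1), ← Ioc_union_Ioc_eq_Ioc zero_le_one ha1]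
  refine ((?_ : IntegrableOn (fun u : ℝ => u ^ (ν - 1 / 2) • g u) (Ioc (0 : ℝ) 1) volume).union ?_).union ?_
  · refine Integrable.mono' (g := fun u => C * u ^ (ν - 1)) ?_
      ((hc.mono Ioc_subset_Ioi_self).aestronglyMeasurable measurableSet_Ioc) ?_
    · exact ((intervalIntegrable_iff_integrableOn_Ioc_of_le zero_le_one).1
        (intervalIntegral.intervalIntegrable_rpow' (by linarith))).const_mul C
    · refine (ae_restrict_mem measurableSet_Ioc).mono fun u hu => ?_
      rw [norm_smul, Real.norm_of_nonneg (Real.rpow_nonneg hu.1.le _)]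
      refine (mul_le_mul_of_nonneg_left (h0 u hu) (Real.rpow_nonneg hu.1.le _)).trans (le_of_eq ?_)
      rw [mul_left_comm, ← Real.rpow_add hu.1]
      ring_nf
  · exact ((hc.mono fun u hu => lt_of_lt_of_le one_pos hu.1).integrableOn_Icc).mono_set Ioc_subset_Icc_self
  · refine Integrable.mono' (g := fun u => C' * u ^ (ν - 2)) ?_
      ((hc.mono (Ioi_subset_Ioi (zero_le_one.trans ha1))).aestronglyMeasurable measurableSet_Ioi) ?_
    · exact (integrableOn_Ioi_rpow_of_lt (by linarith) (by linarith)).const_mul C'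
    · refine (ae_restrict_mem measurableSet_Ioi).mono fun u hu => ?_
      have hu0 : 0 < u := lt_of_lt_of_le one_pos (ha1.trans (le_of_lt hu))
      rw [norm_smul, Real.norm_of_nonneg (Real.rpow_nonneg hu0.le _)]
      refine (mul_le_mul_of_nonneg_left (ha u (le_of_lt hu)).1 (Real.rpow_nonneg hu0.le _)).trans (le_of_eq ?_)
      rw [mul_left_comm, ← Real.rpow_add hu0]
      ring_nf

/-- The gap of two inverse square roots. -/
noncomputable def invGap (u : ℝ) : ℝ := (Real.sqrt u)⁻¹ - (Real.sqrt (u + 1))⁻¹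

/-- The normalising constant. -/
noncomputable def scal (ν : ℝ) : ℝ := ∫ u in Ioi (0 : ℝ), u ^ (ν - 1 / 2) * invGap u

lemma rpow_neg_half {u : ℝ} (hu : 0 < u) : u ^ (-(1 / 2) : ℝ) = (Real.sqrt u)⁻¹ := by
  rw [Real.rpow_neg hu.le, ← Real.sqrt_eq_rpow]

lemma rpow_neg_three_halves {u : ℝ} (hu : 0 < u) : u ^ (-(3 / 2) : ℝ) = (u * Real.sqrt u)⁻¹ := by
  rw [Real.rpow_neg hu.le, Real.sqrt_eq_rpow,
    show u * u ^ (1 / 2 : ℝ) = u ^ (1 : ℝ) * u ^ (1 / 2 : ℝ) by rw [Real.rpow_one],
    ← Real.rpow_add hu, show (1 : ℝ) + 1 / 2 = 3 / 2 by norm_num]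

lemma invGap_bounds {u : ℝ} (hu : 0 < u) :
    0 < invGap u ∧ invGap u ≤ (Real.sqrt u)⁻¹ ∧ invGap u ≤ (u * Real.sqrt u)⁻¹ ∧
      |gainAt u 1| ≤ (Real.sqrt u)⁻¹ ∧ |gainAt u 1| ≤ (u * Real.sqrt u)⁻¹ := by
  set a := Real.sqrt u with hadef
  set b := Real.sqrt (u + 1) with hbdef
  have ha : 0 < a := Real.sqrt_pos.2 hu
  have hab : a < b := Real.sqrt_lt_sqrt hu.le (by linarith)
  have hb : 0 < b := ha.trans hab
  have hsq : b * b - a * a = 1 := by
    rw [hadef, hbdef, Real.mul_self_sqrt hu.le, Real.mul_self_sqrt (by linarith)]; ring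
  have hua : u = a * a := by rw [hadef, Real.mul_self_sqrt hu.le]
  have e1 : invGap u = 1 / (a * b * (a + b)) := by
    rw [invGap, ← hadef, ← hbdef]
    field_simp
    linear_combination hsq
  have e2 : gainAt u 1 = -(1 / (a * ((a + b) * (a + b)))) := by
    have hba : b - a = 1 / (a + b) := by
      rw [eq_div_iff (by positivity)]; linear_combination hsq
    have e3 : 2 * (1 / (a + b)) - 1 / a = -((b - a) / (a * (a + b))) := by field_simp; ring
    rw [gainAt, ← hbdef, ← hadef, show 2 * b - 2 * a = 2 * (b - a) by ring, hba, e3, hba]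
    field_simp
  refine ⟨by rw [e1]; positivity, ?_, ?_, ?_, ?_⟩
  · rw [invGap, ← hadef, ← hbdef]; linarith [inv_pos.2 hb]
  · rw [e1, hua, one_div]
    refine inv_anti₀ (by positivity) ?_
    nlinarith [mul_le_mul_of_nonneg_left hab.le (mul_pos ha ha).le, mul_pos (mul_pos ha ha) ha]
  · rw [e2, abs_neg, abs_of_pos (by positivity), one_div]
    refine inv_anti₀ ha (le_mul_of_one_le_right ha.le ?_)
    nlinarith
  · rw [e2, abs_neg, abs_of_pos (by positivity), one_div, hua]
    refine inv_anti₀ (by positivity) ?_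
    nlinarith [mul_pos (mul_pos ha ha) ha, mul_pos (mul_pos ha ha) hb]

lemma continuousOn_invGap : ContinuousOn invGap (Ioi 0) := by
  unfold invGap
  refine ContinuousOn.sub (Real.continuous_sqrt.continuousOn.inv₀ fun u hu => (Real.sqrt_pos.2 hu).ne')
    (((Real.continuous_sqrt.comp (continuous_id.add continuous_const)).continuousOn).inv₀ fun u hu =>
      (Real.sqrt_pos.2 (by simpa using add_pos hu one_pos)).ne')

lemma continuousOn_gainAt (y : ℝ) : ContinuousOn (fun u => gainAt u y) (Ioi 0) := by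
  unfold gainAt
  refine ContinuousOn.sub (by fun_prop) ?_
  exact continuousOn_const.div Real.continuous_sqrt.continuousOn fun u hu => (Real.sqrt_pos.2 hu).ne'

lemma integrableOn_invGap (hν : 0 < ν) (hν1 : ν < 1) :
    IntegrableOn (fun u => u ^ (ν - 1 / 2) * invGap u) (Ioi 0) := by
  refine integrableOn_weight hν hν1 continuousOn_invGap (C := 1) (C' := 1) (fun u hu => ?_) ?_
  · rw [Real.norm_of_nonneg (invGap_bounds hu.1).1.le, one_mul, rpow_neg_half hu.1]
    exact (invGap_bounds hu.1).2.1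
  · filter_upwards [eventually_gt_atTop 0] with u hu
    rw [Real.norm_of_nonneg (invGap_bounds hu).1.le, one_mul, rpow_neg_three_halves hu]
    exact (invGap_bounds hu).2.2.1

lemma integrableOn_gain_one (hν : 0 < ν) (hν1 : ν < 1) :
    IntegrableOn (fun u => u ^ (ν - 1 / 2) * gainAt u 1) (Ioi 0) := by
  refine integrableOn_weight hν hν1 (continuousOn_gainAt 1) (C := 1) (C' := 1) (fun u hu => ?_) ?_
  · rw [Real.norm_eq_abs, one_mul, rpow_neg_half hu.1]
    exact (invGap_bounds hu.1).2.2.2.1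
  · filter_upwards [eventually_gt_atTop 0] with u hu
    rw [Real.norm_eq_abs, one_mul, rpow_neg_three_halves hu]
    exact (invGap_bounds hu).2.2.2.2

lemma scal_pos (hν : 0 < ν) (hν1 : ν < 1) : 0 < scal ν := by
  rw [scal, setIntegral_pos_iff_support_of_nonneg_ae
    ((ae_restrict_mem measurableSet_Ioi).mono fun u hu =>
      (mul_pos (Real.rpow_pos_of_pos hu _) (invGap_bounds hu).1).le) (integrableOn_invGap hν hν1)]
  refine lt_of_lt_of_le (b := volume (Ioi (0 : ℝ))) (by simp) (measure_mono fun u hu => ⟨?_, hu⟩)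
  exact (mul_pos (Real.rpow_pos_of_pos hu _) (invGap_bounds hu).1).ne'

lemma integral_gain_one (hν : 0 < ν) (hν1 : ν < 1) :
    ∫ u in Ioi (0 : ℝ), u ^ (ν - 1 / 2) * gainAt u 1 = -(scal ν / (ν + 1)) := by
  set F : ℝ → ℝ := fun u => u ^ (ν + 1 / 2) * (2 * Real.sqrt (u + 1) - 2 * Real.sqrt u) - u ^ ν
  have hF : ∀ u, 0 < u → F u = u ^ (ν + 1 / 2) * gainAt u 1 := fun u hu => by
    have e : u ^ ν = u ^ (ν + 1 / 2) * (1 / Real.sqrt u) := by
      rw [one_div (Real.sqrt u), ← rpow_neg_half hu, ← Real.rpow_add hu]; ring_nf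
    simp only [F, gainAt]
    rw [e]; ring
  have hd : ∀ u ∈ Ioi (0 : ℝ), HasDerivAt F
      ((ν + 1) * (u ^ (ν - 1 / 2) * gainAt u 1) + u ^ (ν - 1 / 2) * invGap u) u := fun u hu => by
    have hu' : (0 : ℝ) < u := hu
    have hs1 : 0 < Real.sqrt u := Real.sqrt_pos.2 hu'
    have hs2 : 0 < Real.sqrt (u + 1) := Real.sqrt_pos.2 (by linarith)
    have h1 := Real.hasDerivAt_rpow_const (p := ν + 1 / 2) (Or.inl hu'.ne')
    have h2 := (((hasDerivAt_id u).add_const 1).sqrt (show u + 1 ≠ 0 by linarith)).const_mul 2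
    have h3 := ((hasDerivAt_id u).sqrt hu'.ne').const_mul 2
    have h4 := Real.hasDerivAt_rpow_const (p := ν) (Or.inl hu'.ne')
    refine ((h1.mul (h2.sub h3)).sub h4).congr_deriv ?_
    simp only [id_eq, gainAt, invGap]
    have e1 : u ^ (ν + 1 / 2) = u ^ (ν - 1 / 2) * u := by
      rw [← Real.rpow_add_one hu'.ne']; ring_nf
    have e2 : u ^ (ν - 1) = u ^ (ν - 1 / 2) * (Real.sqrt u)⁻¹ := by
      rw [← rpow_neg_half hu', ← Real.rpow_add hu']; ring_nf
    rw [show ν + 1 / 2 - 1 = ν - 1 / 2 by ring, e1, e2]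
    have hq := Real.mul_self_sqrt (show (0 : ℝ) ≤ u + 1 by linarith)
    have hp := Real.mul_self_sqrt hu'.le
    simp only [one_div]
    simp only [Pi.sub_apply]
    field_simp
    linear_combination (Real.sqrt (u + 1)) * hp + (-Real.sqrt u) * hq
  have hi : IntegrableOn (fun u => (ν + 1) * (u ^ (ν - 1 / 2) * gainAt u 1) + u ^ (ν - 1 / 2) * invGap u)
      (Ioi 0) := ((integrableOn_gain_one hν hν1).const_mul _).add (integrableOn_invGap hν hν1)
  have hlim : Tendsto F atTop (𝓝 0) := by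
    refine squeeze_zero_norm' ?_ (tendsto_rpow_neg_atTop (show (0 : ℝ) < 1 - ν by linarith))
    filter_upwards [eventually_gt_atTop 0] with u hu
    rw [hF u hu, norm_mul, Real.norm_of_nonneg (Real.rpow_nonneg hu.le _), Real.norm_eq_abs]
    refine (mul_le_mul_of_nonneg_left (invGap_bounds hu).2.2.2.2 (Real.rpow_nonneg hu.le _)).trans (le_of_eq ?_)
    rw [← rpow_neg_three_halves hu, ← Real.rpow_add hu]
    ring_nf
  have hc : ContinuousWithinAt F (Ici 0) 0 := by
    refine ContinuousAt.continuousWithinAt ?_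
    exact ((Real.continuousAt_rpow_const _ _ (Or.inr (by linarith))).mul (by fun_prop)).sub
      (Real.continuousAt_rpow_const _ _ (Or.inr hν.le))
  have h := integral_Ioi_of_hasDerivAt_of_tendsto hc hd hi hlim
  rw [integral_add ((integrableOn_gain_one hν hν1).const_mul _) (integrableOn_invGap hν hν1),
    integral_const_mul] at h
  have hF0 : F 0 = 0 := by
    simp only [F]
    rw [Real.zero_rpow (by linarith), Real.zero_rpow hν.ne']; ring
  rw [hF0, sub_zero] at h
  rw [scal, neg_div' , eq_div_iff (by linarith)]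
  linarith

/-- The integral of the gain at an eigenvalue. -/
theorem integral_gainAt (hν : 0 < ν) (hν1 : ν < 1) {y : ℝ} (hy : 0 ≤ y) :
    IntegrableOn (fun u => u ^ (ν - 1 / 2) * gainAt u y) (Ioi 0) ∧
      ∫ u in Ioi (0 : ℝ), u ^ (ν - 1 / 2) * gainAt u y = -(y ^ (1 + ν) * scal ν / (ν + 1)) := by
  rcases hy.eq_or_lt with rfl | hy
  · have e : (fun u : ℝ => u ^ (ν - 1 / 2) * gainAt u 0) = fun _ => 0 := funext fun u => by simp [gainAt]
    rw [e, Real.zero_rpow (by linarith)]
    simp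
  set g : ℝ → ℝ := fun u => u ^ (ν - 1 / 2) * gainAt u y
  have e : EqOn (fun v => g (y * v)) (fun v => y ^ ν * (v ^ (ν - 1 / 2) * gainAt v 1)) (Ioi 0) := fun v hv => by
    have hv' : (0 : ℝ) < v := hv
    simp only [g, gainAt]
    have hs : 0 < Real.sqrt y := Real.sqrt_pos.2 hy
    rw [Real.mul_rpow hy.le hv'.le, show y * v + y = y * (v + 1) by ring, Real.sqrt_mul hy.le,
      Real.sqrt_mul hy.le, show y ^ ν = y ^ (ν - 1 / 2) * Real.sqrt y by
        rw [Real.sqrt_eq_rpow, ← Real.rpow_add hy]; ring_nf]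
    have hv0 : 0 < Real.sqrt v := Real.sqrt_pos.2 hv'
    field_simp
    linear_combination Real.mul_self_sqrt hy.le
  have hint : IntegrableOn (fun v => g (y * v)) (Ioi 0) :=
    IntegrableOn.congr_fun ((integrableOn_gain_one hν hν1).const_mul (y ^ ν) :
      IntegrableOn (fun v => y ^ ν * (v ^ (ν - 1 / 2) * gainAt v 1)) (Ioi 0) volume) e.symm measurableSet_Ioi
  have h1 := integrableOn_Ioi_comp_mul_left_iff g 0 hy
  rw [mul_zero] at h1
  refine ⟨h1.1 hint, ?_⟩
  have h2 := integral_comp_mul_left_Ioi g 0 hy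
  rw [mul_zero, setIntegral_congr_fun measurableSet_Ioi e, integral_const_mul, integral_gain_one hν hν1,
    smul_eq_mul] at h2
  rw [Real.rpow_add hy, Real.rpow_one]
  field_simp at h2
  field_simp
  linarith

end Vale.Agent.P371.Pencil
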