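import Vale.Agent.P371.Pencil.Calc
import Vale.Agent.P371.Pencil.Scalar

/-!
P371, pencils: the dual inequality between the fractional weight and the sum of eigenvalue powers.
-/

namespace Vale.Agent.P371.Pencil

open Matrix Complex MeasureTheory Filter Set
open scoped ComplexOrder Matrix.Norms.L2Operator Topology

variable {n : Type} [Fintype n] [DecidableEq n] {B E : Matrix n n ℂ} {ν : ℝ}

/-- The integrand of the fractional weight. -/
noncomputable def kern (ν : ℝ) (B E : Matrix n n ℂ) (u : ℝ) : Matrix n n ℂ :=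
  u ^ (ν - 1 / 2) • (((Real.sqrt u)⁻¹ : ℂ) • (1 : Matrix n n ℂ) - wgt B E u)

/-- The fractional weight of a pencil. -/
noncomputable def Xi (ν : ℝ) (B E : Matrix n n ℂ) : Matrix n n ℂ :=
  (scal ν)⁻¹ • ∫ u in Ioi (0 : ℝ), kern ν B E u

lemma continuousOn_wgt_diff (h : Dom B E) :
    ContinuousOn (fun u => ((Real.sqrt u)⁻¹ : ℂ) • (1 : Matrix n n ℂ) - wgt B E u) (Ioi 0) := by
  intro u hu
  have hu' : (0 : ℝ) < u := hu
  have h1 : ContinuousAt (fun u : ℝ => ((Real.sqrt u)⁻¹ : ℂ)) u :=
    ((Complex.continuous_ofReal.comp Real.continuous_sqrt).continuousAt).inv₀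
      (Complex.ofReal_ne_zero.2 (Real.sqrt_pos.2 hu').ne')
  exact ((h1.smul continuousAt_const).sub (continuousAt_wgt h hu'.le)).continuousWithinAt

lemma integrableOn_kern (h : Dom B E) (hν : 0 < ν) (hν1 : ν < 1) :
    IntegrableOn (kern ν B E) (Ioi 0) := by
  obtain ⟨C, hC⟩ := (isCompact_Icc (a := (0 : ℝ)) (b := 1)).exists_bound_of_continuousOn
    (fun u hu => (continuousAt_wgt h hu.1).continuousWithinAt : ContinuousOn (wgt B E) (Icc 0 1))
  refine integrableOn_weight hν hν1 (continuousOn_wgt_diff h) (C := ‖(1 : Matrix n n ℂ)‖ + C)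
    (C' := 2 * ‖E - B * B‖) (fun u hu => ?_) ?_
  · have hC' := hC u ⟨hu.1.le, hu.2⟩
    have h1 : 1 ≤ (Real.sqrt u)⁻¹ := (one_le_inv₀ (Real.sqrt_pos.2 hu.1)).2 (Real.sqrt_le_one.2 hu.2)
    refine (norm_sub_le _ _).trans ?_
    rw [norm_smul, norm_inv, Complex.norm_real, Real.norm_of_nonneg (Real.sqrt_nonneg u),
      rpow_neg_half hu.1, add_mul, mul_comm]
    exact add_le_add le_rfl (hC'.trans (le_mul_of_one_le_right ((norm_nonneg _).trans hC') h1))
  · filter_upwards [eventually_wgt_near h, eventually_gt_atTop 0] with u hu hu0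
    rw [norm_sub_rev, rpow_neg_three_halves hu0, ← div_eq_mul_inv]
    exact hu

/-- Pairing with a fixed matrix. -/
noncomputable def pairing (X : Matrix n n ℂ) : Matrix n n ℂ →L[ℝ] ℝ :=
  Complex.reCLM.comp (LinearMap.toContinuousLinearMap
    ((Matrix.traceLinearMap n ℂ ℂ ∘ₗ LinearMap.mulRight ℂ X).restrictScalars ℝ))

lemma pairing_apply (X Z : Matrix n n ℂ) : pairing X Z = (Z * X).trace.re := rfl

/-- The pairing integrand. -/
noncomputable def pairInt (ν : ℝ) (B E X : Matrix n n ℂ) (u : ℝ) : ℝ :=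
  u ^ (ν - 1 / 2) * (X.trace.re / Real.sqrt u - (wgt B E u * X).trace.re)

lemma pairing_kern (X : Matrix n n ℂ) (u : ℝ) : pairing X (kern ν B E u) = pairInt ν B E X u := by
  rw [kern, map_smul, pairing_apply, pairInt, smul_eq_mul]
  congr 1
  rw [Matrix.sub_mul, Matrix.smul_mul, one_mul, Matrix.trace_sub, Matrix.trace_smul, smul_eq_mul,
    ← Complex.ofReal_inv, Complex.sub_re, Complex.re_ofReal_mul, ← div_eq_inv_mul]

lemma integrableOn_pairInt (h : Dom B E) (hν : 0 < ν) (hν1 : ν < 1) (X : Matrix n n ℂ) :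
    IntegrableOn (pairInt ν B E X) (Ioi 0) := by
  have := (pairing X).integrable_comp (integrableOn_kern h hν hν1)
  simp only [pairing_kern] at this
  exact this

lemma trace_Xi_mul (h : Dom B E) (hν : 0 < ν) (hν1 : ν < 1) (X : Matrix n n ℂ) :
    (Xi ν B E * X).trace.re = (scal ν)⁻¹ * ∫ u in Ioi (0 : ℝ), pairInt ν B E X u := by
  rw [← pairing_apply, Xi, map_smul, smul_eq_mul,
    ← (pairing X).integral_comp_comm (integrableOn_kern h hν hν1)]
  simp only [pairing_kern]

omit [DecidableEq n] in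
lemma trace_re_sq_le {K : Matrix n n ℂ} (hK : K.IsHermitian) :
    (K.trace.re) ^ 2 ≤ (Fintype.card n : ℝ) * (K * K).trace.re := by
  classical
  rcases isEmpty_or_nonempty n with hn | hn
  · simp [Matrix.trace]
  have hc : (0 : ℝ) < Fintype.card n := by exact_mod_cast Fintype.card_pos
  set s : ℝ := K.trace.re / Fintype.card n with hs
  have hH : (K - (s : ℂ) • 1).IsHermitian := by
    refine hK.sub ?_
    show _ = _
    rw [conjTranspose_smul, conjTranspose_one, Complex.star_def, Complex.conj_ofReal]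
  have h0 : 0 ≤ ((K - (s : ℂ) • 1)ᴴ * (K - (s : ℂ) • 1)).trace :=
    (Matrix.posSemidef_conjTranspose_mul_self _).trace_nonneg
  rw [hH.eq] at h0
  obtain ⟨h1, -⟩ := Complex.nonneg_iff.1 h0
  simp only [Matrix.sub_mul, Matrix.mul_sub, Matrix.smul_mul, Matrix.mul_smul, one_mul, mul_one, smul_sub,
    smul_smul, Matrix.trace_sub, Matrix.trace_smul, Matrix.trace_one, smul_eq_mul, Complex.sub_re,
    Complex.mul_re, Complex.ofReal_re, Complex.ofReal_im, Complex.natCast_re, Complex.natCast_im,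
    Complex.mul_im, mul_zero, zero_mul, sub_zero, add_zero] at h1
  have e : s * (Fintype.card n : ℝ) = K.trace.re := div_mul_cancel₀ _ hc.ne'
  nlinarith

lemma imTr_eq (u : ℝ) : imTr B E u = (imA (rootAt B E u)).trace.re := (imA_trace _).symm

lemma trace_imA_sq (h : Dom B E) {u : ℝ} (hu : 0 ≤ u) :
    (imA (rootAt B E u) * imA (rootAt B E u)).trace.re = (E - B * B).trace.re + (Fintype.card n : ℝ) * u := by
  have e := congrArg (fun X => (Matrix.trace X).re) (excess_rootAt h hu).2
  simp only [Matrix.trace_add, Matrix.trace_smul, Matrix.trace_sub,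
    Matrix.trace_mul_comm B (imA (rootAt B E u)), sub_self, smul_eq_mul, mul_zero, add_zero,
    Matrix.trace_one, Complex.add_re, Complex.re_ofReal_mul, Complex.natCast_re] at e
  rw [e, Matrix.trace_sub, mul_comm]

lemma imTr_le (h : Dom B E) {u : ℝ} (hu : 0 < u) :
    imTr B E u ≤ (Fintype.card n : ℝ) * Real.sqrt u + (E - B * B).trace.re / (2 * Real.sqrt u) := by
  have hq : 0 < Real.sqrt u := Real.sqrt_pos.2 hu
  have hq2 := Real.mul_self_sqrt hu.le
  have h1 := trace_re_sq_le (isHermitian_imA (A := rootAt B E u))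
  have h2 : 0 ≤ (imA (rootAt B E u) * imA (rootAt B E u)).trace.re := by
    have := (Matrix.posSemidef_conjTranspose_mul_self (imA (rootAt B E u))).trace_nonneg
    rw [isHermitian_imA.eq] at this
    exact (Complex.nonneg_iff.1 this).1
  rw [trace_imA_sq h hu.le] at h1 h2
  rw [← imTr_eq] at h1
  set q := Real.sqrt u
  set t := (E - B * B).trace.re
  set c := (Fintype.card n : ℝ)
  have hc : 0 ≤ c := Nat.cast_nonneg _
  rw [show c * q + t / (2 * q) = (2 * (c * u) + t) / (2 * q) by rw [← hq2]; field_simp,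
    le_div_iff₀ (by positivity)]
  have hn : 0 ≤ 2 * (c * u) + t := by nlinarith [mul_nonneg hc hu.le]
  refine (le_abs_self _).trans (abs_le_of_sq_le_sq ?_ hn)
  calc (imTr B E u * (2 * q)) ^ 2 = imTr B E u ^ 2 * (4 * u) := by rw [← hq2]; ring
    _ ≤ c * (t + c * u) * (4 * u) := mul_le_mul_of_nonneg_right h1 (by linarith)
    _ ≤ _ := by nlinarith [sq_nonneg t]

/-- The dual inequality for the fractional weight. -/
theorem key_ineq (h : Dom B E) (hν : 0 < ν) (hν1 : ν < 1) {Y : Matrix n n ℂ} (hY : Y.PosSemidef) :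
    (1 + 1 / ν) * (Xi ν B E * Y).trace.re - 1 / ν * ∑ k, hY.1.eigenvalues k ^ (1 + ν) ≤
      (Xi ν B E * (E - B * B)).trace.re := by
  set M := E - B * B
  set y := hY.1.eigenvalues
  set f := pairInt ν B E M
  set g : ℝ → ℝ := fun u => (∑ k, u ^ (ν - 1 / 2) * gainAt u (y k)) + pairInt ν B E Y u
  have hy0 : ∀ k, 0 ≤ y k := hY.eigenvalues_nonneg
  have hgi : ∀ k, IntegrableOn (fun u => u ^ (ν - 1 / 2) * gainAt u (y k)) (Ioi 0) := fun k =>
    (integral_gainAt hν hν1 (hy0 k)).1
  have hg : IntegrableOn g (Ioi 0) :=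
    (integrable_finsetSum Finset.univ fun k _ => hgi k).add (integrableOn_pairInt h hν hν1 Y)
  have hfi := integrableOn_pairInt h hν hν1 M
  have hφ : IntegrableOn (fun u => (1 + 1 / ν) * g u - f u) (Ioi 0) := (hg.const_mul _).sub hfi
  set G : ℝ → ℝ := fun u => 2 / ν * (u ^ (ν + 1 / 2) * (imTr B E u - (Fintype.card n : ℝ) * Real.sqrt u))
    - 1 / ν * (u ^ ν * M.trace.re)
  have hfin : ∀ U, 0 < U → ∫ u in (0 : ℝ)..U, ((1 + 1 / ν) * g u - f u) ≤ 0 := fun U hU => by
    have hc : ContinuousOn G (Icc 0 U) := by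
      intro u hu
      refine ContinuousAt.continuousWithinAt ?_
      exact (continuousAt_const.mul ((Real.continuousAt_rpow_const _ _ (Or.inr (by linarith))).mul
        ((hasDerivAt_imTr h hu.1).continuousAt.sub (continuousAt_const.mul Real.continuous_sqrt.continuousAt)))).sub
        (continuousAt_const.mul ((Real.continuousAt_rpow_const _ _ (Or.inr hν.le)).mul continuousAt_const))
    have hd : ∀ u ∈ Ioo 0 U, HasDerivWithinAt G
        (u ^ (ν - 1 / 2) * ((2 + 1 / ν) * (imTr B E u - (Fintype.card n : ℝ) * Real.sqrt u)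
          + u / ν * ((wgt B E u).trace.re - (Fintype.card n : ℝ) / Real.sqrt u) - M.trace.re / Real.sqrt u))
        (Ioi u) u := fun u hu => by
      have hu0 : 0 < u := hu.1
      have hq : 0 < Real.sqrt u := Real.sqrt_pos.2 hu0
      have d1 := Real.hasDerivAt_rpow_const (p := ν + 1 / 2) (Or.inl hu0.ne')
      have d2 := (hasDerivAt_imTr h hu0.le).sub
        (((hasDerivAt_id u).sqrt hu0.ne').const_mul (Fintype.card n : ℝ))
      have d3 := (Real.hasDerivAt_rpow_const (p := ν) (Or.inl hu0.ne')).mul_const M.trace.re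
      refine HasDerivAt.hasDerivWithinAt ?_
      refine (((d1.mul d2).const_mul (2 / ν)).sub (d3.const_mul (1 / ν))).congr_deriv ?_
      have e1 : u ^ (ν + 1 / 2) = u ^ (ν - 1 / 2) * u := by
        rw [← Real.rpow_add_one hu0.ne']; ring_nf
      have e2 : u ^ (ν - 1) = u ^ (ν - 1 / 2) * (Real.sqrt u)⁻¹ := by
        rw [← rpow_neg_half hu0, ← Real.rpow_add hu0]; ring_nf
      simp only [Pi.sub_apply, id_eq]
      rw [show ν + 1 / 2 - 1 = ν - 1 / 2 by ring, e1, e2]
      field_simp
    have hle : ∀ u ∈ Ioo 0 U, (1 + 1 / ν) * g u - f u ≤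
        u ^ (ν - 1 / 2) * ((2 + 1 / ν) * (imTr B E u - (Fintype.card n : ℝ) * Real.sqrt u)
          + u / ν * ((wgt B E u).trace.re - (Fintype.card n : ℝ) / Real.sqrt u) - M.trace.re / Real.sqrt u) :=
      fun u hu => by
      have hu0 : 0 < u := hu.1
      obtain ⟨hW, e⟩ := wgt_spec h hu0.le
      have hp := Real.rpow_nonneg hu0.le (ν - 1 / 2)
      have p1 := pointwise_gain hW e hu0.le hY
      rw [← imTr_eq] at p1
      have p2 := trace_mul_excess_le hW e
      rw [(excess_rootAt h hu0.le).1, (rootAt_spec h hu0.le).2.2, shiftE,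
        show E + (u : ℂ) • (1 : Matrix n n ℂ) - B * B = M + (u : ℂ) • 1 by simp only [M]; abel,
        Matrix.mul_add, Matrix.trace_add, Matrix.mul_smul, mul_one, Matrix.trace_smul, smul_eq_mul,
        Complex.add_re, Complex.re_ofReal_mul, ← imTr_eq] at p2
      have hr : 0 ≤ 1 + 1 / ν := by positivity
      have h1 := mul_le_mul_of_nonneg_left (mul_le_mul_of_nonneg_left p1 hp) hr
      have h2 := mul_le_mul_of_nonneg_left p2 hp
      simp only [g, f, pairInt, ← Finset.mul_sum, ← mul_add]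
      have e3 : (Fintype.card n : ℝ) / Real.sqrt u * u = (Fintype.card n : ℝ) * Real.sqrt u := by
        rw [div_mul_eq_mul_div, mul_div_assoc, Real.div_sqrt]
      have e4 : u / ν * ((Fintype.card n : ℝ) / Real.sqrt u) = 1 / ν * ((Fintype.card n : ℝ) * Real.sqrt u) := by
        rw [← e3]; ring
      rw [mul_sub (u / ν), e4]
      ring_nf at h1 h2 ⊢
      linarith
    have hI : IntegrableOn (fun u => (1 + 1 / ν) * g u - f u) (Icc 0 U) :=
      (integrableOn_Icc_iff_integrableOn_Ioc (by simp)).2 (hφ.mono_set Ioc_subset_Ioi_self)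
    refine (intervalIntegral.integral_le_sub_of_hasDeriv_right_of_le hU.le hc hd hI hle).trans ?_
    have hG0 : G 0 = 0 := by
      simp only [G]
      rw [Real.zero_rpow (by linarith), Real.zero_rpow hν.ne']
      ring
    rw [hG0, sub_zero]
    have hq : 0 < Real.sqrt U := Real.sqrt_pos.2 hU
    have hb := imTr_le h hU
    have e1 : U ^ (ν + 1 / 2) = U ^ ν * Real.sqrt U := by
      rw [Real.sqrt_eq_rpow, ← Real.rpow_add hU]
    simp only [G, e1]
    have h3 : Real.sqrt U * (imTr B E U - (Fintype.card n : ℝ) * Real.sqrt U) ≤ M.trace.re / 2 := by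
      refine (mul_le_mul_of_nonneg_left (sub_le_iff_le_add'.2 hb) hq.le).trans (le_of_eq ?_)
      field_simp
      rfl
    have h4 := mul_le_mul_of_nonneg_left h3 (mul_nonneg (show 0 ≤ 2 / ν by positivity) (Real.rpow_nonneg hU.le ν))
    ring_nf at h4 ⊢
    linarith
  have hlim := intervalIntegral_tendsto_integral_Ioi 0 hφ tendsto_id
  have hmain : ∫ u in Ioi (0 : ℝ), ((1 + 1 / ν) * g u - f u) ≤ 0 :=
    le_of_tendsto hlim ((eventually_gt_atTop 0).mono hfin)
  rw [integral_sub (hg.const_mul _) hfi, integral_const_mul,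
    integral_add (integrable_finsetSum Finset.univ fun k _ => hgi k) (integrableOn_pairInt h hν hν1 Y),
    integral_finsetSum Finset.univ (fun k _ => hgi k),
    Finset.sum_congr rfl fun k _ => (integral_gainAt hν hν1 (hy0 k)).2] at hmain
  rw [Finset.sum_neg_distrib, ← Finset.sum_div, ← Finset.sum_mul] at hmain
  have hs := scal_pos hν hν1
  rw [trace_Xi_mul h hν hν1, trace_Xi_mul h hν hν1]
  have h5 := mul_le_mul_of_nonneg_left hmain (inv_pos.2 hs).le
  have e5 : (scal ν)⁻¹ * ((1 + 1 / ν) * ((∑ k, y k ^ (1 + ν)) * scal ν / (ν + 1))) =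
      1 / ν * ∑ k, y k ^ (1 + ν) := by
    field_simp
  linarith

lemma sum_eigenvalues_smul {V : Matrix n n ℂ} (hV : V.IsHermitian) (c : ℝ)
    (h : ((c : ℂ) • V).IsHermitian) (f : ℝ → ℝ) :
    ∑ k, f (h.eigenvalues k) = ∑ k, f (c * hV.eigenvalues k) := by
  set U : Matrix n n ℂ := (hV.eigenvectorUnitary : Matrix n n ℂ)
  have u1 : Uᴴ * U = 1 := Unitary.coe_star_mul_self _
  have eV : V = U * diagonal (fun i => (hV.eigenvalues i : ℂ)) * Uᴴ := by
    conv_lhs => rw [hV.spectral_theorem]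
    rfl
  have hcp : ((c : ℂ) • V).charpoly = (diagonal fun i => ((c * hV.eigenvalues i : ℝ) : ℂ)).charpoly := by
    conv_lhs => rw [eV]
    rw [← Matrix.smul_mul, ← Matrix.mul_smul, Matrix.charpoly_mul_comm, ← Matrix.mul_assoc, u1, one_mul,
      ← diagonal_smul]
    congr
    funext i
    simp
  have hr := h.roots_charpoly_eq_eigenvalues
  rw [hcp, Matrix.charpoly_diagonal, Finset.prod, ← Function.comp_def (fun a => Polynomial.X - Polynomial.C a) (fun i => ((c * hV.eigenvalues i : ℝ) : ℂ)), ← Multiset.map_map, Polynomial.roots_multiset_prod_X_sub_C] at hr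
  have := congrArg (fun m : Multiset ℂ => (m.map fun z => f z.re).sum) hr
  simp only [Multiset.map_map, Function.comp_def] at this
  exact this.symm

/-- The inequality with the sharp constant. -/
theorem key_ineq' (h : Dom B E) (hν : 0 < ν) (hν1 : ν < 1) {V : Matrix n n ℂ} (hV : V.PosSemidef) :
    (Xi ν B E * (V - (E - B * B))).trace.re ≤
      ν ^ ν / (ν + 1) ^ (ν + 1) * ∑ k, hV.1.eigenvalues k ^ (1 + ν) := by
  set κ : ℝ := ν / (ν + 1)
  have hκ : 0 < κ := by positivity
  have hY : ((κ : ℂ) • V).PosSemidef := hV.smul (Complex.zero_le_real.2 hκ.le)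
  have h1 := key_ineq h hν hν1 hY
  rw [sum_eigenvalues_smul hV.1 κ hY.1 (fun x => x ^ (1 + ν)), Matrix.mul_smul, Matrix.trace_smul,
    smul_eq_mul, Complex.re_ofReal_mul, ← mul_assoc, show (1 + 1 / ν) * κ = 1 by
      simp only [κ]; field_simp, one_mul] at h1
  rw [Matrix.mul_sub, Matrix.trace_sub, Complex.sub_re]
  have e : 1 / ν * ∑ k, (κ * hV.1.eigenvalues k) ^ (1 + ν) =
      ν ^ ν / (ν + 1) ^ (ν + 1) * ∑ k, hV.1.eigenvalues k ^ (1 + ν) := by
    rw [Finset.sum_congr rfl fun k _ => Real.mul_rpow hκ.le (hV.eigenvalues_nonneg k), ← Finset.mul_sum,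
      ← mul_assoc]
    congr 1
    rw [Real.div_rpow hν.le (by positivity), Real.rpow_add hν, Real.rpow_one, add_comm 1 ν]
    field_simp
  linarith

end Vale.Agent.P371.Pencil
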