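import Vale.Agent.P371.Pencil.Stable

/-!
P371, pencils: stable matrices form an open set, their Lyapunov solutions vary continuously, and
the coefficient map is open on them.
-/

namespace Vale.Agent.P371.Pencil

open Matrix Complex Filter
open scoped ComplexOrder Matrix.Norms.L2Operator Topology

variable {n : Type} [Fintype n] [DecidableEq n]

lemma continuous_quad (v : n → ℂ) : Continuous fun X : Matrix n n ℂ => (star v ⬝ᵥ (X *ᵥ v)).re := by
  refine continuous_re.comp (continuous_const.dotProduct (Continuous.matrix_mulVec ?_ continuous_const))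
  exact continuous_id

lemma isHermitian_quad_im {X : Matrix n n ℂ} (h : X.IsHermitian) (v : n → ℂ) :
    (star v ⬝ᵥ (X *ᵥ v)).im = 0 := h.im_star_dotProduct_mulVec_self v

/-- Positivity is open among Hermitian matrices. -/
lemma eventually_posDef {W : Matrix n n ℂ} (hW : W.PosDef) :
    ∀ᶠ X in 𝓝 W, X.IsHermitian → X.PosDef := by
  set K : Set (n → ℂ) := Metric.sphere 0 1
  have hK : IsCompact K := isCompact_sphere _ _
  have hc : Continuous fun p : Matrix n n ℂ × (n → ℂ) => (star p.2 ⬝ᵥ (p.1 *ᵥ p.2)).re :=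
    continuous_re.comp ((continuous_star.comp continuous_snd).dotProduct
      (Continuous.matrix_mulVec continuous_fst continuous_snd))
  have h : ∀ᶠ X in 𝓝 W, ∀ v ∈ K, 0 < (star v ⬝ᵥ (X *ᵥ v)).re := by
    refine hK.eventually_forall_of_forall_eventually fun v hv => ?_
    refine hc.continuousAt.eventually (lt_mem_nhds (α := ℝ) ?_)
    have hv0 : v ≠ 0 := by
      intro h; simp [K, h] at hv
    exact (Complex.pos_iff.1 (hW.dotProduct_mulVec_pos hv0)).1
  filter_upwards [h] with X hX hH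
  refine Matrix.PosDef.of_dotProduct_mulVec_pos hH fun v hv => ?_
  have hn : 0 < ‖v‖ := norm_pos_iff.2 hv
  have h1 := hX ((‖v‖⁻¹ : ℂ) • v) (by
    simp only [K, mem_sphere_zero_iff_norm, norm_smul, norm_inv, Complex.norm_real, norm_norm]
    exact inv_mul_cancel₀ hn.ne')
  have e : (star ((‖v‖⁻¹ : ℂ) • v) ⬝ᵥ (X *ᵥ ((‖v‖⁻¹ : ℂ) • v))).re =
      ‖v‖⁻¹ ^ 2 * (star v ⬝ᵥ (X *ᵥ v)).re := by
    rw [star_smul, Matrix.mulVec_smul, smul_dotProduct, dotProduct_smul, smul_smul, smul_eq_mul,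
      star_inv₀, Complex.star_def, Complex.conj_ofReal, ← Complex.ofReal_inv, ← Complex.ofReal_mul,
      Complex.re_ofReal_mul, sq]
  rw [e] at h1
  exact Complex.pos_iff.2 ⟨(mul_pos_iff_of_pos_left (by positivity)).1 h1,
    (isHermitian_quad_im hH v).symm⟩

/-- The Lyapunov operator as a continuous linear map. -/
noncomputable def lyapL (A : Matrix n n ℂ) : Matrix n n ℂ →L[ℂ] Matrix n n ℂ :=
  ContinuousLinearMap.mul ℂ (Matrix n n ℂ) A - (ContinuousLinearMap.mul ℂ (Matrix n n ℂ)).flip Aᴴ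

lemma lyapL_apply (A X : Matrix n n ℂ) : lyapL A X = lyap A X := rfl

lemma continuous_lyapL : Continuous (lyapL (n := n)) := by
  unfold lyapL
  exact ((ContinuousLinearMap.mul ℂ (Matrix n n ℂ)).continuous).sub
    ((ContinuousLinearMap.mul ℂ (Matrix n n ℂ)).flip.continuous.comp continuous_star)

lemma Stable.isUnit_lyapL {A : Matrix n n ℂ} (h : Stable A) : IsUnit (lyapL A) := by
  have hinj : Function.Injective (lyapL A : Matrix n n ℂ →ₗ[ℂ] Matrix n n ℂ) := fun X X' e =>
    h.lyap_inj e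
  set e := (LinearEquiv.ofInjectiveEndo _ hinj).toContinuousLinearEquiv
  refine ⟨⟨lyapL A, (e.symm : Matrix n n ℂ →L[ℂ] Matrix n n ℂ), ?_, ?_⟩, rfl⟩
  · refine ContinuousLinearMap.ext fun X => ?_
    exact e.apply_symm_apply X
  · refine ContinuousLinearMap.ext fun X => ?_
    exact e.symm_apply_apply X

/-- The solution of the Lyapunov equation where it is unique. -/
noncomputable def lyapSol (A : Matrix n n ℂ) : Matrix n n ℂ := Ring.inverse (lyapL A) ((2 * I) • 1)

lemma lyapSol_spec {A : Matrix n n ℂ} (h : IsUnit (lyapL A)) : lyap A (lyapSol A) = (2 * I) • 1 := by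
  rw [← lyapL_apply, lyapSol, ← mul_apply_eq_comp, Ring.mul_inverse_cancel _ h]
  rfl

lemma lyap_conjTranspose {A X : Matrix n n ℂ} (e : lyap A X = (2 * I) • 1) :
    lyap A Xᴴ = (2 * I) • 1 := by
  have h := congrArg conjTranspose e
  simp only [lyap, conjTranspose_sub, conjTranspose_mul, conjTranspose_conjTranspose,
    conjTranspose_smul, conjTranspose_one, star_mul', Complex.star_def, conj_I, map_ofNat] at h
  rw [lyap, ← neg_sub, h, mul_neg, neg_smul, neg_neg]

lemma Stable.lyapSol_posDef {A : Matrix n n ℂ} (h : Stable A) : (lyapSol A).PosDef := by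
  obtain ⟨W, hW, e⟩ := id h
  rwa [h.lyap_inj ((lyapSol_spec h.isUnit_lyapL).trans e.symm)]

lemma continuousAt_lyapSol {A : Matrix n n ℂ} (h : IsUnit (lyapL A)) : ContinuousAt lyapSol A := by
  obtain ⟨u, hu⟩ := h
  have hi : ContinuousAt (Ring.inverse (M₀ := Matrix n n ℂ →L[ℂ] Matrix n n ℂ)) (lyapL A) := by
    rw [← hu]; exact NormedRing.inverse_continuousAt (R := Matrix n n ℂ →L[ℂ] Matrix n n ℂ) u
  have h1 : ContinuousAt (fun A => Ring.inverse (lyapL A)) A :=
    ContinuousAt.comp hi continuous_lyapL.continuousAt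
  exact h1.clm_apply continuousAt_const

lemma isOpen_stable : IsOpen {A : Matrix n n ℂ | Stable A} := by
  refine isOpen_iff_mem_nhds.2 fun A hA => ?_
  have h1 : ∀ᶠ A' in 𝓝 A, IsUnit (lyapL A') :=
    continuous_lyapL.continuousAt.eventually
      ((Units.isOpen (R := Matrix n n ℂ →L[ℂ] Matrix n n ℂ)).mem_nhds hA.isUnit_lyapL)
  have h2 : ∀ᶠ A' in 𝓝 A, (lyapSol A').IsHermitian → (lyapSol A').PosDef :=
    (continuousAt_lyapSol hA.isUnit_lyapL).eventually (eventually_posDef hA.lyapSol_posDef)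
  filter_upwards [h1, h2] with A' hu hp
  have e := lyapSol_spec hu
  have hH : (lyapSol A').IsHermitian := by
    have h3 : lyapL A' (lyapSol A')ᴴ = lyapL A' (lyapSol A') := by
      rw [lyapL_apply, lyapL_apply, e, lyap_conjTranspose e]
    obtain ⟨u, hu'⟩ := hu
    have h4 := congrArg (↑u⁻¹ : Matrix n n ℂ →L[ℂ] Matrix n n ℂ) h3
    rw [← mul_apply_eq_comp, ← mul_apply_eq_comp, ← hu', Units.inv_mul] at h4
    exact h4
  exact ⟨_, hp hH, e⟩

/-- Both coefficients of the pencil of `A` in one matrix. -/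
noncomputable def coeff (A : Matrix n n ℂ) : Matrix n n ℂ := (A + Aᴴ) + I • (Aᴴ * A)

/-- Its derivative. -/
noncomputable def coeffD (A : Matrix n n ℂ) : Matrix n n ℂ →L[ℝ] Matrix n n ℂ :=
  ((ContinuousLinearMap.id ℝ _) + (starL' ℝ : Matrix n n ℂ ≃L[ℝ] Matrix n n ℂ).toContinuousLinearMap) +
    (I : ℂ) • ((ContinuousLinearMap.mul ℝ (Matrix n n ℂ) Aᴴ) +
      ((ContinuousLinearMap.mul ℝ (Matrix n n ℂ)).flip A).comp
        (starL' ℝ : Matrix n n ℂ ≃L[ℝ] Matrix n n ℂ).toContinuousLinearMap)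

lemma coeffD_apply (A H : Matrix n n ℂ) : coeffD A H = (H + Hᴴ) + I • (Aᴴ * H + Hᴴ * A) := rfl

lemma hasStrictFDerivAt_coeff (A : Matrix n n ℂ) : HasStrictFDerivAt coeff (coeffD A) A := by
  set S := (starL' ℝ : Matrix n n ℂ ≃L[ℝ] Matrix n n ℂ).toContinuousLinearMap
  have hs : HasStrictFDerivAt (fun X : Matrix n n ℂ => Xᴴ) S A := S.hasStrictFDerivAt
  have h1 := (hasStrictFDerivAt_id (𝕜 := ℝ) A).add hs
  have h2 := (hs.mul' (hasStrictFDerivAt_id (𝕜 := ℝ) A)).const_smul (I : ℂ)
  refine (h1.add h2).congr_fderiv ?_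
  refine ContinuousLinearMap.ext fun H => ?_
  rfl

omit [DecidableEq n] in
/-- The skew and Hermitian parts separate. -/
lemma herm_add_I_smul_eq {X Y : Matrix n n ℂ} (hX : X.IsHermitian) (hY : Y.IsHermitian)
    (h : X + I • Y = 0) : X = 0 ∧ Y = 0 := by
  have h' := congrArg conjTranspose h
  rw [conjTranspose_add, conjTranspose_smul, hX.eq, hY.eq, conjTranspose_zero, Complex.star_def,
    conj_I, neg_smul] at h'
  have h2 : (2 : ℂ) • X = 0 := by
    rw [two_smul]
    calc X + X = (X + I • Y) + (X + -(I • Y)) := by abel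
      _ = 0 := by rw [h, h', add_zero]
  have hX0 : X = 0 := (smul_eq_zero.1 h2).resolve_left two_ne_zero
  rw [hX0, zero_add] at h
  exact ⟨hX0, (smul_eq_zero.1 h).resolve_left I_ne_zero⟩

lemma Stable.range_coeffD {A : Matrix n n ℂ} (h : Stable A) : (coeffD A).range = ⊤ := by
  refine LinearMap.range_eq_top.2 (LinearMap.injective_iff_surjective.1 ?_)
  refine (injective_iff_map_eq_zero _).2 fun H hH => ?_
  have hH' : (H + Hᴴ) + I • (Aᴴ * H + Hᴴ * A) = 0 := hH
  obtain ⟨h1, h2⟩ := herm_add_I_smul_eq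
    (show (H + Hᴴ).IsHermitian by
      show _ = _; rw [conjTranspose_add, conjTranspose_conjTranspose, add_comm])
    (show (Aᴴ * H + Hᴴ * A).IsHermitian by
      show _ = _
      rw [conjTranspose_add, conjTranspose_mul, conjTranspose_mul, conjTranspose_conjTranspose,
        conjTranspose_conjTranspose, add_comm]) hH'
  rw [eq_neg_of_add_eq_zero_right h1, Matrix.neg_mul, ← sub_eq_add_neg, sub_eq_zero] at h2
  exact eq_zero_of_intertwine h h h2

lemma isOpen_coeff_image : IsOpen (coeff '' {A : Matrix n n ℂ | Stable A}) := by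
  refine isOpen_iff_mem_nhds.2 fun z hz => ?_
  obtain ⟨A, hA, rfl⟩ := hz
  rw [← (hasStrictFDerivAt_coeff A).map_nhds_eq_of_surj hA.range_coeffD]
  exact image_mem_map (isOpen_stable.mem_nhds hA)

end Vale.Agent.P371.Pencil
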