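import Vale.Agent.P371.Pencil.Bounds

/-!
P371, pencils: the potential `Φ`, whose differential is the fractional weight in the linear
coefficient and the fractional multiplier in the constant one.
-/

namespace Vale.Agent.P371.Pencil

open Matrix Complex MeasureTheory Filter Set
open scoped ComplexOrder Matrix.Norms.L2Operator Topology

variable {n : Type} [Fintype n] [DecidableEq n] {z : Matrix n n ℂ} {ν : ℝ}

/-- The integral defining the fractional weight. -/
noncomputable def weightI (ν : ℝ) (z : Matrix n n ℂ) : Matrix n n ℂ :=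
  ∫ u in Ioi (0 : ℝ), u ^ (ν - 1 / 2) • ((Real.sqrt u)⁻¹ • (1 : Matrix n n ℂ) + -wZ (shiftZ z u))

/-- The integral defining the fractional multiplier. -/
noncomputable def multI (ν : ℝ) (z : Matrix n n ℂ) : Matrix n n ℂ :=
  ∫ u in Ioi (0 : ℝ), u ^ (ν - 1 / 2) • (0 + gZ (shiftZ z u))

/-- The fractional weight as a function of the code. -/
noncomputable def XiZ (ν : ℝ) (z : Matrix n n ℂ) : Matrix n n ℂ := (scal ν)⁻¹ • weightI ν z

/-- The fractional multiplier as a function of the code. -/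
noncomputable def GeZ (ν : ℝ) (z : Matrix n n ℂ) : Matrix n n ℂ := (scal ν)⁻¹ • multI ν z

/-- The potential. -/
noncomputable def Phi (ν : ℝ) (z : Matrix n n ℂ) : ℝ :=
  ((XiZ ν z * partB z).trace.re + 2 * (GeZ ν z * partE z).trace.re) / (2 * ν + 1)

/-- The differential of the potential. -/
noncomputable def dPhi (ν : ℝ) (z : Matrix n n ℂ) : Matrix n n ℂ →L[ℝ] ℝ :=
  (pairing (XiZ ν z)).comp partBL + (pairing (GeZ ν z)).comp partEL

lemma dPhi_apply (z k : Matrix n n ℂ) :
    dPhi ν z k = (XiZ ν z * partB k).trace.re + (GeZ ν z * partE k).trace.re := by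
  show (partB k * XiZ ν z).trace.re + (partE k * GeZ ν z).trace.re = _
  rw [Matrix.trace_mul_comm (partB k), Matrix.trace_mul_comm (partE k)]

lemma weightInt_eq (z : Matrix n n ℂ) (u : ℝ) :
    u ^ (ν - 1 / 2) • ((Real.sqrt u)⁻¹ • (1 : Matrix n n ℂ) + -wZ (shiftZ z u)) =
      kern ν (partB z) (partE z) u := by
  rw [kern, wZ_shiftZ, ← sub_eq_add_neg, ← Complex.coe_smul (Real.sqrt u)⁻¹, Complex.ofReal_inv]

lemma XiZ_eq (z : Matrix n n ℂ) : XiZ ν z = Xi ν (partB z) (partE z) := by
  simp only [XiZ, Xi, weightI, weightInt_eq]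

lemma integrableOn_weightInt (hν : 0 < ν) (hν1 : ν < 1) (hz : z ∈ domZ) :
    IntegrableOn (fun u => u ^ (ν - 1 / 2) • ((Real.sqrt u)⁻¹ • (1 : Matrix n n ℂ) + -wZ (shiftZ z u)))
      (Ioi 0) := by
  simp only [weightInt_eq]
  exact integrableOn_kern hz hν hν1

lemma integrableOn_multInt (hν : 0 < ν) (hν1 : ν < 1) (hz : z ∈ domZ) :
    IntegrableOn (fun u => u ^ (ν - 1 / 2) • (0 + gZ (shiftZ z u))) (Ioi 0) := by
  simp only [zero_add]
  have hc : ContinuousOn (fun u => gZ (shiftZ z u)) (Ici 0) :=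
    continuousOn_along hz fun w hw => (contDiffAt_gZ (k := 2) (by norm_num) hw).continuousAt
  obtain ⟨K, hK⟩ := (isCompact_Icc (a := (0 : ℝ)) (b := 1)).exists_bound_of_continuousOn
    (hc.mono Icc_subset_Ici_self)
  obtain ⟨C, hC⟩ := exists_gZ_le (n := n) ‖z‖
  refine integrableOn_weight hν hν1 (hc.mono Ioi_subset_Ici_self) (C := K) (C' := C) (fun u hu => ?_) ?_
  · have hK' := hK u ⟨hu.1.le, hu.2⟩
    rw [rpow_neg_half hu.1]
    exact hK'.trans (le_mul_of_one_le_right ((norm_nonneg _).trans hK')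
      ((one_le_inv₀ (Real.sqrt_pos.2 hu.1)).2 (Real.sqrt_le_one.2 hu.2)))
  · filter_upwards [hC, eventually_gt_atTop 0] with u hu hu0
    rw [rpow_neg_three_halves hu0]
    exact (hu z hz le_rfl).1

lemma hasFDerivAt_weightI (hν : 0 < ν) (hν1 : ν < 1) (hz : z ∈ domZ) :
    HasFDerivAt (weightI ν)
        (∫ u in Ioi (0 : ℝ), u ^ (ν - 1 / 2) • fderiv ℝ (fun w => -wZ w) (shiftZ z u)) z ∧
      ContinuousAt (fun w : Matrix n n ℂ => ∫ u in Ioi (0 : ℝ), u ^ (ν - 1 / 2) • fderiv ℝ (fun w => -wZ w) (shiftZ w u)) z := by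
  refine hasFDerivAt_shift_integral hν hν1 (fun w hw => (contDiffAt_wZ (by norm_num) hw).neg) (fun R => ?_)
    ?_ hz (integrableOn_weightInt hν hν1 hz)
  · obtain ⟨C, hC⟩ := exists_fderiv_wZ_le (n := n) R
    refine ⟨C, hC.mono fun u hu w hw hR => ?_⟩
    rw [fderiv_fun_neg, norm_neg]
    exact hu w hw hR
  · exact (Real.continuous_sqrt.continuousOn.inv₀ fun u hu => (Real.sqrt_pos.2 hu).ne').smul continuousOn_const

lemma hasFDerivAt_multI (hν : 0 < ν) (hν1 : ν < 1) (hz : z ∈ domZ) :
    HasFDerivAt (multI ν) (∫ u in Ioi (0 : ℝ), u ^ (ν - 1 / 2) • fderiv ℝ gZ (shiftZ z u)) z ∧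
      ContinuousAt (fun w : Matrix n n ℂ => ∫ u in Ioi (0 : ℝ), u ^ (ν - 1 / 2) • fderiv ℝ gZ (shiftZ w u)) z := by
  refine hasFDerivAt_shift_integral hν hν1 (fun w hw => contDiffAt_gZ (by norm_num) hw) (fun R => ?_)
    continuousOn_const hz (integrableOn_multInt hν hν1 hz)
  obtain ⟨C, hC⟩ := exists_gZ_le (n := n) R
  exact ⟨C, hC.mono fun u hu w hw hR => (hu w hw hR).2⟩

/-- The fractional weight and multiplier are `C¹`. -/
theorem contDiffOn_XiZ_GeZ (hν : 0 < ν) (hν1 : ν < 1) :
    ContDiffOn ℝ 1 (XiZ ν) (domZ : Set (Matrix n n ℂ)) ∧ ContDiffOn ℝ 1 (GeZ ν) (domZ : Set (Matrix n n ℂ)) := by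
  constructor <;>
    refine (contDiffOn_succ_iff_fderiv_of_isOpen (n := 0) isOpen_domZ).2
      ⟨fun z hz => DifferentiableAt.differentiableWithinAt ?_, by simp, contDiffOn_zero.2 fun z hz => ?_⟩
  · exact ((hasFDerivAt_weightI hν hν1 hz).1.const_smul (scal ν)⁻¹).differentiableAt
  · refine ((ContinuousAt.const_smul (hasFDerivAt_weightI hν hν1 hz).2 (scal ν)⁻¹).congr ?_).continuousWithinAt
    filter_upwards [isOpen_domZ.mem_nhds hz] with w hw
    exact (((hasFDerivAt_weightI hν hν1 hw).1.const_smul (scal ν)⁻¹).fderiv).symm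
  · exact ((hasFDerivAt_multI hν hν1 hz).1.const_smul (scal ν)⁻¹).differentiableAt
  · refine ((ContinuousAt.const_smul (hasFDerivAt_multI hν hν1 hz).2 (scal ν)⁻¹).congr ?_).continuousWithinAt
    filter_upwards [isOpen_domZ.mem_nhds hz] with w hw
    exact (((hasFDerivAt_multI hν hν1 hw).1.const_smul (scal ν)⁻¹).fderiv).symm

lemma pairing_smul (X Z : Matrix n n ℂ) (r : ℝ) :
    (r • Z * X).trace.re = r * (Z * X).trace.re := by
  rw [← pairing_apply, map_smul, smul_eq_mul, pairing_apply]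

lemma dArg_scaleL {y : Matrix n n ℂ} (hy : y ∈ domZ) {t : ℝ} (ht : 0 < t) (k : Matrix n n ℂ) :
    dArg (scaleL t y) k = t⁻¹ * t⁻¹ * (gZ y * partE k).trace.re - t⁻¹ * (wZ y * partB k).trace.re := by
  obtain ⟨h1, -, h3, h4⟩ := scale_spec hy ht
  rw [dArg_eq h1, h3, h4, Complex.coe_smul, Complex.coe_smul, pairing_smul, pairing_smul]

lemma hasDerivAt_scaleL (y : Matrix n n ℂ) :
    HasDerivAt (fun t => scaleL t y) (codeB y + (2 : ℝ) • codeE y) 1 := by
  have e : (fun t => scaleL t y) = fun t => t • codeB y + (t * t) • codeE y := rfl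
  rw [e]
  refine (((hasDerivAt_id (1 : ℝ)).smul_const (codeB y)).add
    (((hasDerivAt_id (1 : ℝ)).mul (hasDerivAt_id (1 : ℝ))).smul_const (codeE y))).congr_deriv ?_
  norm_num

lemma scaleL_one (y : Matrix n n ℂ) : scaleL 1 y = y := by
  rw [scaleL_apply]; simp [parts_spec]

/-- Symmetry and homogeneity at one value of the parameter. -/
lemma fderiv_pair (hz : z ∈ domZ) {u : ℝ} (hu : 0 ≤ u) (k : Matrix n n ℂ) :
    pairing (partB z) (fderiv ℝ (fun w => -wZ w) (shiftZ z u) k) +
        2 * pairing (partE z) (fderiv ℝ gZ (shiftZ z u) k) =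
      -2 * (gZ (shiftZ z u) * partE k).trace.re + (wZ (shiftZ z u) * partB k).trace.re
        - 2 * u * fderiv ℝ (fun w => dArg w k) (shiftZ z u) base := by
  set y := shiftZ z u
  have hy : y ∈ domZ := shiftZ_mem hz hu
  set ζ := codeB z + (2 : ℝ) • codeE z with hζdef
  have hζ : partB ζ = partB z ∧ partE ζ = (2 : ℂ) • partE z := by
    have e : ζ = (2 : ℂ) • partB z + I • ((2 : ℂ) • partE z) := by
      show (2 : ℂ) • partB z + (2 : ℝ) • (I • partE z) = _
      rw [smul_comm I, ← Complex.coe_smul (2 : ℝ), Complex.ofReal_ofNat]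
    rw [e]
    refine parts_eq (isHermitian_parts z).1 ?_
    show _ = _
    rw [conjTranspose_smul, (isHermitian_parts z).2.eq]; simp
  have hdw : DifferentiableAt ℝ (fun w => -wZ w) y :=
    ((contDiffAt_wZ (k := 2) (by norm_num) hy).differentiableAt (by norm_num)).neg
  have hdg : DifferentiableAt ℝ gZ y := (contDiffAt_gZ (k := 2) (by norm_num) hy).differentiableAt (by norm_num)
  have hd : ∀ j : Matrix n n ℂ, HasFDerivAt (fun w => dArg w j)
      ((pairing (partB j)).comp (fderiv ℝ (fun w => -wZ w) y) + (pairing (partE j)).comp (fderiv ℝ gZ y)) y := by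
    intro j
    refine (((pairing (partB j)).hasFDerivAt.comp y hdw.hasFDerivAt).add
      ((pairing (partE j)).hasFDerivAt.comp y hdg.hasFDerivAt)).congr_of_eventuallyEq ?_
    filter_upwards [isOpen_domZ.mem_nhds hy] with w hw
    rw [dArg_eq hw]
    simp only [Pi.add_apply, Function.comp_apply, pairing_apply, Matrix.neg_mul, Matrix.trace_neg, Complex.neg_re]
    ring
  have hleft : pairing (partB z) (fderiv ℝ (fun w => -wZ w) y k) + 2 * pairing (partE z) (fderiv ℝ gZ y k) =
      fderiv ℝ (fun w => dArg w ζ) y k := by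
    rw [(hd ζ).fderiv, hζ.1, hζ.2]
    simp only [_root_.add_apply, ContinuousLinearMap.comp_apply, pairing_apply, Matrix.mul_smul,
      Matrix.trace_smul, smul_eq_mul]
    simp [Complex.mul_re]
  rw [hleft, fderiv_dArg_symm hy k ζ]
  have h1 : HasDerivAt (fun t => dArg (scaleL t y) k)
      (fderiv ℝ (fun w => dArg w k) y (codeB y + (2 : ℝ) • codeE y)) 1 :=
    HasFDerivAt.comp_hasDerivAt_of_eq (1 : ℝ) ((hd k).differentiableAt.hasFDerivAt) (hasDerivAt_scaleL y)
      (scaleL_one y).symm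
  have h2 : HasDerivAt (fun t => dArg (scaleL t y) k)
      (-2 * (gZ y * partE k).trace.re + (wZ y * partB k).trace.re) 1 := by
    have hi : HasDerivAt (fun t : ℝ => t⁻¹) (-1) 1 := by simpa using hasDerivAt_inv (one_ne_zero (α := ℝ))
    refine ((((hi.mul hi).mul_const (gZ y * partE k).trace.re).sub
      (hi.mul_const (wZ y * partB k).trace.re)).congr_deriv (by norm_num)).congr_of_eventuallyEq ?_
    filter_upwards [lt_mem_nhds (one_pos (α := ℝ))] with t ht using dArg_scaleL hy ht k
  have e : codeB y + (2 : ℝ) • codeE y = ζ + (2 * u) • base := by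
    have hb : codeB (base : Matrix n n ℂ) = 0 ∧ codeE (base : Matrix n n ℂ) = base := by
      obtain ⟨a, b⟩ := parts_eq (B := (0 : Matrix n n ℂ)) (E := 1) (by simp [Matrix.IsHermitian])
        Matrix.isHermitian_one
      simp only [smul_zero, zero_add] at a b
      constructor
      · show (2 : ℂ) • partB base = 0
        rw [base, a, smul_zero]
      · show I • partE base = base
        rw [base, b]
    show codeB (shiftZ z u) + (2 : ℝ) • codeE (shiftZ z u) = _
    rw [shiftZ, map_add, map_add, map_smul, map_smul, hb.1, hb.2, hζdef, smul_zero, add_zero, smul_add, smul_smul]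
    abel
  have := h1.unique h2
  rw [e, map_add, map_smul, smul_eq_mul] at this
  linarith

lemma trace_partB_pair (u : ℝ) (w k : Matrix n n ℂ) :
    (((Real.sqrt u)⁻¹ • (1 : Matrix n n ℂ) + -w) * partB k).trace.re =
      (Real.sqrt u)⁻¹ * (partB k).trace.re - (w * partB k).trace.re := by
  rw [Matrix.add_mul, Matrix.trace_add, Complex.add_re, pairing_smul, one_mul, Matrix.neg_mul, Matrix.trace_neg,
    Complex.neg_re, ← sub_eq_add_neg]

/-- The differential of the potential. -/
theorem hasFDerivAt_Phi (hν : 0 < ν) (hν1 : ν < 1) (hz : z ∈ domZ) :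
    HasFDerivAt (Phi ν) (dPhi ν z) z := by
  obtain ⟨hW, -⟩ := hasFDerivAt_weightI hν hν1 hz
  obtain ⟨hG, -⟩ := hasFDerivAt_multI hν hν1 hz
  set DW := ∫ u in Ioi (0 : ℝ), u ^ (ν - 1 / 2) • fderiv ℝ (fun w => -wZ w) (shiftZ z u) with hDW
  set DG := ∫ u in Ioi (0 : ℝ), u ^ (ν - 1 / 2) • fderiv ℝ gZ (shiftZ z u) with hDG
  set bil : Matrix n n ℂ →L[ℝ] Matrix n n ℂ →L[ℝ] ℝ :=
    (ContinuousLinearMap.compL ℝ (Matrix n n ℂ) (Matrix n n ℂ) ℝ (pairing (1 : Matrix n n ℂ))).comp
      (ContinuousLinearMap.mul ℝ (Matrix n n ℂ))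
  have hbil : ∀ X Y, bil X Y = (X * Y).trace.re := fun X Y => by
    show (X * Y * 1).trace.re = _
    rw [mul_one]
  have hd := ((bil.hasFDerivAt_of_bilinear (hW.const_smul (scal ν)⁻¹) (partBL.hasFDerivAt (x := z))).add
    ((bil.hasFDerivAt_of_bilinear (hG.const_smul (scal ν)⁻¹) (partEL.hasFDerivAt (x := z))).const_mul 2)).const_mul
      (2 * ν + 1)⁻¹
  refine (hd.congr_of_eventuallyEq (Eventually.of_forall fun w => ?_)).congr_fderiv ?_
  · rw [Phi, div_eq_inv_mul, XiZ, GeZ]
    simp only [Pi.add_apply, Pi.smul_apply, hbil]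
    rfl
  refine ContinuousLinearMap.ext fun k => ?_
  simp only [_root_.add_apply, _root_.smul_apply, ContinuousLinearMap.precompR_apply,
    ContinuousLinearMap.precompL_apply, ContinuousLinearMap.compL_apply, ContinuousLinearMap.comp_apply, smul_eq_mul, Pi.smul_apply, hbil,
    partBL_apply, partEL_apply, pairing_smul, dPhi_apply]
  rw [show XiZ ν z = (scal ν)⁻¹ • weightI ν z from rfl, show GeZ ν z = (scal ν)⁻¹ • multI ν z from rfl,
    pairing_smul, pairing_smul]
  suffices h : (DW k * partB z).trace.re + 2 * (DG k * partE z).trace.re =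
      2 * ν * (weightI ν z * partB k).trace.re + (2 * ν - 1) * (multI ν z * partE k).trace.re by
    field_simp
    linear_combination h / scal ν
  obtain ⟨Cw, hCw⟩ := exists_fderiv_wZ_le (n := n) ‖z‖
  obtain ⟨Cg, hCg⟩ := exists_gZ_le (n := n) ‖z‖
  have hdint : ∀ {f : Matrix n n ℂ → Matrix n n ℂ} {C : ℝ}, (∀ w ∈ domZ, ContDiffAt ℝ 2 f w) →
      (∀ᶠ u : ℝ in atTop, ‖fderiv ℝ f (shiftZ z u)‖ ≤ C * (u * Real.sqrt u)⁻¹) →
      IntegrableOn (fun u => u ^ (ν - 1 / 2) • fderiv ℝ f (shiftZ z u)) (Ioi 0) := by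
    intro f C hf hC
    have hc : ContinuousOn (fun u => fderiv ℝ f (shiftZ z u)) (Ici 0) :=
      continuousOn_along (g := fderiv ℝ f) hz fun w hw => ((hf w hw).fderiv_right (m := 1) (by norm_num)).continuousAt
    obtain ⟨K, hK⟩ := (isCompact_Icc (a := (0 : ℝ)) (b := 1)).exists_bound_of_continuousOn
      (hc.mono Icc_subset_Ici_self)
    refine integrableOn_weight (F := Matrix n n ℂ →L[ℝ] Matrix n n ℂ) hν hν1 (hc.mono Ioi_subset_Ici_self :) (C := K) (C' := C) (fun u hu => ?_) ?_
    · have hK' := hK u ⟨hu.1.le, hu.2⟩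
      rw [rpow_neg_half hu.1]
      exact hK'.trans (le_mul_of_one_le_right ((norm_nonneg _).trans hK')
        ((one_le_inv₀ (Real.sqrt_pos.2 hu.1)).2 (Real.sqrt_le_one.2 hu.2)))
    · filter_upwards [hC, eventually_gt_atTop 0] with u hu hu0
      rw [rpow_neg_three_halves hu0]
      exact hu
  have hiW := hdint (fun w hw => (contDiffAt_wZ (by norm_num) hw).neg) (C := Cw)
    (hCw.mono fun u hu => by rw [fderiv_fun_neg, norm_neg]; exact hu z hz le_rfl)
  have hiG := hdint (fun w hw => contDiffAt_gZ (by norm_num) hw) (C := Cg)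
    (hCg.mono fun u hu => (hu z hz le_rfl).2)
  set LW := (pairing (partB z)).comp (ContinuousLinearMap.apply ℝ (Matrix n n ℂ) k)
  set LG := (pairing (partE z)).comp (ContinuousLinearMap.apply ℝ (Matrix n n ℂ) k)
  have hiw' := integrableOn_weightInt hν hν1 hz
  have hig' := integrableOn_multInt hν hν1 hz
  set a : ℝ → ℝ := fun u => pairing (partB k)
    (u ^ (ν - 1 / 2) • ((Real.sqrt u)⁻¹ • (1 : Matrix n n ℂ) + -wZ (shiftZ z u)))
  set g : ℝ → ℝ := fun u => pairing (partE k) (u ^ (ν - 1 / 2) • (0 + gZ (shiftZ z u)))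
  have ha : IntegrableOn a (Ioi 0) := (pairing (partB k)).integrable_comp hiw'
  have hg : IntegrableOn g (Ioi 0) := (pairing (partE k)).integrable_comp hig'
  set l : ℝ → ℝ := fun u => LW (u ^ (ν - 1 / 2) • fderiv ℝ (fun w => -wZ w) (shiftZ z u)) +
    2 * LG (u ^ (ν - 1 / 2) • fderiv ℝ gZ (shiftZ z u))
  have hl : IntegrableOn l (Ioi 0) := (LW.integrable_comp hiW).add ((LG.integrable_comp hiG).const_mul 2)
  have hlI : ∫ u in Ioi (0 : ℝ), l u = (DW k * partB z).trace.re + 2 * (DG k * partE z).trace.re := by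
    simp only [l]
    rw [integral_add (LW.integrable_comp hiW) ((LG.integrable_comp hiG).const_mul 2), integral_const_mul,
      LW.integral_comp_comm hiW, LG.integral_comp_comm hiG]
    rfl
  have hae : ∀ u, a u + g u = u ^ (ν - 1 / 2) *
      ((Real.sqrt u)⁻¹ * (partB k).trace.re - (wZ (shiftZ z u) * partB k).trace.re +
        (gZ (shiftZ z u) * partE k).trace.re) := fun u => by
    simp only [a, g, pairing_apply, pairing_smul, trace_partB_pair, zero_add]
    ring
  set H : ℝ → ℝ := fun u => u ^ ν * (partB k).trace.re + u ^ (ν + 1 / 2) * dArg (shiftZ z u) k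
  have hH : ∀ u, 0 < u → H u = u * (a u + g u) := fun u hu => by
    rw [hae]
    simp only [H]
    rw [dArg_eq (shiftZ_mem hz hu.le), show u ^ (ν + 1 / 2) = u ^ (ν - 1 / 2) * u by
        rw [← Real.rpow_add_one hu.ne']; ring_nf,
      show u ^ ν = u ^ (ν - 1 / 2) * (u * (Real.sqrt u)⁻¹) by
        rw [← div_eq_mul_inv, Real.div_sqrt, Real.sqrt_eq_rpow, ← Real.rpow_add hu]; ring_nf]
    ring
  have hderiv : ∀ u ∈ Ioi (0 : ℝ), HasDerivAt H (ν * a u + (ν - 1 / 2) * g u - l u / 2) u := fun u hu => by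
    have hu0 : (0 : ℝ) < u := hu
    have hy := shiftZ_mem hz hu0.le
    have hsh : HasDerivAt (fun v => shiftZ z v) base u := by
      simpa [shiftZ] using ((hasDerivAt_id u).smul_const (base : Matrix n n ℂ)).const_add z
    have hdd : DifferentiableAt ℝ (fun w => dArg w k) (shiftZ z u) := by
      refine DifferentiableAt.congr_of_eventuallyEq (f := fun w =>
        pairing (partE k) (gZ w) - pairing (partB k) (wZ w))
        (((pairing (partE k)).differentiableAt.comp _
          ((contDiffAt_gZ (k := 2) (by norm_num) hy).differentiableAt (by norm_num))).sub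
        ((pairing (partB k)).differentiableAt.comp _
          ((contDiffAt_wZ (k := 2) (by norm_num) hy).differentiableAt (by norm_num)))) ?_
      filter_upwards [isOpen_domZ.mem_nhds hy] with w hw using dArg_eq hw k
    have hd1 := ((Real.hasDerivAt_rpow_const (p := ν) (Or.inl hu0.ne')).mul_const (partB k).trace.re).add
      ((Real.hasDerivAt_rpow_const (p := ν + 1 / 2) (Or.inl hu0.ne')).mul
        (hdd.hasFDerivAt.comp_hasDerivAt u hsh))
    refine hd1.congr_deriv ?_
    have hp := fderiv_pair hz hu0.le k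
    simp only [l, LW, LG, ContinuousLinearMap.comp_apply, ContinuousLinearMap.apply_apply,
      map_smul, smul_eq_mul]
    simp only [a, g, map_smul, smul_eq_mul, pairing_apply, trace_partB_pair, zero_add, Function.comp_apply,
      dArg_eq hy] at hp ⊢
    rw [← mul_left_comm (u ^ (ν - 1 / 2)) 2, ← mul_add (u ^ (ν - 1 / 2)), hp,
      show ν + 1 / 2 - 1 = ν - 1 / 2 by ring, show u ^ (ν + 1 / 2) = u ^ (ν - 1 / 2) * u by
        rw [← Real.rpow_add_one hu0.ne']; ring_nf,
      show u ^ (ν - 1) = u ^ (ν - 1 / 2) * (Real.sqrt u)⁻¹ by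
        rw [← rpow_neg_half hu0, ← Real.rpow_add hu0]; ring_nf]
    ring
  have hi : IntegrableOn (fun u => ν * a u + (ν - 1 / 2) * g u - l u / 2) (Ioi 0) :=
    ((ha.const_mul ν).add (hg.const_mul (ν - 1 / 2))).sub (hl.div_const 2)
  have hH0 : ContinuousWithinAt H (Ici 0) 0 := by
    have h1 : ContinuousOn (fun u => dArg (shiftZ z u) k) (Ici 0) := by
      refine ContinuousOn.congr (f := fun u => pairing (partE k) (gZ (shiftZ z u)) -
        pairing (partB k) (wZ (shiftZ z u)))
        (((pairing (partE k)).continuous.comp_continuousOn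
          (continuousOn_along hz fun w hw => (contDiffAt_gZ (k := 2) (by norm_num) hw).continuousAt)).sub
        ((pairing (partB k)).continuous.comp_continuousOn
          (continuousOn_along hz fun w hw => (contDiffAt_wZ (k := 2) (by norm_num) hw).continuousAt))) ?_
      intro u hu
      exact dArg_eq (shiftZ_mem hz hu) k
    exact ((Real.continuousAt_rpow_const _ _ (Or.inr hν.le)).continuousWithinAt.mul_const _).add
      ((Real.continuousAt_rpow_const _ _ (Or.inr (by linarith))).continuousWithinAt.mul (h1 0 self_mem_Ici))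
  set Cg' := ‖pairing (partE k)‖ * Cg
  set Cw' := ‖pairing (partB k)‖ * (2 * ‖partE z - partB z * partB z‖)
  have hlim : Tendsto H atTop (𝓝 0) := by
    have ht := (tendsto_rpow_neg_atTop (show (0 : ℝ) < 1 - ν by linarith)).const_mul (Cw' + Cg')
    rw [mul_zero] at ht
    refine squeeze_zero_norm' ?_ ht
    filter_upwards [eventually_gt_atTop 0, hCg, eventually_wgt_near (B := partB z) (E := partE z) hz]
      with u hu hug huw
    rw [hH u hu, norm_mul, Real.norm_of_nonneg hu.le, ← Complex.coe_smul] at *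
    have hp : (0 : ℝ) ≤ u ^ (ν - 1 / 2) := Real.rpow_nonneg hu.le _
    have hA : ‖a u‖ ≤ Cw' * (u ^ (ν - 1 / 2) * (u * Real.sqrt u)⁻¹) := by
      simp only [a]
      refine ((pairing (partB k)).le_opNorm _).trans ?_
      rw [norm_smul, Real.norm_of_nonneg hp, ← sub_eq_add_neg, wZ_shiftZ, norm_sub_rev,
        ← Complex.coe_smul (Real.sqrt u)⁻¹, Complex.ofReal_inv]
      calc ‖pairing (partB k)‖ * (u ^ (ν - 1 / 2) * _) ≤ ‖pairing (partB k)‖ * (u ^ (ν - 1 / 2) *
            (2 * ‖partE z - partB z * partB z‖ / (u * Real.sqrt u))) :=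
            mul_le_mul_of_nonneg_left (mul_le_mul_of_nonneg_left huw hp) (norm_nonneg _)
        _ = _ := by simp only [Cw']; ring
    have hB : ‖g u‖ ≤ Cg' * (u ^ (ν - 1 / 2) * (u * Real.sqrt u)⁻¹) := by
      simp only [g]
      refine ((pairing (partE k)).le_opNorm _).trans ?_
      rw [norm_smul, Real.norm_of_nonneg hp, zero_add]
      calc ‖pairing (partE k)‖ * (u ^ (ν - 1 / 2) * _) ≤ ‖pairing (partE k)‖ * (u ^ (ν - 1 / 2) *
            (Cg * (u * Real.sqrt u)⁻¹)) :=
            mul_le_mul_of_nonneg_left (mul_le_mul_of_nonneg_left (hug z hz le_rfl).1 hp) (norm_nonneg _)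
        _ = _ := by simp only [Cg']; ring
    refine (mul_le_mul_of_nonneg_left ((norm_add_le _ _).trans (add_le_add hA hB)) hu.le).trans (le_of_eq ?_)
    rw [← add_mul, mul_left_comm, ← rpow_neg_three_halves hu, ← Real.rpow_add hu, mul_comm u,
      ← Real.rpow_add_one hu.ne']
    ring_nf
  have hI := integral_Ioi_of_hasDerivAt_of_tendsto hH0 hderiv hi hlim
  have hab : IntegrableOn (fun u => ν * a u + (ν - 1 / 2) * g u) (Ioi 0) volume :=
    (ha.const_mul ν).add (hg.const_mul (ν - 1 / 2))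
  rw [integral_sub hab (hl.div_const 2),
    integral_add (ha.const_mul ν) (hg.const_mul (ν - 1 / 2)), integral_const_mul, integral_const_mul,
    integral_div, hlI] at hI
  have eA : ∫ u in Ioi (0 : ℝ), a u = (weightI ν z * partB k).trace.re :=
    (pairing (partB k)).integral_comp_comm hiw'
  have eG : ∫ u in Ioi (0 : ℝ), g u = (multI ν z * partE k).trace.re :=
    (pairing (partE k)).integral_comp_comm hig'
  have hH00 : H 0 = 0 := by
    simp only [H]
    rw [Real.zero_rpow hν.ne', Real.zero_rpow (by linarith)]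
    ring
  rw [eA, eG, hH00] at hI
  linarith

end Vale.Agent.P371.Pencil
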