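import Vale.Agent.P371.Pencil.Root

/-!
P371, pencils: the inequality at one value of the spectral parameter.
-/

namespace Vale.Agent.P371.Pencil

open Matrix Complex
open scoped ComplexOrder

variable {n : Type} [Fintype n] [DecidableEq n]

/-- The real part of a root. -/
noncomputable def reA (A : Matrix n n ℂ) : Matrix n n ℂ := (1 / 2 : ℂ) • (A + Aᴴ)

/-- The imaginary part of a root. -/
noncomputable def imA (A : Matrix n n ℂ) : Matrix n n ℂ := (-I / 2) • (A - Aᴴ)

variable {A W : Matrix n n ℂ}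

omit [Fintype n] [DecidableEq n] in
lemma isHermitian_reA : (reA A).IsHermitian := by
  show _ = _
  rw [reA, conjTranspose_smul, conjTranspose_add, conjTranspose_conjTranspose, add_comm Aᴴ A,
    Complex.star_def, map_div₀, map_one, map_ofNat]

omit [Fintype n] [DecidableEq n] in
lemma isHermitian_imA : (imA A).IsHermitian := by
  show _ = _
  rw [imA, conjTranspose_smul, conjTranspose_sub, conjTranspose_conjTranspose, Complex.star_def,
    map_div₀, map_neg, conj_I, map_ofNat, neg_neg, ← neg_sub A Aᴴ, smul_neg, ← neg_smul]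
  congr 1
  ring

omit [Fintype n] [DecidableEq n] in
lemma reA_add_imA : reA A + I • imA A = A := by
  rw [reA, imA, smul_smul, show I * (-I / 2) = (1 / 2 : ℂ) by rw [mul_div, mul_neg, I_mul_I, neg_neg],
    ← smul_add, show A + Aᴴ + (A - Aᴴ) = (2 : ℂ) • A by rw [two_smul]; abel, smul_smul]
  norm_num

omit [Fintype n] [DecidableEq n] in
lemma conjTranspose_eq_parts : Aᴴ = reA A - I • imA A := by
  conv_lhs => rw [← reA_add_imA (A := A), conjTranspose_add, conjTranspose_smul, isHermitian_reA.eq,
    isHermitian_imA.eq, Complex.star_def, conj_I, neg_smul, ← sub_eq_add_neg]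

omit [DecidableEq n] in
/-- The excess of the product over the square of the real part. -/
lemma excess_eq : Aᴴ * A - reA A * reA A = imA A * imA A + I • (reA A * imA A - imA A * reA A) := by
  conv_lhs => enter [1]; rw [conjTranspose_eq_parts]; arg 2; rw [← reA_add_imA (A := A)]
  simp only [Matrix.sub_mul, Matrix.mul_add, Matrix.smul_mul, Matrix.mul_smul, smul_smul, I_mul_I,
    smul_sub, neg_smul, one_smul, smul_add]
  abel

/-- The Lyapunov equation in the parts of the root. -/
lemma lyap_parts (e : lyap A W = (2 * I) • 1) :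
    imA A * W + W * imA A - I • (reA A * W - W * reA A) = (2 : ℂ) • 1 := by
  have h : (-I) • lyap A W = (2 : ℂ) • 1 := by
    rw [e, smul_smul]
    congr 1
    linear_combination (-2 : ℂ) * I_mul_I
  rw [← h, lyap]
  conv_rhs => rw [conjTranspose_eq_parts]; enter [2, 1, 1]; rw [← reA_add_imA (A := A)]
  simp only [Matrix.mul_sub, Matrix.add_mul, Matrix.smul_mul, Matrix.mul_smul, smul_sub, smul_smul,
    smul_add, neg_mul, I_mul_I, neg_neg, one_smul, neg_smul]
  abel

lemma trace_imA (hW : W.PosDef) (e : lyap A W = (2 * I) • 1) : (imA A).trace = W⁻¹.trace := by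
  have hd := (Matrix.isUnit_iff_isUnit_det W).1 hW.isUnit
  have h := congrArg (fun X => (X * W⁻¹).trace) (lyap_parts e)
  simp only [Matrix.sub_mul, Matrix.add_mul, Matrix.smul_mul, Matrix.trace_sub, Matrix.trace_add,
    Matrix.trace_smul, one_mul, Matrix.mul_assoc, Matrix.mul_nonsing_inv W hd, mul_one, smul_eq_mul] at h
  rw [Matrix.trace_mul_comm W (imA A * W⁻¹), Matrix.trace_mul_comm W (reA A * W⁻¹), Matrix.mul_assoc,
    Matrix.mul_assoc, Matrix.nonsing_inv_mul W hd, mul_one, mul_one] at h
  linear_combination h / 2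

/-- The weighted excess is at most the trace of the imaginary part. -/
lemma trace_mul_excess_le (hW : W.PosDef) (e : lyap A W = (2 * I) • 1) :
    ((W * (Aᴴ * A - reA A * reA A)).trace).re ≤ (imA A).trace.re := by
  set K := imA A
  set B := reA A
  have hd := (Matrix.isUnit_iff_isUnit_det W).1 hW.isUnit
  have h1 : (W * (Aᴴ * A - B * B)).trace = 2 * K.trace - (K * W * K).trace := by
    have h := congrArg (fun X => (K * X).trace) (lyap_parts e)
    simp only [Matrix.mul_sub, Matrix.mul_add, Matrix.mul_smul, Matrix.trace_sub, Matrix.trace_add,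
      Matrix.trace_smul, mul_one, smul_eq_mul] at h
    rw [excess_eq]
    simp only [Matrix.mul_sub, Matrix.mul_add, Matrix.mul_smul, Matrix.trace_sub, Matrix.trace_add,
      Matrix.trace_smul, smul_eq_mul]
    have c1 : (K * (K * W)).trace = (W * (K * K)).trace := by
      rw [← Matrix.mul_assoc, Matrix.trace_mul_comm]
    have c2 : (K * (B * W)).trace = (W * (K * B)).trace := by
      rw [← Matrix.mul_assoc, Matrix.trace_mul_comm]
    have c3 : (K * (W * B)).trace = (W * (B * K)).trace := by
      rw [Matrix.trace_mul_comm, Matrix.mul_assoc]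
    rw [← Matrix.mul_assoc K W K, c1, c2, c3] at h
    linear_combination h
  have hWi : W⁻¹ᴴ = W⁻¹ := hW.inv.isHermitian.eq
  have h2 : 0 ≤ ((K - W⁻¹)ᴴ * W * (K - W⁻¹)).trace := trace_sandwich_nonneg hW.posSemidef _
  rw [conjTranspose_sub, isHermitian_imA.eq, hWi] at h2
  simp only [Matrix.sub_mul, Matrix.mul_sub, Matrix.mul_assoc, Matrix.mul_nonsing_inv W hd,
    mul_one, Matrix.trace_sub] at h2
  rw [show (W⁻¹ * (W * K)).trace = K.trace by rw [← Matrix.mul_assoc, Matrix.nonsing_inv_mul W hd, one_mul],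
    ← trace_imA hW e] at h2
  obtain ⟨h3, -⟩ := Complex.nonneg_iff.1 h2
  rw [h1, Matrix.mul_assoc, Complex.sub_re, Complex.mul_re]
  simp only [Complex.sub_re, Complex.re_ofNat, Complex.im_ofNat, zero_mul, sub_zero] at h3 ⊢
  linarith

/-- What one value of the parameter gives against an eigenvalue `y`. -/
noncomputable def gainAt (u y : ℝ) : ℝ := 2 * Real.sqrt (u + y) - 2 * Real.sqrt u - y / Real.sqrt u

lemma concaveOn_gainAt {u : ℝ} (hu : 0 ≤ u) : ConcaveOn ℝ (Set.Ici 0) (gainAt u) := by
  have h1 : ConcaveOn ℝ (Set.Ici 0) fun y => Real.sqrt (u + y) :=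
    ((Real.strictConcaveOn_sqrt.concaveOn).translate_right u).subset
      (fun y hy => show (0 : ℝ) ≤ u + y from add_nonneg hu hy) (convex_Ici 0)
  have h2 : ConvexOn ℝ (Set.Ici (0 : ℝ)) fun y => y / Real.sqrt u := by
    have h := (convexOn_id (convex_Ici (0 : ℝ))).smul (inv_nonneg.2 (Real.sqrt_nonneg u))
    simpa [div_eq_inv_mul] using h
  have h3 := ((h1.smul zero_le_two).add_const (-(2 * Real.sqrt u))).sub h2
  refine h3.congr fun y _ => ?_
  simp [gainAt]
  ring

/-- One coordinate. -/
lemma gain_le_coord {w u y : ℝ} (hw : 0 < w) (hu : 0 ≤ u) (hy : 0 ≤ y) :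
    gainAt u y + y / Real.sqrt u - y * w ≤ 1 / w - 2 * Real.sqrt u + u * w := by
  have h : 2 * Real.sqrt (u + y) ≤ 1 / w + (u + y) * w := by
    rw [div_add' _ _ _ hw.ne', le_div_iff₀ hw]
    have h2 : (Real.sqrt (u + y) * w) ^ 2 = (u + y) * w * w := by
      rw [mul_pow, Real.sq_sqrt (add_nonneg hu hy)]; ring
    nlinarith [sq_nonneg (Real.sqrt (u + y) * w - 1)]
  simp only [gainAt]
  linarith

/-- The bound at one value of the parameter. -/
theorem pointwise_gain (hW : W.PosDef) (e : lyap A W = (2 * I) • 1) {u : ℝ} (hu : 0 ≤ u)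
    {Y : Matrix n n ℂ} (hY : Y.PosSemidef) :
    (∑ k, gainAt u (hY.1.eigenvalues k)) + Y.trace.re / Real.sqrt u - (W * Y).trace.re ≤
      (imA A).trace.re - 2 * (Fintype.card n : ℝ) * Real.sqrt u + u * W.trace.re := by
  set y := hY.1.eigenvalues
  set w := hW.1.eigenvalues
  set Uw : Matrix n n ℂ := (hW.1.eigenvectorUnitary : Matrix n n ℂ) with hUw
  set Uy : Matrix n n ℂ := (hY.1.eigenvectorUnitary : Matrix n n ℂ) with hUy
  have hw0 : ∀ i, 0 < w i := hW.eigenvalues_pos
  have hy0 : ∀ k, 0 ≤ y k := hY.eigenvalues_nonneg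
  have eW : W = Uw * diagonal (fun i => (w i : ℂ)) * Uwᴴ := by
    conv_lhs => rw [hW.1.spectral_theorem]
    rfl
  have eY : Y = Uy * diagonal (fun k => (y k : ℂ)) * Uyᴴ := by
    conv_lhs => rw [hY.1.spectral_theorem]
    rfl
  have u1 : Uwᴴ * Uw = 1 := Unitary.coe_star_mul_self _
  have u2 : Uw * Uwᴴ = 1 := Unitary.coe_mul_star_self _
  have v1 : Uyᴴ * Uy = 1 := Unitary.coe_star_mul_self _
  have v2 : Uy * Uyᴴ = 1 := Unitary.coe_mul_star_self _
  set V := Uwᴴ * Uy with hV
  set p : n → n → ℝ := fun i k => Complex.normSq (V i k) with hp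
  have r1 : ∀ i, ∑ k, p i k = 1 := fun i => by
    have h : V * Vᴴ = 1 := by
      rw [hV, conjTranspose_mul, conjTranspose_conjTranspose, ← Matrix.mul_assoc, Matrix.mul_assoc Uwᴴ,
        v2, mul_one, u1]
    have h' := congrFun (congrFun h i) i
    simp only [Matrix.mul_apply, conjTranspose_apply, Complex.star_def, Complex.mul_conj,
      Matrix.one_apply_eq] at h'
    exact_mod_cast h'
  have r2 : ∀ k, ∑ i, p i k = 1 := fun k => by
    have h : Vᴴ * V = 1 := by
      rw [hV, conjTranspose_mul, conjTranspose_conjTranspose, ← Matrix.mul_assoc, Matrix.mul_assoc Uyᴴ,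
        u2, mul_one, v1]
    have h' := congrFun (congrFun h k) k
    simp only [Matrix.mul_apply, conjTranspose_apply, Complex.star_def, ← Complex.normSq_eq_conj_mul_self,
      Matrix.one_apply_eq] at h'
    exact_mod_cast h'
  set Yd : n → ℝ := fun i => ∑ k, p i k * y k with hYd
  have hYd0 : ∀ i, 0 ≤ Yd i := fun i => Finset.sum_nonneg fun k _ => mul_nonneg (Complex.normSq_nonneg _) (hy0 k)
  have tW : W.trace.re = ∑ i, w i := by
    rw [hW.1.trace_eq_sum_eigenvalues]; simp
    rfl
  have tY : Y.trace.re = ∑ k, y k := by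
    rw [hY.1.trace_eq_sum_eigenvalues]; simp
    rfl
  have tS : (imA A).trace.re = ∑ i, 1 / w i := by
    have hi : W⁻¹ = Uw * diagonal (fun i => ((w i)⁻¹ : ℂ)) * Uwᴴ := by
      refine Matrix.inv_eq_right_inv ?_
      rw [eW, show ∀ a b c d e f : Matrix n n ℂ, a * b * c * (d * e * f) = a * (b * (c * d) * e) * f from
        fun a b c d e f => by simp only [Matrix.mul_assoc], u1, mul_one, diagonal_mul_diagonal,
        show (fun i => (w i : ℂ) * ((w i : ℂ))⁻¹) = fun _ => (1 : ℂ) from funext fun i =>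
          mul_inv_cancel₀ (by exact_mod_cast (hw0 i).ne'), diagonal_one, mul_one, u2]
    rw [trace_imA hW e, hi, Matrix.trace_mul_cycle, u1, one_mul, trace_diagonal, re_sum]
    exact Finset.sum_congr rfl fun i _ => by rw [← Complex.ofReal_inv, Complex.ofReal_re, one_div]
  have tWY : (W * Y).trace.re = ∑ i, Yd i * w i := by
    have e1 : (W * Y).trace = (diagonal (fun i => (w i : ℂ)) * (V * diagonal (fun k => (y k : ℂ)) * Vᴴ)).trace := by
      rw [eW, eY, hV, conjTranspose_mul, conjTranspose_conjTranspose]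
      simp only [Matrix.mul_assoc]
      rw [Matrix.trace_mul_comm Uw]
      simp only [Matrix.mul_assoc]
    rw [e1, Matrix.trace, re_sum]
    refine Finset.sum_congr rfl fun i _ => ?_
    rw [diag_apply, diagonal_mul, Complex.re_ofReal_mul, mul_comm]
    congr 1
    rw [Matrix.mul_apply, re_sum]
    refine Finset.sum_congr rfl fun k _ => ?_
    rw [mul_diagonal, conjTranspose_apply, Complex.star_def, mul_right_comm, Complex.mul_conj,
      ← Complex.ofReal_mul, Complex.ofReal_re]
  have hJ : ∑ k, gainAt u (y k) ≤ ∑ i, gainAt u (Yd i) := by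
    have h : ∀ i, ∑ k, p i k * gainAt u (y k) ≤ gainAt u (Yd i) := fun i => by
      have := (concaveOn_gainAt hu).le_map_sum (t := Finset.univ) (w := p i) (p := y)
        (fun k _ => Complex.normSq_nonneg _) (r1 i) (fun k _ => hy0 k)
      simpa [smul_eq_mul, hYd] using this
    refine le_trans (le_of_eq ?_) (Finset.sum_le_sum fun i _ => h i)
    rw [Finset.sum_comm]
    exact Finset.sum_congr rfl fun k _ => by rw [← Finset.sum_mul, r2, one_mul]
  have hsum : ∑ k, y k = ∑ i, Yd i := by
    rw [hYd, Finset.sum_comm]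
    exact Finset.sum_congr rfl fun k _ => by rw [← Finset.sum_mul, r2, one_mul]
  have hc := Finset.sum_le_sum (s := Finset.univ) fun i (_ : i ∈ Finset.univ) =>
    gain_le_coord (hw0 i) hu (hYd0 i)
  simp only [Finset.sum_add_distrib, Finset.sum_sub_distrib, ← Finset.sum_div, ← Finset.mul_sum,
    Finset.sum_const, Finset.card_univ, nsmul_eq_mul] at hc
  rw [tY, tWY, tS, tW, hsum]
  linarith

end Vale.Agent.P371.Pencil
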