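import Vale.Agent.P371.Pencil.Open

/-!
P371, pencils: every positive pencil has exactly one stable root.
-/

namespace Vale.Agent.P371.Pencil

open Matrix Complex Filter
open scoped ComplexOrder Matrix.Norms.L2Operator Topology

variable {n : Type} [Fintype n] [DecidableEq n]

/-- The pencil with coefficients `B`, `E`. -/
def pencil (B E : Matrix n n ℂ) (t : ℝ) : Matrix n n ℂ := ((t : ℂ) ^ 2) • 1 - (2 * (t : ℂ)) • B + E

/-- Hermitian coefficients with a pencil positive on the whole line. -/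
structure Dom (B E : Matrix n n ℂ) : Prop where
  hermB : B.IsHermitian
  hermE : E.IsHermitian
  pos : ∀ t : ℝ, (pencil B E t).PosDef

lemma coeff_eq_iff {B E A : Matrix n n ℂ} (hB : B.IsHermitian) (hE : E.IsHermitian) :
    coeff A = (2 : ℂ) • B + I • E ↔ A + Aᴴ = (2 : ℂ) • B ∧ Aᴴ * A = E := by
  refine ⟨fun h => ?_, fun h => by rw [coeff, h.1, h.2]⟩
  obtain ⟨h1, h2⟩ := herm_add_I_smul_eq (X := A + Aᴴ - (2 : ℂ) • B) (Y := Aᴴ * A - E)
    (by
      refine IsHermitian.sub (by show _ = _; rw [conjTranspose_add, conjTranspose_conjTranspose, add_comm]) ?_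
      show _ = _
      rw [conjTranspose_smul, hB.eq, Complex.star_def, map_ofNat])
    ((isHermitian_conjTranspose_mul_self A).sub hE) (by
      rw [← sub_eq_zero.2 h, coeff, smul_sub]; abel)
  exact ⟨sub_eq_zero.1 h1, sub_eq_zero.1 h2⟩

lemma pencil_eq {B E A : Matrix n n ℂ} (h1 : A + Aᴴ = (2 : ℂ) • B) (h2 : Aᴴ * A = E) (t : ℝ) :
    pencil B E t = ((t : ℂ) • 1 - A)ᴴ * ((t : ℂ) • 1 - A) := by
  have e : ((t : ℂ) • 1 - A)ᴴ * ((t : ℂ) • 1 - A) =
      ((t : ℂ) ^ 2) • 1 - (t : ℂ) • (A + Aᴴ) + Aᴴ * A := by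
    rw [conjTranspose_sub, conjTranspose_smul, conjTranspose_one, Complex.star_def, Complex.conj_ofReal]
    simp only [Matrix.sub_mul, Matrix.mul_sub, Matrix.smul_mul, Matrix.mul_smul, one_mul, mul_one,
      smul_add, smul_sub, smul_smul, sq]
    abel
  rw [e, h1, h2, pencil, smul_smul, mul_comm (t : ℂ) 2]

lemma Stable.dom {B E A : Matrix n n ℂ} (h : Stable A) (hB : B.IsHermitian) (hE : E.IsHermitian)
    (h1 : A + Aᴴ = (2 : ℂ) • B) (h2 : Aᴴ * A = E) : Dom B E :=
  ⟨hB, hE, fun t => by rw [pencil_eq h1 h2]; exact h.posDef_pencil t⟩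

omit [DecidableEq n] in
lemma posSemidef_of_tendsto {X : ℕ → Matrix n n ℂ} {Y : Matrix n n ℂ} (hX : ∀ k, (X k).PosSemidef)
    (h : Tendsto X atTop (𝓝 Y)) : Y.PosSemidef := by
  classical
  have hH : Y.IsHermitian := by
    refine tendsto_nhds_unique ((continuous_id.matrix_conjTranspose.tendsto Y).comp h) (h.congr fun k => ?_)
    exact ((hX k).1.eq).symm
  refine Matrix.PosSemidef.of_dotProduct_mulVec_nonneg hH fun v => ?_
  refine Complex.nonneg_iff.2 ⟨?_, (isHermitian_quad_im hH v).symm⟩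
  exact ge_of_tendsto' (((continuous_quad v).tendsto Y).comp h) fun k =>
    (Complex.nonneg_iff.1 ((hX k).dotProduct_mulVec_nonneg v)).1

/-- A positive semidefinite kernel element of the Lyapunov operator forces a real eigenvalue. -/
lemma eq_zero_of_noReal {A X : Matrix n n ℂ} (hA : ∀ (t : ℝ) v, A *ᵥ v = (t : ℂ) • v → v = 0)
    (hX : X.PosSemidef) (e : A * X = X * Aᴴ) : X = 0 := by
  by_contra h0
  set L := X.mulVecLin
  set p := LinearMap.range L
  have hinv : ∀ v ∈ p, A.mulVecLin v ∈ p := by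
    rintro _ ⟨y, rfl⟩
    refine ⟨Aᴴ *ᵥ y, ?_⟩
    simp only [L, mulVecLin_apply, mulVec_mulVec, e]
  have hnt : Nontrivial p := by
    rw [Submodule.nontrivial_iff_ne_bot]
    intro hbot
    refine h0 (Matrix.ext_of_mulVec_single fun j => ?_)
    have : L (Pi.single j 1) ∈ p := ⟨_, rfl⟩
    rw [hbot, Submodule.mem_bot] at this
    ext i
    simpa [L] using congrFun this i
  obtain ⟨lam, hlam⟩ := Module.End.exists_eigenvalue (LinearMap.restrict A.mulVecLin hinv)
  obtain ⟨w, hw⟩ := hlam.exists_hasEigenvector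
  obtain ⟨y, hy⟩ := w.2
  have hAv : A *ᵥ (w : n → ℂ) = lam • (w : n → ℂ) := by
    have := congrArg Subtype.val (Module.End.mem_eigenspace_iff.1 hw.1)
    simpa using this
  have hwy : (w : n → ℂ) = X *ᵥ y := by simpa [L] using hy.symm
  have hAX : (A * X).IsHermitian := by
    show _ = _
    rw [conjTranspose_mul, hX.1.eq, e]
  have h1 : (star y ⬝ᵥ ((A * X) *ᵥ y)).im = 0 := isHermitian_quad_im hAX y
  rw [← mulVec_mulVec, ← hwy, hAv, dotProduct_smul, hwy, smul_eq_mul] at h1
  have hpos : 0 ≤ star y ⬝ᵥ (X *ᵥ y) := hX.dotProduct_mulVec_nonneg y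
  have hne : star y ⬝ᵥ (X *ᵥ y) ≠ 0 := by
    rw [ne_eq, hX.dotProduct_mulVec_zero_iff, ← hwy]
    exact fun h => hw.2 (Subtype.ext h)
  obtain ⟨hre, him⟩ := Complex.nonneg_iff.1 hpos
  rw [Complex.mul_im, ← him, mul_zero, zero_add] at h1
  have hre' : (star y ⬝ᵥ (X *ᵥ y)).re ≠ 0 := fun h => hne (Complex.ext h him.symm)
  have hlre : lam = (lam.re : ℂ) := Complex.ext rfl ((mul_eq_zero.1 h1).resolve_right hre')
  exact hw.2 (Subtype.ext (hA lam.re w (hlre ▸ hAv)))

/-- A limit of stable matrices with a positive pencil is stable. -/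
lemma stable_of_tendsto {A : ℕ → Matrix n n ℂ} {A₀ : Matrix n n ℂ} (hA : ∀ k, Stable (A k))
    (h : Tendsto A atTop (𝓝 A₀)) (hp : ∀ (t : ℝ) v, A₀ *ᵥ v = (t : ℂ) • v → v = 0) : Stable A₀ := by
  have : ProperSpace (Matrix n n ℂ) := FiniteDimensional.proper ℂ _
  choose W hW e using hA
  set s : ℕ → ℝ := fun k => (1 + ‖W k‖)⁻¹
  set x : ℕ → ℝ × Matrix n n ℂ := fun k => (s k, (s k : ℂ) • W k)
  have hs0 : ∀ k, 0 < s k := fun k => by positivity
  have hx : ∀ k, x k ∈ Metric.closedBall (0 : ℝ × Matrix n n ℂ) 1 := fun k => by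
    have h1 : ‖W k‖ * s k ≤ 1 := by
      simp only [s]; rw [← div_eq_mul_inv, div_le_one (by positivity)]; linarith
    rw [mem_closedBall_zero_iff, Prod.norm_def, max_le_iff]
    refine ⟨?_, ?_⟩
    · simp only [x, Real.norm_eq_abs, abs_of_pos (hs0 k), s]
      exact inv_le_one_of_one_le₀ (by linarith [norm_nonneg (W k)])
    · simp only [x, norm_smul, Complex.norm_real, Real.norm_eq_abs, abs_of_pos (hs0 k)]
      linarith
  obtain ⟨⟨s₀, X⟩, -, φ, hφ, hlim⟩ := tendsto_subseq_of_bounded Metric.isBounded_closedBall hx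
  have hs : Tendsto (fun k => s (φ k)) atTop (𝓝 s₀) := (continuous_fst.tendsto _).comp hlim
  have hXl : Tendsto (fun k => (s (φ k) : ℂ) • W (φ k)) atTop (𝓝 X) := (continuous_snd.tendsto _).comp hlim
  have hAl := h.comp hφ.tendsto_atTop
  have hXp : X.PosSemidef := posSemidef_of_tendsto (fun k =>
    (hW (φ k)).posSemidef.smul (Complex.zero_le_real.2 (hs0 (φ k)).le)) hXl
  have hL : lyap A₀ X = ((s₀ : ℂ) * (2 * I)) • 1 := by
    have h1 : Tendsto (fun k => lyap (A (φ k)) ((s (φ k) : ℂ) • W (φ k))) atTop (𝓝 (lyap A₀ X)) :=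
      (hAl.mul hXl).sub (hXl.mul ((continuous_id.matrix_conjTranspose.tendsto A₀).comp hAl))
    have h2 : Tendsto (fun k => ((s (φ k) : ℂ) * (2 * I)) • (1 : Matrix n n ℂ)) atTop
        (𝓝 (((s₀ : ℂ) * (2 * I)) • 1)) :=
      (((continuous_ofReal.tendsto s₀).comp hs).mul_const _).smul_const _
    refine tendsto_nhds_unique h1 (h2.congr fun k => ?_)
    rw [← smul_smul, ← e (φ k)]
    simp only [lyap, Matrix.mul_smul, Matrix.smul_mul, smul_sub]
  have hs00 : 0 ≤ s₀ := ge_of_tendsto' hs fun k => (hs0 (φ k)).le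
  rcases hs00.eq_or_lt with h0 | h0
  · exfalso
    have hn : Tendsto (fun k => ‖(s (φ k) : ℂ) • W (φ k)‖ + s (φ k)) atTop (𝓝 (‖X‖ + s₀)) :=
      hXl.norm.add hs
    have hc : ‖X‖ + s₀ = 1 := by
      refine tendsto_nhds_unique hn (tendsto_const_nhds.congr fun k => ?_)
      rw [norm_smul, Complex.norm_real, Real.norm_eq_abs, abs_of_pos (hs0 _)]
      simp only [s]
      field_simp
      ring
    have hX0 : X = 0 := eq_zero_of_noReal hp hXp (by
      rw [← h0] at hL; simpa [lyap, sub_eq_zero] using hL)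
    rw [hX0, norm_zero, zero_add] at hc
    linarith
  · refine ⟨((s₀⁻¹ : ℝ) : ℂ) • X, ?_, ?_⟩
    · have hp' : (((s₀⁻¹ : ℝ) : ℂ) • X).PosSemidef := hXp.smul (Complex.zero_le_real.2 (by positivity))
      refine Matrix.PosDef.of_dotProduct_mulVec_pos hp'.1 fun v hv =>
        lt_of_le_of_ne (hp'.dotProduct_mulVec_nonneg v) fun hv0 => hv ?_
      have hk : X *ᵥ v = 0 := by
        have h1 := (hp'.dotProduct_mulVec_zero_iff v).1 hv0.symm
        rw [Matrix.smul_mulVec, smul_eq_zero] at h1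
        exact h1.resolve_left (by exact_mod_cast (inv_pos.2 h0).ne')
      have hk' : star v ᵥ* X = 0 := by
        rw [← hXp.1.eq, ← star_mulVec, hk, star_zero]
      have h2 : star v ⬝ᵥ (lyap A₀ X *ᵥ v) = 0 := by
        rw [lyap, Matrix.sub_mulVec, dotProduct_sub, ← mulVec_mulVec, ← mulVec_mulVec, hk,
          Matrix.dotProduct_mulVec _ X, hk']
        simp
      rw [hL, Matrix.smul_mulVec, one_mulVec, dotProduct_smul, smul_eq_mul, mul_eq_zero] at h2
      exact dotProduct_star_self_eq_zero.1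
        (h2.resolve_left (mul_ne_zero (by exact_mod_cast h0.ne') (mul_ne_zero two_ne_zero I_ne_zero)))
    · have h1 : lyap A₀ (((s₀⁻¹ : ℝ) : ℂ) • X) = ((s₀⁻¹ : ℝ) : ℂ) • lyap A₀ X := by
        simp only [lyap, Matrix.mul_smul, Matrix.smul_mul, smul_sub]
      rw [h1, hL, smul_smul, ← mul_assoc, ← Complex.ofReal_mul, inv_mul_cancel₀ h0.ne', ofReal_one, one_mul]

/-- The real part of the code of the coefficients. -/
noncomputable def partB (z : Matrix n n ℂ) : Matrix n n ℂ := (1 / 4 : ℂ) • (z + zᴴ)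

/-- The imaginary part of the code of the coefficients. -/
noncomputable def partE (z : Matrix n n ℂ) : Matrix n n ℂ := (-I / 2) • (z - zᴴ)

omit [Fintype n] [DecidableEq n] in
lemma isHermitian_parts (z : Matrix n n ℂ) : (partB z).IsHermitian ∧ (partE z).IsHermitian := by
  constructor
  · show _ = _
    rw [partB, conjTranspose_smul, conjTranspose_add, conjTranspose_conjTranspose, add_comm zᴴ z,
      Complex.star_def, map_div₀, map_one, map_ofNat]
  · show _ = _
    rw [partE, conjTranspose_smul, conjTranspose_sub, conjTranspose_conjTranspose, Complex.star_def,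
      map_div₀, map_neg, conj_I, map_ofNat, neg_neg, ← neg_sub z zᴴ, smul_neg, ← neg_smul]
    congr 1
    ring

omit [Fintype n] [DecidableEq n] in
lemma parts_spec (z : Matrix n n ℂ) : (2 : ℂ) • partB z + I • partE z = z := by
  rw [partB, partE, smul_smul, smul_smul, show (2 : ℂ) * (1 / 4) = 1 / 2 by norm_num,
    show I * (-I / 2) = (1 / 2 : ℂ) by rw [mul_div, mul_neg, I_mul_I, neg_neg], ← smul_add,
    show z + zᴴ + (z - zᴴ) = (2 : ℂ) • z by rw [two_smul]; abel, smul_smul]
  norm_num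

lemma parts_eq {B E : Matrix n n ℂ} (hB : B.IsHermitian) (hE : E.IsHermitian) :
    partB ((2 : ℂ) • B + I • E) = B ∧ partE ((2 : ℂ) • B + I • E) = E := by
  obtain ⟨h1, h2⟩ := herm_add_I_smul_eq
    (X := (2 : ℂ) • partB ((2 : ℂ) • B + I • E) - (2 : ℂ) • B) (Y := partE ((2 : ℂ) • B + I • E) - E)
    (by
      refine IsHermitian.sub ?_ ?_ <;>
      · show _ = _
        rw [conjTranspose_smul, Complex.star_def, map_ofNat]
        first | rw [(isHermitian_parts _).1.eq] | rw [hB.eq])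
    ((isHermitian_parts _).2.sub hE) (by
      conv_rhs => rw [← sub_self ((2 : ℂ) • B + I • E)]
      nth_rewrite 3 [← parts_spec ((2 : ℂ) • B + I • E)]
      rw [smul_sub]
      abel)
  rw [← smul_sub, smul_eq_zero] at h1
  exact ⟨sub_eq_zero.1 (h1.resolve_left two_ne_zero), sub_eq_zero.1 h2⟩

/-- Existence of the root. -/
theorem exists_root {B E : Matrix n n ℂ} (h : Dom B E) :
    ∃ A, Stable A ∧ A + Aᴴ = (2 : ℂ) • B ∧ Aᴴ * A = E := by
  have : ProperSpace (Matrix n n ℂ) := FiniteDimensional.proper ℂ _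
  set S : Set (Matrix n n ℂ) := {z | Dom (partB z) (partE z)}
  have hconv : Convex ℝ S := fun z hz w hw a b ha hb hab => by
    have eB : partB (a • z + b • w) = (a : ℂ) • partB z + (b : ℂ) • partB w := by
      simp only [partB, ← Complex.coe_smul, conjTranspose_add, conjTranspose_smul, Complex.star_def,
        Complex.conj_ofReal, smul_add, smul_smul, mul_comm _ (1 / 4 : ℂ)]
      abel
    have eE : partE (a • z + b • w) = (a : ℂ) • partE z + (b : ℂ) • partE w := by
      simp only [partE, ← Complex.coe_smul, conjTranspose_add, conjTranspose_smul, Complex.star_def,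
        Complex.conj_ofReal, smul_add, smul_sub, smul_smul, mul_comm _ (-I / 2)]
      abel
    refine ⟨(isHermitian_parts _).1, (isHermitian_parts _).2, fun t => ?_⟩
    have e : pencil (partB (a • z + b • w)) (partE (a • z + b • w)) t =
        (a : ℂ) • pencil (partB z) (partE z) t + (b : ℂ) • pencil (partB w) (partE w) t := by
      have hc : ((a : ℂ) + b) = 1 := by exact_mod_cast hab
      rw [pencil, eB, eE]
      have e1 : ((t : ℂ) ^ 2) • (1 : Matrix n n ℂ) =
          (a : ℂ) • (((t : ℂ) ^ 2) • 1) + (b : ℂ) • (((t : ℂ) ^ 2) • 1) := by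
        rw [← add_smul, hc, one_smul]
      rw [e1]
      simp only [pencil, smul_add, smul_sub, smul_smul, mul_comm _ (2 * (t : ℂ))]
      abel
    rw [e]
    rcases ha.eq_or_lt with h0 | h0
    · have hb1 : b = 1 := by linarith
      simpa [← h0, hb1] using hw.pos t
    · exact ((hz.pos t).smul (Complex.zero_lt_real.2 h0)).add_posSemidef
        ((hw.pos t).posSemidef.smul (Complex.zero_le_real.2 hb))
  have hclose : closure (coeff '' {A | Stable A}) ∩ S ⊆ coeff '' {A | Stable A} := by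
    rintro z ⟨hz, hzS⟩
    obtain ⟨u, hu, hlim⟩ := mem_closure_iff_seq_limit.1 hz
    choose A hA eA using hu
    obtain ⟨C, hC⟩ := isBounded_iff_forall_norm_le.1 (Metric.isBounded_range_of_tendsto u hlim)
    have hb : ∀ k, A k ∈ Metric.closedBall (0 : Matrix n n ℂ) (Real.sqrt (2 * |C|) + 1) := fun k => by
      have e1 : ‖A k‖ * ‖A k‖ = ‖(A k)ᴴ * A k‖ := (CStarRing.norm_star_mul_self (x := A k)).symm
      have e2 : (A k)ᴴ * A k = (-I / 2) • (u k - (u k)ᴴ) := by
        obtain ⟨-, h2⟩ := (coeff_eq_iff (A := A k) (isHermitian_parts (u k)).1 (isHermitian_parts (u k)).2).1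
          (by rw [parts_spec, eA k])
        exact h2
      have h3 : ‖A k‖ * ‖A k‖ ≤ 2 * |C| := by
        rw [e1, e2, norm_smul, norm_div, norm_neg, Complex.norm_I, Complex.norm_ofNat]
        have := hC (u k) ⟨k, rfl⟩
        have h4 : ‖u k - (u k)ᴴ‖ ≤ ‖u k‖ + ‖u k‖ := (norm_sub_le _ _).trans (add_le_add le_rfl (norm_star _).le)
        linarith [le_abs_self C, norm_nonneg (u k - (u k)ᴴ)]
      rw [mem_closedBall_zero_iff]
      have := Real.le_sqrt_of_sq_le (show ‖A k‖ ^ 2 ≤ 2 * |C| by rw [sq]; exact h3)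
      linarith
    obtain ⟨A₀, -, φ, hφ, hA₀⟩ := tendsto_subseq_of_bounded Metric.isBounded_closedBall hb
    have e0 : coeff A₀ = z := tendsto_nhds_unique
      (((hasStrictFDerivAt_coeff A₀).continuousAt.tendsto).comp hA₀)
      ((hlim.comp hφ.tendsto_atTop).congr fun k => (eA (φ k)).symm)
    obtain ⟨h1, h2⟩ := (coeff_eq_iff (A := A₀) (isHermitian_parts z).1 (isHermitian_parts z).2).1
      (by rw [parts_spec, e0])
    refine ⟨A₀, stable_of_tendsto (fun k => hA (φ k)) hA₀ (fun t v hv => ?_), e0⟩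
    by_contra hv0
    have hpos := (hzS.pos t).dotProduct_mulVec_pos hv0
    rw [pencil_eq h1 h2, ← mulVec_mulVec, Matrix.sub_mulVec, smul_mulVec, one_mulVec, hv, sub_self,
      mulVec_zero, dotProduct_zero] at hpos
    exact lt_irrefl _ hpos
  have hne : (S ∩ coeff '' {A | Stable A}).Nonempty := by
    have hst : Stable ((I : ℂ) • (1 : Matrix n n ℂ)) := ⟨1, Matrix.PosDef.one, by
      rw [lyap, conjTranspose_smul, conjTranspose_one, mul_one, one_mul, Complex.star_def, conj_I,
        ← sub_smul, sub_neg_eq_add, two_mul]⟩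
    refine ⟨coeff ((I : ℂ) • 1), ?_, ⟨_, hst, rfl⟩⟩
    obtain ⟨h1, h2⟩ := (coeff_eq_iff (A := (I : ℂ) • (1 : Matrix n n ℂ))
      (isHermitian_parts (coeff ((I : ℂ) • 1))).1 (isHermitian_parts (coeff ((I : ℂ) • 1))).2).1
      (by rw [parts_spec])
    exact hst.dom (isHermitian_parts _).1 (isHermitian_parts _).2 h1 h2
  have hsub := hconv.isPreconnected.subset_of_closure_inter_subset isOpen_coeff_image hne hclose
  have hzS : (2 : ℂ) • B + I • E ∈ S := by
    show Dom _ _
    rw [(parts_eq h.hermB h.hermE).1, (parts_eq h.hermB h.hermE).2]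
    exact h
  obtain ⟨A, hA, eA⟩ := hsub hzS
  exact ⟨A, hA, (coeff_eq_iff h.hermB h.hermE).1 eA⟩

end Vale.Agent.P371.Pencil
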