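import Vale.Agent.P371.Pencil.Smooth

/-!
P371, pencils: scaling of the coefficients and the base point `(B, E) = (0, 1)`.
-/

namespace Vale.Agent.P371.Pencil

open Matrix Complex Filter Set
open scoped ComplexOrder Matrix.Norms.L2Operator Topology

variable {n : Type} [Fintype n] [DecidableEq n] {A z : Matrix n n ℂ}

/-- `partB` as a real linear map. -/
noncomputable def partBL : Matrix n n ℂ →L[ℝ] Matrix n n ℂ :=
  (1 / 4 : ℂ) • ((ContinuousLinearMap.id ℝ _) +
    (starL' ℝ : Matrix n n ℂ ≃L[ℝ] Matrix n n ℂ).toContinuousLinearMap)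

/-- `partE` as a real linear map. -/
noncomputable def partEL : Matrix n n ℂ →L[ℝ] Matrix n n ℂ :=
  (-I / 2) • ((ContinuousLinearMap.id ℝ _) -
    (starL' ℝ : Matrix n n ℂ ≃L[ℝ] Matrix n n ℂ).toContinuousLinearMap)

lemma partBL_apply (z : Matrix n n ℂ) : partBL z = partB z := rfl

lemma partEL_apply (z : Matrix n n ℂ) : partEL z = partE z := rfl

/-- The code of the linear coefficient alone. -/
noncomputable def codeB : Matrix n n ℂ →L[ℝ] Matrix n n ℂ := (2 : ℂ) • partBL

/-- The code of the constant coefficient alone. -/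
noncomputable def codeE : Matrix n n ℂ →L[ℝ] Matrix n n ℂ := (I : ℂ) • partEL

/-- The homogeneous scaling of a code. -/
noncomputable def scaleL (s : ℝ) : Matrix n n ℂ →L[ℝ] Matrix n n ℂ := s • codeB + (s * s) • codeE

lemma scaleL_apply (s : ℝ) (z : Matrix n n ℂ) :
    scaleL s z = (2 : ℂ) • ((s : ℂ) • partB z) + I • (((s : ℂ) * s) • partE z) := by
  show s • ((2 : ℂ) • partB z) + (s * s) • (I • partE z) = _
  rw [← Complex.coe_smul, ← Complex.coe_smul]
  push_cast
  module

lemma parts_scaleL (s : ℝ) (z : Matrix n n ℂ) :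
    partB (scaleL s z) = (s : ℂ) • partB z ∧ partE (scaleL s z) = ((s : ℂ) * s) • partE z := by
  rw [scaleL_apply]
  refine parts_eq ?_ ?_ <;> show _ = _
  · rw [conjTranspose_smul, (isHermitian_parts z).1.eq, Complex.star_def, Complex.conj_ofReal]
  · rw [conjTranspose_smul, (isHermitian_parts z).2.eq, Complex.star_def, map_mul, Complex.conj_ofReal]

lemma scaleL_coeff (s : ℝ) (A : Matrix n n ℂ) : scaleL s (coeff A) = coeff ((s : ℂ) • A) := by
  obtain ⟨h1, h2⟩ := (coeff_eq_iff (A := A) (isHermitian_parts (coeff A)).1 (isHermitian_parts (coeff A)).2).1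
    (by rw [parts_spec])
  rw [scaleL_apply, coeff.eq_1 ((s : ℂ) • A), conjTranspose_smul, Complex.star_def, Complex.conj_ofReal,
    ← smul_add, h1, Matrix.smul_mul, Matrix.mul_smul, h2]
  module

lemma stable_smul (h : Stable A) {s : ℝ} (hs : 0 < s) :
    Stable ((s : ℂ) • A) ∧ lyapSol ((s : ℂ) • A) = ((s⁻¹ : ℝ) : ℂ) • lyapSol A := by
  have e : lyap ((s : ℂ) • A) (((s⁻¹ : ℝ) : ℂ) • lyapSol A) = (2 * I) • 1 := by
    rw [← lyapSol_spec h.isUnit_lyapL]
    simp only [lyap, conjTranspose_smul, Complex.star_def, Complex.conj_ofReal, Matrix.smul_mul,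
      Matrix.mul_smul, smul_smul]
    rw [← Complex.ofReal_mul, ← Complex.ofReal_mul, inv_mul_cancel₀ hs.ne', mul_inv_cancel₀ hs.ne',
      Complex.ofReal_one, one_smul, one_smul]
  have hst : Stable ((s : ℂ) • A) :=
    ⟨_, h.lyapSol_posDef.smul (Complex.zero_lt_real.2 (inv_pos.2 hs)), e⟩
  exact ⟨hst, hst.lyap_inj ((lyapSol_spec hst.isUnit_lyapL).trans e.symm)⟩

lemma gOf_smul (A W : Matrix n n ℂ) {s : ℝ} (hs : 0 < s) (hA : IsUnit A) :
    gOf ((s : ℂ) • A) (((s⁻¹ : ℝ) : ℂ) • W) = ((s⁻¹ * s⁻¹ : ℝ) : ℂ) • gOf A W := by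
  have hd := (Matrix.isUnit_iff_isUnit_det A).1 hA
  have hi : ((s : ℂ) • A)⁻¹ = ((s⁻¹ : ℝ) : ℂ) • A⁻¹ := by
    refine Matrix.inv_eq_right_inv ?_
    rw [Matrix.smul_mul, Matrix.mul_smul, smul_smul, Matrix.mul_nonsing_inv A hd, ← Complex.ofReal_mul,
      mul_inv_cancel₀ hs.ne', Complex.ofReal_one, one_smul]
  rw [gOf, gOf, hi, conjTranspose_smul, Complex.star_def, Complex.conj_ofReal]
  simp only [Matrix.smul_mul, Matrix.mul_smul, smul_smul, smul_add, Complex.ofReal_mul]
  ring_nf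

/-- Scaling of the root, the weight and the multiplier. -/
theorem scale_spec (hz : z ∈ domZ) {s : ℝ} (hs : 0 < s) :
    scaleL s z ∈ domZ ∧ rootZ (scaleL s z) = (s : ℂ) • rootZ z ∧
      wZ (scaleL s z) = ((s⁻¹ : ℝ) : ℂ) • wZ z ∧ gZ (scaleL s z) = ((s⁻¹ * s⁻¹ : ℝ) : ℂ) • gZ z := by
  obtain ⟨h, he⟩ := rootZ_spec hz
  obtain ⟨hst, hw⟩ := stable_smul h hs
  have e : scaleL s z = coeff ((s : ℂ) • rootZ z) := by rw [← scaleL_coeff, he]
  have hr : rootZ (scaleL s z) = (s : ℂ) • rootZ z := by rw [e, rootZ_coeff hst]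
  refine ⟨e ▸ hst.coeff_mem, hr, ?_, ?_⟩
  · rw [wZ, hr, hw, wZ]
  · rw [gZ, wZ, hr, hw, gOf_smul _ _ hs h.isUnit, gZ, wZ]

/-- The base code. -/
noncomputable def base : Matrix n n ℂ := (I : ℂ) • 1

/-- A code shifted by a multiple of the base code. -/
noncomputable def shiftZ (z : Matrix n n ℂ) (u : ℝ) : Matrix n n ℂ := z + u • base

lemma shiftZ_eq (z : Matrix n n ℂ) (u : ℝ) :
    shiftZ z u = (2 : ℂ) • partB z + I • (partE z + (u : ℂ) • 1) := by
  rw [smul_add, ← add_assoc, parts_spec, shiftZ, base, smul_comm I (u : ℂ), Complex.coe_smul]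

lemma parts_shiftZ (z : Matrix n n ℂ) (u : ℝ) :
    partB (shiftZ z u) = partB z ∧ partE (shiftZ z u) = partE z + (u : ℂ) • 1 := by
  rw [shiftZ_eq]
  refine parts_eq (isHermitian_parts z).1 ((isHermitian_parts z).2.add ?_)
  show _ = _
  rw [conjTranspose_smul, conjTranspose_one, Complex.star_def, Complex.conj_ofReal]

lemma shiftZ_mem (hz : z ∈ domZ) {u : ℝ} (hu : 0 ≤ u) : shiftZ z u ∈ domZ := by
  show Dom (partB (shiftZ z u)) (partE (shiftZ z u))
  rw [(parts_shiftZ z u).1, (parts_shiftZ z u).2]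
  exact Dom.shift hz hu

lemma wZ_shiftZ (z : Matrix n n ℂ) (u : ℝ) : wZ (shiftZ z u) = wgt (partB z) (partE z) u := by
  rw [wZ, rootZ, (parts_shiftZ z u).1, (parts_shiftZ z u).2]
  rfl

lemma coeff_base : coeff (base (n := n)) = base := by
  simp [coeff, base, Complex.conj_I, smul_smul]

lemma base_mem : base (n := n) ∈ domZ := coeff_base (n := n) ▸ stable_I.coeff_mem

lemma rootZ_base : rootZ (base (n := n)) = base := by
  nth_rw 1 [← coeff_base]
  exact rootZ_coeff stable_I

lemma wZ_base : wZ (base (n := n)) = 1 := by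
  rw [wZ, rootZ_base]
  refine stable_I.lyap_inj ((lyapSol_spec stable_I.isUnit_lyapL).trans ?_)
  rw [lyap, conjTranspose_smul, conjTranspose_one, mul_one, one_mul, Complex.star_def, conj_I,
    ← sub_smul, sub_neg_eq_add, two_mul]

lemma gZ_base : gZ (base (n := n)) = 0 := by
  have hi : (base : Matrix n n ℂ)⁻¹ = (-I) • 1 := by
    refine Matrix.inv_eq_right_inv ?_
    rw [base, Matrix.smul_mul, one_mul, smul_smul, mul_neg, I_mul_I, neg_neg, one_smul]
  rw [gZ, gOf, rootZ_base, wZ_base, hi]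
  simp [smul_smul, Complex.conj_I]
  module

lemma scaleL_base (s : ℝ) : scaleL s (base (n := n)) = (s * s) • base := by
  have h := scaleL_coeff s (base (n := n))
  rw [coeff_base] at h
  rw [h, coeff, base, ← Complex.coe_smul]
  simp [Complex.conj_I, smul_smul]
  ring_nf
  simp [I_pow_three]

/-- Every shifted code is a scaling of a code near the base one. -/
theorem scale_shiftZ (hz : z ∈ domZ) {u : ℝ} (hu : 0 < u) :
    base + scaleL (Real.sqrt u)⁻¹ z ∈ domZ ∧
      wZ (shiftZ z u) = (Real.sqrt u)⁻¹ • wZ (base + scaleL (Real.sqrt u)⁻¹ z) ∧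
      gZ (shiftZ z u) = ((Real.sqrt u)⁻¹ * (Real.sqrt u)⁻¹) • gZ (base + scaleL (Real.sqrt u)⁻¹ z) := by
  set s := (Real.sqrt u)⁻¹ with hs
  have hs0 : 0 < s := inv_pos.2 (Real.sqrt_pos.2 hu)
  have e : scaleL s (shiftZ z u) = base + scaleL s z := by
    rw [shiftZ, map_add, map_smul, scaleL_base, smul_smul, hs, ← mul_inv, Real.mul_self_sqrt hu.le,
      mul_inv_cancel₀ hu.ne', one_smul, add_comm]
  obtain ⟨h1, -, h3, h4⟩ := scale_spec (shiftZ_mem hz hu.le) hs0
  rw [e] at h1 h3 h4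
  refine ⟨h1, ?_, ?_⟩
  · rw [h3, ← Complex.coe_smul, smul_smul, ← Complex.ofReal_mul, mul_inv_cancel₀ hs0.ne', Complex.ofReal_one,
      one_smul]
  · rw [h4, ← Complex.coe_smul, smul_smul, ← Complex.ofReal_mul,
      show s * s * (s⁻¹ * s⁻¹) = 1 by field_simp, Complex.ofReal_one, one_smul]

/-- The weight is stationary in the linear coefficient at the base point. -/
theorem fderiv_wZ_base_codeB : (fderiv ℝ wZ (base (n := n))).comp codeB = 0 := by
  refine ContinuousLinearMap.ext fun k => ?_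
  set H : Matrix n n ℂ := partB k
  have hb := base_mem (n := n)
  have hk : fderiv ℝ rootZ base (codeB k) = H := by
    have h := (hasStrictFDerivAt_rootZ (A := base (n := n)) stable_I).hasFDerivAt
    rw [coeff_base] at h
    rw [h.fderiv]
    show (coeffEquiv stable_I).symm (codeB k) = H
    rw [ContinuousLinearEquiv.symm_apply_eq]
    show (2 : ℂ) • partB k = coeffD base H
    rw [coeffD_apply, (isHermitian_parts k).1.eq, two_smul, base, conjTranspose_smul, conjTranspose_one,
      Matrix.smul_mul, Matrix.mul_smul, one_mul, mul_one, ← add_smul, Complex.star_def, conj_I,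
      neg_add_cancel, zero_smul, smul_zero, add_zero]
  have hr : HasFDerivAt rootZ (fderiv ℝ rootZ (base (n := n))) base :=
    ((contDiffAt_rootZ (k := 2) (by norm_num) hb).differentiableAt (by norm_num)).hasFDerivAt
  have hw : HasFDerivAt wZ (fderiv ℝ wZ (base (n := n))) base :=
    ((contDiffAt_wZ (k := 2) (by norm_num) hb).differentiableAt (by norm_num)).hasFDerivAt
  set S := (starL' ℝ : Matrix n n ℂ ≃L[ℝ] Matrix n n ℂ).toContinuousLinearMap
  have hl : HasFDerivAt (fun w => rootZ w * wZ w - wZ w * S (rootZ w)) _ base :=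
    (hr.mul' hw).sub (hw.mul' (S.hasFDerivAt.comp _ hr))
  have h0 : HasFDerivAt (fun w => rootZ w * wZ w - wZ w * S (rootZ w)) (0 : Matrix n n ℂ →L[ℝ] Matrix n n ℂ)
      base := (hasFDerivAt_const ((2 * I) • (1 : Matrix n n ℂ)) base).congr_of_eventuallyEq <| by
    filter_upwards [isOpen_domZ.mem_nhds hb] with w hw using lyapSol_spec (rootZ_spec hw).1.isUnit_lyapL
  have := DFunLike.congr_fun (hl.unique h0) (codeB k)
  simp only [_root_.sub_apply, _root_.add_apply, _root_.smul_apply,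
    ContinuousLinearMap.comp_apply, smul_eq_mul, MulOpposite.smul_eq_mul_unop, MulOpposite.unop_op,
    _root_.zero_apply, rootZ_base, wZ_base, hk] at this
  rw [show S H = H from (isHermitian_parts k).1.eq, show S base = -base by
    show (base : Matrix n n ℂ)ᴴ = -base
    simp [base, Complex.conj_I]] at this
  set dW := fderiv ℝ wZ base (codeB k) with hdW
  show dW = 0
  simp only [base, Matrix.smul_mul, Matrix.mul_smul, Matrix.mul_neg, one_mul, mul_one] at this
  have h2 : (2 * I) • dW = 0 := by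
    rw [two_mul, add_smul]
    linear_combination (norm := module) this
  exact (smul_eq_zero.1 h2).resolve_left (mul_ne_zero two_ne_zero I_ne_zero)

end Vale.Agent.P371.Pencil
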