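import Vale.Agent.P371.Pencil.Key

/-!
P371, pencils: smoothness of the root in the coefficients and the symmetric form `Im tr(A⁻¹ dA)`.
-/

namespace Vale.Agent.P371.Pencil

open Matrix Complex Filter Set
open scoped ComplexOrder Matrix.Norms.L2Operator Topology

variable {n : Type} [Fintype n] [DecidableEq n] {A z : Matrix n n ℂ}

lemma contDiffAt_inverse_ring {R : Type} [NormedRing R] [NormedAlgebra ℝ R] [HasSummableGeomSeries R]
    {x : R} (h : IsUnit x) {k : WithTop ℕ∞} : ContDiffAt ℝ k Ring.inverse x := by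
  obtain ⟨u, rfl⟩ := h; exact contDiffAt_ringInverse ℝ u

lemma hasFDerivAt_inverse_ring {R : Type} [NormedRing R] [NormedAlgebra ℝ R] [HasSummableGeomSeries R]
    {x : R} (h : IsUnit x) : HasFDerivAt Ring.inverse
      (-(ContinuousLinearMap.mulLeftRight ℝ R (Ring.inverse x) (Ring.inverse x))) x := by
  obtain ⟨u, rfl⟩ := h
  rw [Ring.inverse_unit]
  exact hasFDerivAt_ringInverse u

/-- The codes of positive pencils. -/
def domZ : Set (Matrix n n ℂ) := {z | Dom (partB z) (partE z)}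

lemma Stable.coeff_mem (h : Stable A) : coeff A ∈ domZ (n := n) := by
  obtain ⟨hB, hE⟩ := isHermitian_parts (coeff A)
  obtain ⟨h1, h2⟩ := (coeff_eq_iff (A := A) hB hE).1 (by rw [parts_spec])
  exact h.dom hB hE h1 h2

lemma rootZ_spec (hz : z ∈ domZ) : Stable (rootZ z) ∧ coeff (rootZ z) = z := by
  obtain ⟨hs, h1, h2⟩ := root_spec hz
  refine ⟨hs, ?_⟩
  rw [rootZ, (coeff_eq_iff (isHermitian_parts z).1 (isHermitian_parts z).2).2 ⟨h1, h2⟩, parts_spec]

lemma domZ_eq_image : (domZ : Set (Matrix n n ℂ)) = coeff '' {A | Stable A} :=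
  Set.ext fun z => ⟨fun hz => ⟨rootZ z, rootZ_spec hz⟩, by rintro ⟨A, hA, rfl⟩; exact hA.coeff_mem⟩

lemma isOpen_domZ : IsOpen (domZ : Set (Matrix n n ℂ)) := by
  rw [domZ_eq_image]; exact isOpen_coeff_image

lemma contDiff_coeff {k : WithTop ℕ∞} : ContDiff ℝ k (coeff (n := n)) := by
  have hs : ContDiff ℝ k fun X : Matrix n n ℂ => Xᴴ :=
    (starL' ℝ : Matrix n n ℂ ≃L[ℝ] Matrix n n ℂ).contDiff
  exact (contDiff_id.add hs).add ((hs.mul contDiff_id).const_smul (I : ℂ))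

/-- The root depends smoothly on the coefficients. -/
lemma contDiffAt_rootZ {k : WithTop ℕ∞} (hk : k ≠ 0) (hz : z ∈ domZ) : ContDiffAt ℝ k rootZ z := by
  obtain ⟨hs, he⟩ := rootZ_spec hz
  have hc : ContDiffAt ℝ k coeff (rootZ z) := contDiff_coeff.contDiffAt
  have hd : HasStrictFDerivAt coeff (coeffEquiv hs : Matrix n n ℂ →L[ℝ] Matrix n n ℂ) (rootZ z) :=
    hasStrictFDerivAt_coeff _
  have h := hc.to_localInverse hd.hasFDerivAt hk
  rw [he] at h
  refine h.congr_of_eventuallyEq ?_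
  set φ := hc.toOpenPartialHomeomorph coeff hd.hasFDerivAt hk
  set li := hc.localInverse hd.hasFDerivAt hk
  have hli : li (coeff (rootZ z)) = rootZ z := hc.localInverse_apply_image hd.hasFDerivAt hk
  rw [he] at hli
  have hmem : z ∈ φ.target := he ▸ hc.image_mem_toOpenPartialHomeomorph_target hd.hasFDerivAt hk
  filter_upwards [φ.open_target.mem_nhds hmem,
    h.continuousAt.preimage_mem_nhds (isOpen_stable.mem_nhds (by rw [hli]; exact hs))] with w hw hws
  have e : coeff (li w) = w := φ.right_inv hw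
  conv_lhs => rw [← e]
  exact rootZ_coeff hws

lemma contDiff_lyapL {k : WithTop ℕ∞} : ContDiff ℝ k (lyapL (n := n)) := by
  set L := ContinuousLinearMap.mul ℂ (Matrix n n ℂ)
  have hs : ContDiff ℝ k fun X : Matrix n n ℂ => Xᴴ :=
    (starL' ℝ : Matrix n n ℂ ≃L[ℝ] Matrix n n ℂ).contDiff
  have h1 : ContDiff ℝ k (L.restrictScalars ℝ) := (L.restrictScalars ℝ).contDiff
  have h2 : ContDiff ℝ k (L.flip.restrictScalars ℝ) := (L.flip.restrictScalars ℝ).contDiff
  exact h1.sub (h2.comp hs)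

lemma contDiffAt_lyapSol {k : WithTop ℕ∞} (h : IsUnit (lyapL A)) : ContDiffAt ℝ k lyapSol A := by
  have hi : ContDiffAt ℝ k (Ring.inverse (M₀ := Matrix n n ℂ →L[ℂ] Matrix n n ℂ)) (lyapL A) :=
    contDiffAt_inverse_ring (R := Matrix n n ℂ →L[ℂ] Matrix n n ℂ) h
  set ev := (ContinuousLinearMap.apply ℂ (Matrix n n ℂ) ((2 * I) • (1 : Matrix n n ℂ))).restrictScalars ℝ
  exact ev.contDiff.contDiffAt.comp A (hi.comp A contDiff_lyapL.contDiffAt)

lemma Stable.isUnit (h : Stable A) : IsUnit A := by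
  have h0 := (h.posDef_pencil 0).isUnit
  simp only [Complex.ofReal_zero, zero_smul, zero_sub, conjTranspose_neg, Matrix.neg_mul, Matrix.mul_neg,
    neg_neg] at h0
  rw [Matrix.isUnit_iff_isUnit_det, Matrix.det_mul] at h0
  exact (Matrix.isUnit_iff_isUnit_det A).2 (IsUnit.mul_iff.1 h0).2

lemma contDiffAt_inv {k : WithTop ℕ∞} (h : IsUnit A) :
    ContDiffAt ℝ k (fun X : Matrix n n ℂ => X⁻¹) A := by
  obtain ⟨u, rfl⟩ := h
  exact (contDiffAt_ringInverse ℝ u).congr_of_eventuallyEq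
    (Eventually.of_forall fun X => Matrix.nonsing_inv_eq_ringInverse X)

/-- The Lyapunov solution of the root. -/
noncomputable def wZ (z : Matrix n n ℂ) : Matrix n n ℂ := lyapSol (rootZ z)

/-- The multiplier of the constant coefficient. -/
noncomputable def gOf (A W : Matrix n n ℂ) : Matrix n n ℂ :=
  (1 / 2 : ℂ) • (A⁻¹ * W) + (I / 2) • (A⁻¹ * (A⁻¹)ᴴ)

/-- The multiplier of the constant coefficient at a pencil. -/
noncomputable def gZ (z : Matrix n n ℂ) : Matrix n n ℂ := gOf (rootZ z) (wZ z)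

lemma contDiffAt_wZ {k : WithTop ℕ∞} (hk : k ≠ 0) (hz : z ∈ domZ) : ContDiffAt ℝ k wZ z :=
  (contDiffAt_lyapSol (rootZ_spec hz).1.isUnit_lyapL).comp z (contDiffAt_rootZ hk hz)

lemma contDiffAt_gZ {k : WithTop ℕ∞} (hk : k ≠ 0) (hz : z ∈ domZ) : ContDiffAt ℝ k gZ z := by
  have hi := (contDiffAt_inv (k := k) (rootZ_spec hz).1.isUnit).comp z (contDiffAt_rootZ hk hz)
  have hs : ContDiffAt ℝ k (fun w => ((rootZ w)⁻¹)ᴴ) z :=
    (starL' ℝ : Matrix n n ℂ ≃L[ℝ] Matrix n n ℂ).contDiff.contDiffAt.comp z hi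
  exact ((hi.mul (contDiffAt_wZ hk hz)).const_smul (1 / 2 : ℂ)).add ((hi.mul hs).const_smul (I / 2))

variable {W : Matrix n n ℂ}

lemma isHermitian_gOf (hA : IsUnit A) (hW : W.IsHermitian) (e : lyap A W = (2 * I) • 1) :
    (gOf A W).IsHermitian := by
  have hd := (Matrix.isUnit_iff_isUnit_det A).1 hA
  have h1 : A⁻¹ * (lyap A W) * (A⁻¹)ᴴ = W * (A⁻¹)ᴴ - A⁻¹ * W := by
    rw [lyap, Matrix.mul_sub, Matrix.sub_mul, ← Matrix.mul_assoc A⁻¹ A W, Matrix.nonsing_inv_mul A hd,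
      one_mul, ← Matrix.mul_assoc A⁻¹ W Aᴴ, Matrix.mul_assoc (A⁻¹ * W), ← conjTranspose_mul,
      Matrix.nonsing_inv_mul A hd, conjTranspose_one, mul_one]
  rw [e, Matrix.mul_smul, mul_one, Matrix.smul_mul] at h1
  show _ = _
  rw [gOf, conjTranspose_add, conjTranspose_smul, conjTranspose_smul, conjTranspose_mul, conjTranspose_mul,
    conjTranspose_conjTranspose, hW.eq, show W * (A⁻¹)ᴴ = A⁻¹ * W + (2 * I) • (A⁻¹ * (A⁻¹)ᴴ) by
      rw [h1]; abel, smul_add, smul_smul]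
  simp only [Complex.star_def, map_div₀, map_one, map_ofNat, Complex.conj_I]
  module

/-- The functional `H ↦ Im tr(Z H)`. -/
noncomputable def imPair : Matrix n n ℂ →L[ℝ] Matrix n n ℂ →L[ℝ] ℝ :=
  (ContinuousLinearMap.compL ℝ (Matrix n n ℂ) (Matrix n n ℂ) ℝ
    (Complex.imCLM.comp (LinearMap.toContinuousLinearMap ((Matrix.traceLinearMap n ℂ ℂ).restrictScalars ℝ)))).comp
    (ContinuousLinearMap.mul ℝ (Matrix n n ℂ))

lemma imPair_apply (Z H : Matrix n n ℂ) : imPair Z H = (Z * H).trace.im := rfl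

/-- The differential of the argument of the determinant of the root. -/
noncomputable def dArg (z : Matrix n n ℂ) : Matrix n n ℂ →L[ℝ] ℝ :=
  (imPair (rootZ z)⁻¹).comp (fderiv ℝ rootZ z)

lemma coeffD_fderiv (hz : z ∈ domZ) (k : Matrix n n ℂ) : coeffD (rootZ z) (fderiv ℝ rootZ z k) = k := by
  obtain ⟨hs, he⟩ := rootZ_spec hz
  have h := (hasStrictFDerivAt_rootZ hs).hasFDerivAt
  rw [he] at h
  rw [h.fderiv]
  exact (coeffEquiv hs).apply_symm_apply k

/-- Its two components. -/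
theorem dArg_eq (hz : z ∈ domZ) (k : Matrix n n ℂ) :
    dArg z k = (gZ z * partE k).trace.re - (wZ z * partB k).trace.re := by
  set A := rootZ z
  set W := wZ z
  set H := fderiv ℝ rootZ z k
  have hs := (rootZ_spec hz).1
  have e : lyap A W = (2 * I) • 1 := lyapSol_spec hs.isUnit_lyapL
  have hd := (Matrix.isUnit_iff_isUnit_det A).1 hs.isUnit
  have hk : (H + Hᴴ) + I • (Aᴴ * H + Hᴴ * A) = k := coeffD_fderiv hz k
  have hX : (H + Hᴴ).IsHermitian := by
    show _ = _; rw [conjTranspose_add, conjTranspose_conjTranspose, add_comm]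
  have hY : (Aᴴ * H + Hᴴ * A).IsHermitian := by
    show _ = _
    rw [conjTranspose_add, conjTranspose_mul, conjTranspose_mul, conjTranspose_conjTranspose,
      conjTranspose_conjTranspose, add_comm]
  obtain ⟨hB, hE⟩ := parts_eq (B := (1 / 2 : ℂ) • (H + Hᴴ)) (E := Aᴴ * H + Hᴴ * A)
    (by show _ = _; rw [conjTranspose_smul, hX.eq]; simp) hY
  rw [smul_smul, show (2 : ℂ) * (1 / 2) = 1 by norm_num, one_smul, hk] at hB hE
  set τ := (A⁻¹ * H).trace
  have hWA : A⁻¹ * W * Aᴴ = W - (2 * I) • A⁻¹ := by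
    have h1 := congrArg (fun X => A⁻¹ * X) e
    simp only [lyap, Matrix.mul_sub, Matrix.mul_smul, mul_one, ← Matrix.mul_assoc,
      Matrix.nonsing_inv_mul A hd, one_mul] at h1
    rw [← h1]; abel
  have hAA : (A⁻¹)ᴴ * Aᴴ = 1 := by
    rw [← conjTranspose_mul, Matrix.mul_nonsing_inv A hd, conjTranspose_one]
  have t1 : (A⁻¹ * W * (Aᴴ * H)).trace = (W * H).trace - 2 * I * τ := by
    rw [← Matrix.mul_assoc, hWA, Matrix.sub_mul, Matrix.trace_sub, Matrix.smul_mul, Matrix.trace_smul,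
      smul_eq_mul]
  have t2 : (A⁻¹ * W * (Hᴴ * A)).trace = (W * Hᴴ).trace := by
    rw [Matrix.trace_mul_comm, Matrix.mul_assoc Hᴴ, ← Matrix.mul_assoc A,
      Matrix.mul_nonsing_inv A hd, one_mul, Matrix.trace_mul_comm]
  have t3 : (A⁻¹ * (A⁻¹)ᴴ * (Aᴴ * H)).trace = τ := by
    rw [Matrix.mul_assoc A⁻¹, ← Matrix.mul_assoc (A⁻¹)ᴴ, hAA, one_mul]
  have t4 : (A⁻¹ * (A⁻¹)ᴴ * (Hᴴ * A)).trace = star τ := by
    rw [Matrix.trace_mul_comm, Matrix.mul_assoc Hᴴ, ← Matrix.mul_assoc A, Matrix.mul_nonsing_inv A hd,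
      one_mul, ← conjTranspose_mul, Matrix.trace_conjTranspose]
  have main : (gOf A W * (Aᴴ * H + Hᴴ * A)).trace =
      (W * ((1 / 2 : ℂ) • (H + Hᴴ))).trace + (τ.im : ℂ) := by
    rw [gOf]
    simp only [Matrix.add_mul, Matrix.smul_mul, Matrix.mul_add, Matrix.mul_smul, Matrix.trace_add,
      Matrix.trace_smul, smul_eq_mul, t1, t2, t3, t4]
    rw [Complex.im_eq_sub_conj, Complex.star_def]
    field_simp
    linear_combination (-(τ - (starRingEnd ℂ) τ)) * I_sq
  rw [← hE, ← hB] at main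
  show imPair A⁻¹ H = _
  rw [imPair_apply, show gZ z = gOf A W from rfl, main, Complex.add_re, Complex.ofReal_re]
  ring

/-- Mixed second derivatives agree. -/
theorem fderiv_dArg_symm (hz : z ∈ domZ) (h k : Matrix n n ℂ) :
    fderiv ℝ (fun w => dArg w k) z h = fderiv ℝ (fun w => dArg w h) z k := by
  obtain ⟨hs, -⟩ := rootZ_spec hz
  have hr : ContDiffAt ℝ 2 rootZ z := contDiffAt_rootZ (by norm_num) hz
  have hinv : HasFDerivAt (fun w => (rootZ w)⁻¹)
      ((-(ContinuousLinearMap.mulLeftRight ℝ (Matrix n n ℂ) (rootZ z)⁻¹ (rootZ z)⁻¹)).comp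
        (fderiv ℝ rootZ z)) z := by
    rw [Matrix.nonsing_inv_eq_ringInverse (rootZ z)]
    exact ((hasFDerivAt_inverse_ring hs.isUnit).comp z
      (hr.differentiableAt (by norm_num)).hasFDerivAt).congr_of_eventuallyEq
      (Eventually.of_forall fun w => Matrix.nonsing_inv_eq_ringInverse _)
  have h2 : HasFDerivAt (fderiv ℝ rootZ) (fderiv ℝ (fderiv ℝ rootZ) z) z :=
    ((hr.fderiv_right (m := 1) (by norm_num)).differentiableAt (by norm_num)).hasFDerivAt
  have hd : ∀ j : Matrix n n ℂ, ∀ i : Matrix n n ℂ, fderiv ℝ (fun w => dArg w j) z i =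
      imPair (rootZ z)⁻¹ (fderiv ℝ (fderiv ℝ rootZ) z i j) +
        imPair (-((rootZ z)⁻¹ * fderiv ℝ rootZ z i * (rootZ z)⁻¹)) (fderiv ℝ rootZ z j) := fun j i => by
    have h3 := (imPair (n := n)).hasFDerivAt_of_bilinear hinv
      ((ContinuousLinearMap.apply ℝ (Matrix n n ℂ) j).hasFDerivAt.comp z h2)
    have h4 : HasFDerivAt (fun w => dArg w j) _ z := h3
    rw [h4.fderiv]
    rfl
  have hsymm : fderiv ℝ (fderiv ℝ rootZ) z h k = fderiv ℝ (fderiv ℝ rootZ) z k h :=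
    hr.isSymmSndFDerivAt (by simp) h k
  rw [hd, hd, hsymm]
  congr 1
  simp only [imPair_apply, Matrix.neg_mul, Matrix.trace_neg, Matrix.mul_assoc]
  congr 2
  rw [← Matrix.mul_assoc, Matrix.trace_mul_comm]
  simp only [Matrix.mul_assoc]

end Vale.Agent.P371.Pencil
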