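import Mathlib

/-!
P371, pencils: roots of a positive quadratic pencil with spectrum in the upper half plane, certified
by a positive solution of their Lyapunov equation.
-/

namespace Vale.Agent.P371.Pencil

open Matrix Complex
open scoped ComplexOrder

variable {n : Type} [Fintype n] [DecidableEq n]

/-- The Lyapunov operator of `A`. -/
def lyap (A X : Matrix n n ℂ) : Matrix n n ℂ := A * X - X * Aᴴ

/-- `A` has a positive solution of its Lyapunov equation. -/
def Stable (A : Matrix n n ℂ) : Prop := ∃ W : Matrix n n ℂ, W.PosDef ∧ lyap A W = (2 * I) • 1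

variable {A A₁ A₂ D U X Y : Matrix n n ℂ}

omit [DecidableEq n] in
lemma trace_sandwich_nonneg (hU : U.PosSemidef) (Y : Matrix n n ℂ) : 0 ≤ (Yᴴ * U * Y).trace :=
  (hU.conjTranspose_mul_mul_same Y).trace_nonneg

lemma eq_zero_of_sandwich (hU : U.PosDef) (h : (Yᴴ * U * Y).trace = 0) : Y = 0 := by
  have h0 : Yᴴ * U * Y = 0 := (hU.posSemidef.conjTranspose_mul_mul_same Y).trace_eq_zero_iff.1 h
  refine Matrix.ext_of_mulVec_single fun j => ?_
  simp only [Matrix.zero_mulVec]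
  set v := Y *ᵥ Pi.single j 1
  by_contra hv
  have h1 := hU.dotProduct_mulVec_pos hv
  have h2 : star v ⬝ᵥ (U *ᵥ v) = 0 := by
    have e : star v ⬝ᵥ (U *ᵥ v) =
        star (Pi.single j 1 : n → ℂ) ⬝ᵥ ((Yᴴ * U * Y) *ᵥ Pi.single j 1) := by
      rw [← Matrix.mulVec_mulVec, ← Matrix.mulVec_mulVec, star_mulVec, ← Matrix.dotProduct_mulVec]
    rw [e, h0, Matrix.zero_mulVec, dotProduct_zero]
  exact h1.ne' h2

/-- No nonzero `D` intertwines the adjoint of one stable matrix with another. -/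
lemma eq_zero_of_intertwine (h₁ : Stable A₁) (h₂ : Stable A₂) (hD : A₁ᴴ * D = D * A₂) : D = 0 := by
  obtain ⟨W₁, hW₁, e₁⟩ := h₁
  obtain ⟨W₂, hW₂, e₂⟩ := h₂
  have hD' : Dᴴ * A₁ = A₂ᴴ * Dᴴ := by
    have := congrArg conjTranspose hD
    simpa using this
  set X := D * W₂ * Dᴴ
  have eX : A₁ᴴ * X - X * A₁ = (2 * I) • (D * Dᴴ) := by
    calc A₁ᴴ * X - X * A₁ = (A₁ᴴ * D) * W₂ * Dᴴ - D * W₂ * (Dᴴ * A₁) := by
          simp only [X, Matrix.mul_assoc]
      _ = D * lyap A₂ W₂ * Dᴴ := by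
          simp only [lyap, hD, hD', Matrix.mul_sub, Matrix.sub_mul, Matrix.mul_assoc]
      _ = _ := by rw [e₂]; simp
  have ht : (W₁ * (A₁ᴴ * X - X * A₁)).trace = -(2 * I) * X.trace := by
    calc (W₁ * (A₁ᴴ * X - X * A₁)).trace = (W₁ * A₁ᴴ * X).trace - (A₁ * W₁ * X).trace := by
          rw [Matrix.mul_sub, Matrix.trace_sub, ← Matrix.mul_assoc W₁ A₁ᴴ X,
            ← Matrix.mul_assoc W₁ X A₁, Matrix.trace_mul_cycle W₁ X A₁]
      _ = -(lyap A₁ W₁ * X).trace := by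
          rw [lyap, Matrix.sub_mul, Matrix.trace_sub, neg_sub]
      _ = _ := by rw [e₁]; simp
  rw [eX, Matrix.mul_smul, Matrix.trace_smul, smul_eq_mul] at ht
  have ha : (W₁ * (D * Dᴴ)).trace = (Dᴴ * W₁ * D).trace := by
    rw [← Matrix.mul_assoc, Matrix.trace_mul_cycle]
  have hb : X.trace = ((Dᴴ)ᴴ * W₂ * Dᴴ).trace := by rw [conjTranspose_conjTranspose]
  have hsum : (Dᴴ * W₁ * D).trace + X.trace = 0 := by
    have h2 : (2 : ℂ) * I ≠ 0 := mul_ne_zero two_ne_zero I_ne_zero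
    refine mul_left_cancel₀ h2 ?_
    rw [mul_add, ← ha, ht]
    ring
  have h0 : (Dᴴ * W₁ * D).trace = 0 :=
    ((add_eq_zero_iff_of_nonneg (trace_sandwich_nonneg hW₁.posSemidef D)
      (hb ▸ trace_sandwich_nonneg hW₂.posSemidef Dᴴ)).1 hsum).1
  exact eq_zero_of_sandwich hW₁ h0

/-- A stable root is determined by the two coefficients of its pencil. -/
theorem Stable.root_unique (h₁ : Stable A₁) (h₂ : Stable A₂) (hB : A₁ + A₁ᴴ = A₂ + A₂ᴴ)
    (hE : A₁ᴴ * A₁ = A₂ᴴ * A₂) : A₁ = A₂ := by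
  refine sub_eq_zero.1 (eq_zero_of_intertwine h₁ h₂ ?_)
  have h : (A₁ - A₂)ᴴ = -(A₁ - A₂) := by
    rw [conjTranspose_sub, neg_sub, sub_eq_sub_iff_add_eq_add, add_comm, hB, add_comm]
  have h2 : A₁ᴴ * (A₁ - A₂) + (A₁ - A₂)ᴴ * A₂ = 0 := by
    rw [conjTranspose_sub, Matrix.mul_sub, Matrix.sub_mul, hE]
    abel
  rw [h, Matrix.neg_mul, ← sub_eq_add_neg, sub_eq_zero] at h2
  exact h2

/-- The Lyapunov operator of a stable matrix has no kernel. -/
lemma Stable.lyap_eq_zero (h : Stable A) (hX : lyap A X = 0) : X = 0 := by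
  obtain ⟨W, hW, e⟩ := h
  rw [lyap, sub_eq_zero] at hX
  have hX' : Xᴴ * Aᴴ = A * Xᴴ := by
    have := congrArg conjTranspose hX
    simpa using this
  set U := W⁻¹ with hUdef
  have hU : U.PosDef := hW.inv
  have hUW : U * W = 1 := Matrix.nonsing_inv_mul W ((Matrix.isUnit_iff_isUnit_det W).1 hW.isUnit)
  have hWU : W * U = 1 := Matrix.mul_nonsing_inv W ((Matrix.isUnit_iff_isUnit_det W).1 hW.isUnit)
  have hUA : U * A - Aᴴ * U = (2 * I) • (U * U) := by
    calc U * A - Aᴴ * U = U * A * (W * U) - (U * W) * Aᴴ * U := by rw [hWU, hUW, mul_one, one_mul]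
      _ = U * lyap A W * U := by simp only [lyap, Matrix.mul_sub, Matrix.sub_mul, Matrix.mul_assoc]
      _ = _ := by rw [e]; simp
  set Y := X * U * Xᴴ
  have eY : lyap A Y = -((2 * I) • (X * (U * U) * Xᴴ)) := by
    calc lyap A Y = A * X * (U * Xᴴ) - X * U * (Xᴴ * Aᴴ) := by
          simp only [lyap, Y, Matrix.mul_assoc]
      _ = -(X * (U * A - Aᴴ * U) * Xᴴ) := by
          rw [hX, hX']; simp only [Matrix.mul_sub, Matrix.sub_mul, Matrix.mul_assoc, neg_sub]
      _ = _ := by rw [hUA]; simp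
  have ht : (U * lyap A Y).trace = (2 * I) * (U * U * Y).trace := by
    rw [lyap, Matrix.mul_sub, Matrix.trace_sub, ← Matrix.mul_assoc U A Y, ← Matrix.mul_assoc U Y Aᴴ,
      Matrix.trace_mul_cycle U Y Aᴴ, ← Matrix.trace_sub, ← Matrix.sub_mul, hUA, Matrix.smul_mul,
      Matrix.trace_smul, smul_eq_mul]
  rw [eY, Matrix.mul_neg, Matrix.trace_neg, Matrix.mul_smul, Matrix.trace_smul, smul_eq_mul] at ht
  have ha : (U * U * Y).trace = ((U * X)ᴴᴴ * U * (U * X)ᴴ).trace := by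
    rw [conjTranspose_conjTranspose, conjTranspose_mul, hU.isHermitian.eq]
    simp only [Y]
    rw [show U * U * (X * U * Xᴴ) = U * (U * X * U * Xᴴ) by simp only [Matrix.mul_assoc],
      Matrix.trace_mul_comm]
    simp only [Matrix.mul_assoc]
  have hb : (U * (X * (U * U) * Xᴴ)).trace = ((X * U)ᴴ * U * (X * U)).trace := by
    rw [conjTranspose_mul, hU.isHermitian.eq,
      show U * (X * (U * U) * Xᴴ) = (U * X * U) * (U * Xᴴ) by simp only [Matrix.mul_assoc],
      Matrix.trace_mul_comm]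
    simp only [Matrix.mul_assoc]
  have hsum : ((U * X)ᴴᴴ * U * (U * X)ᴴ).trace + ((X * U)ᴴ * U * (X * U)).trace = 0 := by
    refine mul_left_cancel₀ (mul_ne_zero two_ne_zero I_ne_zero : (2 : ℂ) * I ≠ 0) ?_
    rw [mul_add, ← ha, ← hb, ← ht]
    ring
  have h0 : ((X * U)ᴴ * U * (X * U)).trace = 0 :=
    ((add_eq_zero_iff_of_nonneg (trace_sandwich_nonneg hU.posSemidef _)
      (trace_sandwich_nonneg hU.posSemidef _)).1 hsum).2
  have h1 := eq_zero_of_sandwich hU h0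
  calc X = X * (U * W) := by rw [hUW, mul_one]
    _ = 0 := by rw [← Matrix.mul_assoc, h1, Matrix.zero_mul]

/-- A stable matrix has no real eigenvalue: its pencil is positive. -/
lemma Stable.posDef_pencil (h : Stable A) (t : ℝ) :
    (((t : ℂ) • 1 - A)ᴴ * ((t : ℂ) • 1 - A)).PosDef := by
  obtain ⟨W, hW, e⟩ := h
  refine Matrix.PosDef.conjTranspose_mul_self _ ?_
  rw [Matrix.mulVec_injective_iff_isUnit, ← Matrix.isUnit_conjTranspose,
    ← Matrix.mulVec_injective_iff_isUnit]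
  intro v w hvw
  rw [← sub_eq_zero, ← Matrix.mulVec_sub] at hvw
  set x := v - w
  suffices hx : x = 0 from sub_eq_zero.1 hx
  by_contra hx
  have hAx : Aᴴ *ᵥ x = (t : ℂ) • x := by
    rw [conjTranspose_sub, conjTranspose_smul, conjTranspose_one, Matrix.sub_mulVec, sub_eq_zero,
      Matrix.smul_mulVec, Matrix.one_mulVec] at hvw
    simpa using hvw.symm
  have h0 : star x ⬝ᵥ (lyap A W *ᵥ x) = 0 := by
    rw [lyap, Matrix.sub_mulVec, dotProduct_sub, ← Matrix.mulVec_mulVec, ← Matrix.mulVec_mulVec, hAx,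
      Matrix.mulVec_smul, dotProduct_smul, Matrix.dotProduct_mulVec _ A,
      show star x ᵥ* A = star (Aᴴ *ᵥ x) by rw [star_mulVec, conjTranspose_conjTranspose], hAx]
    simp
  rw [e, Matrix.smul_mulVec, Matrix.one_mulVec, dotProduct_smul, smul_eq_mul] at h0
  rcases mul_eq_zero.1 h0 with h0 | h0
  · exact (mul_ne_zero two_ne_zero I_ne_zero : (2 : ℂ) * I ≠ 0) h0
  · exact hx (dotProduct_star_self_eq_zero.1 h0)

/-- The solution of the Lyapunov equation is unique. -/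
lemma Stable.lyap_inj (h : Stable A) {X X' : Matrix n n ℂ} (e : lyap A X = lyap A X') : X = X' := by
  refine sub_eq_zero.1 (h.lyap_eq_zero ?_)
  rw [lyap, Matrix.mul_sub, Matrix.sub_mul, sub_sub_sub_comm]
  rw [lyap, lyap] at e
  rw [e, sub_self]

end Vale.Agent.P371.Pencil
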